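import Crest.Agent.R180.KPoly

/-! Classes: leading coefficients of K-polynomials. -/

set_option autoImplicit false

namespace Crest.Agent.R180

open Finset Polynomial

variable {σ : Type} [Fintype σ] [DecidableEq σ]
variable {S : Type*} [CommRing S]

/-- The substitution `t i = 1 - λ i ε`. -/
noncomputable def tt (l : σ → S) (i : σ) : S[X] := 1 - C (l i) * X

/-- The linear form of an exponent. -/
def lin (l : σ → S) (p : σ →₀ ℕ) : S := ∑ i, (p i : S) * l i

/-- The class in codimension `c`. -/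
noncomputable def cls (l : σ → S) (c : ℕ) (H : (σ →₀ ℕ) → ℤ) : S := (K (tt l) H).coeff c

/-- The cone with vertex `a` and free directions `L` lies in `X`. -/
def ConeIn (a : σ →₀ ℕ) (L : Finset σ) (Y : Set (σ →₀ ℕ)) : Prop :=
  ∀ b, a ≤ b → (∀ i ∉ L, b i = a i) → b ∈ Y

/-- All cones in `Y` have codimension at least `c`. -/
def Cod (c : ℕ) (Y : Set (σ →₀ ℕ)) : Prop := ∀ a L, ConeIn a L Y → c ≤ Lᶜ.card

lemma Cod.mono {c : ℕ} {Y Y' : Set (σ →₀ ℕ)} (h : Cod c Y) (hY : Y' ⊆ Y) : Cod c Y' :=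
  fun a L hc => h a L fun b h1 h2 => hY (hc b h1 h2)

lemma Cod.of_shift {c : ℕ} {Y Z : Set (σ →₀ ℕ)} (h : Cod c Y) (p : σ →₀ ℕ)
    (hZ : ∀ z ∈ Z, z + p ∈ Y) : Cod c Z := by
  intro a L hc
  apply h (a + p) L
  intro b h1 h2
  have hp : p ≤ b := le_trans le_add_self h1
  obtain ⟨z, rfl⟩ := exists_add_of_le hp
  rw [add_comm]
  apply hZ
  apply hc
  · rw [add_comm] at h1
    exact le_of_add_le_add_left h1
  · intro i hi
    have := h2 i hi
    simp only [Finsupp.coe_add, Pi.add_apply] at this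
    omega

omit [DecidableEq σ] in
lemma lin_add (l : σ → S) (p q : σ →₀ ℕ) : lin l (p + q) = lin l p + lin l q := by
  simp [lin, add_mul, sum_add_distrib]

lemma coeff_pow_tt (x : S) (n : ℕ) :
    ((1 - C x * X : S[X]) ^ n).coeff 0 = 1 ∧ ((1 - C x * X : S[X]) ^ n).coeff 1 = - (n * x) := by
  induction n with
  | zero => simp [coeff_one]
  | succ n ih =>
    rw [pow_succ, mul_coeff_zero, mul_coeff_one, ih.1, ih.2]
    simp [coeff_one]
    ring

omit [DecidableEq σ] in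
lemma coeff_mon (l : σ → S) (p : σ →₀ ℕ) :
    (mon (tt l) p).coeff 0 = 1 ∧ (mon (tt l) p).coeff 1 = - lin l p := by
  classical
  unfold mon lin
  induction (univ : Finset σ) using Finset.induction_on with
  | empty => simp [coeff_one]
  | insert j s hj ih =>
    rw [prod_insert hj, sum_insert hj, mul_coeff_zero, mul_coeff_one, ih.1, ih.2, tt,
      (coeff_pow_tt _ _).1, (coeff_pow_tt _ _).2]
    constructor <;> ring

omit [DecidableEq σ] in
lemma term_tt (l : σ → S) (R : σ → ℕ) (a : σ →₀ ℕ) :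
    term (tt l) R a = X ^ (univ.filter fun i => a i < R i).card *
      (mon (tt l) a * C (∏ i ∈ univ.filter fun i => a i < R i, l i)) := by
  simp only [term, fac, prod_mul_distrib, mon, prod_ite, prod_const_one, mul_one, tt,
    sub_sub_cancel, map_prod, prod_const]
  ring

omit [Fintype σ] [DecidableEq σ] in
lemma Stab.coneIn {R : σ → ℕ} {H : (σ →₀ ℕ) → ℤ} (h : Stab R H) {a : σ →₀ ℕ} (ha : H a ≠ 0)
    (L : Finset σ) (hL : ∀ i ∈ L, ¬ a i < R i) : ConeIn a L {b | H b ≠ 0} := by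
  intro b h1 h2
  show H b ≠ 0
  rw [← h a b]
  · exact ha
  · intro i
    by_cases hi : i ∈ L
    · have := hL i hi
      have := Finsupp.le_def.1 h1 i
      omega
    · rw [h2 i hi]

lemma Stab.le_card {R : σ → ℕ} {H : (σ →₀ ℕ) → ℤ} (h : Stab R H) {c : ℕ}
    (hc : Cod c {b | H b ≠ 0}) {a : σ →₀ ℕ} (ha : H a ≠ 0) :
    c ≤ (univ.filter fun i => a i < R i).card := by
  have := hc a (univ.filter fun i => a i < R i)ᶜ (h.coneIn ha _ (by simp))
  rwa [compl_compl] at this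

lemma X_pow_dvd_K (l : σ → S) {H : (σ →₀ ℕ) → ℤ} (h : Tame H) {c : ℕ}
    (hc : Cod c {b | H b ≠ 0}) : X ^ c ∣ K (tt l) H := by
  obtain ⟨R, h⟩ := h
  rw [K_eq _ h, KR]
  apply dvd_sum
  intro a _
  by_cases ha : H a = 0
  · simp [ha]
  · rw [term_tt]
    exact Dvd.dvd.mul_left (Dvd.dvd.mul_right (pow_dvd_pow _ (h.le_card hc ha)) _) _

lemma cls_eq_zero_of_lt (l : σ → S) {H : (σ →₀ ℕ) → ℤ} (h : Tame H) {c c' : ℕ}
    (hc : Cod c' {b | H b ≠ 0}) (hlt : c < c') : cls l c H = 0 :=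
  X_pow_dvd_iff.1 (X_pow_dvd_K l h hc) c hlt

lemma cls_formula (l : σ → S) {R : σ → ℕ} {H : (σ →₀ ℕ) → ℤ} (h : Stab R H) {c : ℕ}
    (hc : Cod c {b | H b ≠ 0}) :
    cls l c H = ∑ a ∈ box R, (H a : S) * if (univ.filter fun i => a i < R i).card = c then
      ∏ i ∈ univ.filter fun i => a i < R i, l i else 0 := by
  rw [cls, K_eq _ h, KR, finsetSum_coeff]
  apply sum_congr rfl
  intro a _
  by_cases ha : H a = 0
  · simp [ha]
  · have hle := h.le_card hc ha
    rw [term_tt, ← C_eq_intCast, coeff_C_mul, coeff_X_pow_mul']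
    congr 1
    split_ifs with h1 h2 h2
    · rw [h2, Nat.sub_self, mul_coeff_zero, (coeff_mon _ _).1, coeff_C_zero, one_mul]
    · omega
    · omega
    · rfl

omit [DecidableEq σ] in
lemma coeff_mon_mul (l : σ → S) (p : σ →₀ ℕ) {κ : S[X]} {c : ℕ} (h : X ^ c ∣ κ) :
    (mon (tt l) p * κ).coeff c = κ.coeff c ∧
      (mon (tt l) p * κ).coeff (c + 1) = κ.coeff (c + 1) - lin l p * κ.coeff c := by
  obtain ⟨κ, rfl⟩ := h
  rw [mul_left_comm]
  have h0 : ∀ q : S[X], (X ^ c * q).coeff c = q.coeff 0 := fun q => by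
    simpa using coeff_X_pow_mul q c 0
  have h1 : ∀ q : S[X], (X ^ c * q).coeff (c + 1) = q.coeff 1 := fun q => by
    simpa [add_comm] using coeff_X_pow_mul q c 1
  rw [h0, h0, h1, h1, mul_coeff_zero, mul_coeff_one, (coeff_mon _ _).1, (coeff_mon _ _).2]
  constructor <;> ring

lemma map_cls {S' : Type*} [CommRing S'] (φ : S →+* S') (l : σ → S) (c : ℕ)
    (H : (σ →₀ ℕ) → ℤ) : φ (cls l c H) = cls (fun i => φ (l i)) c H := by
  rw [cls, cls, ← coeff_map, ← coe_mapRingHom, map_K]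
  congr 2
  ext1 i
  simp [tt]

lemma cls_add (l : σ → S) (c : ℕ) {H H' : (σ →₀ ℕ) → ℤ} (h : Tame H) (h' : Tame H') :
    cls l c (H + H') = cls l c H + cls l c H' := by
  rw [cls, K_add _ h h', coeff_add, cls, cls]

lemma cod_succ {H : (σ →₀ ℕ) → ℤ} (h : Tame H) (hpos : ∀ a, 0 ≤ H a) {c : ℕ}
    (hc : Cod c {b | H b ≠ 0}) (h0 : cls (fun _ => (1 : ℤ)) c H = 0) :
    Cod (c + 1) {b | H b ≠ 0} := by
  obtain ⟨R, h⟩ := h
  rw [cls_formula _ h hc] at h0
  simp only [prod_const_one, Int.cast_id] at h0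
  rw [sum_eq_zero_iff_of_nonneg (fun a _ => mul_nonneg (hpos a) (by split_ifs <;> simp))] at h0
  intro b L hL
  let a : σ →₀ ℕ := Finsupp.equivFunOnFinite.symm fun i => if i ∈ L then R i else min (b i) (R i)
  have ha : ∀ i, a i = if i ∈ L then R i else min (b i) (R i) := fun i => rfl
  let b' : σ →₀ ℕ := Finsupp.equivFunOnFinite.symm fun i => if i ∈ L then b i + R i else b i
  have hb' : ∀ i, b' i = if i ∈ L then b i + R i else b i := fun i => rfl
  have h1 : H b' ≠ 0 := by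
    apply hL b'
    · rw [Finsupp.le_def]
      intro i
      rw [hb']
      split_ifs <;> omega
    · intro i hi
      rw [hb', if_neg hi]
  have h2 : H a ≠ 0 := by
    rw [h a b']
    · exact h1
    · intro i
      rw [ha, hb']
      split_ifs <;> omega
  have h3 := h0 a (mem_box.2 fun i => by rw [ha]; split_ifs <;> omega)
  have h4 := h.le_card hc h2
  have h5 : (univ.filter fun i => a i < R i).card ≠ c := by
    intro h5
    rw [if_pos h5, mul_one] at h3
    exact h2 h3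
  have h6 : (univ.filter fun i => a i < R i).card ≤ Lᶜ.card := by
    apply card_le_card
    intro i hi
    rw [mem_filter, ha] at hi
    rw [mem_compl]
    intro hiL
    rw [if_pos hiL] at hi
    exact lt_irrefl _ hi.2
  omega

lemma exists_cone (l : σ → S) {H : (σ →₀ ℕ) → ℤ} (h : Tame H) {c : ℕ}
    (hc : Cod c {b | H b ≠ 0}) (h0 : cls l c H ≠ 0) :
    ∃ a L, ConeIn a L {b | H b ≠ 0} ∧ Lᶜ.card = c := by
  obtain ⟨R, h⟩ := h
  rw [cls_formula _ h hc] at h0
  obtain ⟨a, _, ha⟩ := exists_ne_zero_of_sum_ne_zero h0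
  have h1 : H a ≠ 0 := by
    intro h1
    simp [h1] at ha
  have h2 : (univ.filter fun i => a i < R i).card = c := by
    by_contra h2
    simp [h2] at ha
  exact ⟨a, (univ.filter fun i => a i < R i)ᶜ, h.coneIn h1 _ (by simp), by rwa [compl_compl]⟩

lemma cls_update (l : σ → S) {H : (σ →₀ ℕ) → ℤ} (h : Tame H) {c : ℕ}
    (hc : Cod c {b | H b ≠ 0}) (i : σ) (hi : ∀ a, H a ≠ 0 → a i = 0) (x : S) :
    cls (Function.update l i x) c H = x * cls (Function.update l i 1) c H := by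
  obtain ⟨R, h⟩ := h
  have h' : Stab (R + 1) H := h.mono fun j => by simp
  rw [cls_formula _ h' hc, cls_formula _ h' hc, mul_sum]
  apply sum_congr rfl
  intro a _
  by_cases ha : H a = 0
  · simp [ha]
  · have hmem : i ∈ univ.filter fun j => a j < (R + 1) j := by simp [hi a ha]
    split_ifs
    · rw [prod_update_of_mem hmem, prod_update_of_mem hmem]
      ring
    · simp

/-! ### Indicators -/

open Classical in
/-- Indicator function of a set of exponents. -/
noncomputable def ind (Y : Set (σ →₀ ℕ)) : (σ →₀ ℕ) → ℤ := fun a => if a ∈ Y then 1 else 0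

omit [Fintype σ] [DecidableEq σ] in
lemma ind_of_mem {Y : Set (σ →₀ ℕ)} {a : σ →₀ ℕ} (h : a ∈ Y) : ind Y a = 1 := by
  simp [ind, h]

omit [Fintype σ] [DecidableEq σ] in
lemma ind_of_notMem {Y : Set (σ →₀ ℕ)} {a : σ →₀ ℕ} (h : a ∉ Y) : ind Y a = 0 := by
  simp [ind, h]

omit [Fintype σ] [DecidableEq σ] in
@[simp] lemma supp_ind (Y : Set (σ →₀ ℕ)) : {b | ind Y b ≠ 0} = Y := by
  ext b
  by_cases h : b ∈ Y <;> simp [ind, h]

omit [Fintype σ] [DecidableEq σ] in
lemma ind_nonneg (Y : Set (σ →₀ ℕ)) (a : σ →₀ ℕ) : 0 ≤ ind Y a := by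
  unfold ind
  split_ifs <;> simp

omit [Fintype σ] [DecidableEq σ] in
@[simp] lemma ind_empty : ind (∅ : Set (σ →₀ ℕ)) = 0 := by
  ext a
  simp [ind]

omit [DecidableEq σ] in
lemma exists_stab_upper {U : Set (σ →₀ ℕ)} (hU : IsUpperSet U) :
    ∃ R : σ → ℕ, ∀ R', R ≤ R' → ∀ a b : σ →₀ ℕ,
      (∀ i, min (a i) (R' i) = min (b i) (R' i)) → a ∈ U → b ∈ U := by
  have hfin : {a | Minimal (· ∈ U) a}.Finite :=
    WellQuasiOrderedLE.finite_of_isAntichain (setOfPred_minimal_antichain _)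
  obtain ⟨R, hR⟩ := hfin.bddAbove
  refine ⟨R, fun R' hR' a b hab ha => ?_⟩
  obtain ⟨a₀, h1, h2⟩ := exists_minimal_le_of_wellFoundedLT (· ∈ U) a ha
  apply hU _ h2.1
  rw [Finsupp.le_def]
  intro i
  have e1 := Finsupp.le_def.1 (hR h2) i
  have e2 := Finsupp.le_def.1 h1 i
  have e3 : R i ≤ R' i := hR' i
  have e4 := hab i
  omega

omit [DecidableEq σ] in
lemma tame_ind_of_convex {Z : Set (σ →₀ ℕ)}
    (hZ : ∀ a b c, a ≤ b → b ≤ c → a ∈ Z → c ∈ Z → b ∈ Z) : Tame (ind Z) := by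
  let U : Set (σ →₀ ℕ) := {b | ∃ a ∈ Z, a ≤ b}
  have hU : IsUpperSet U := fun b c hbc ⟨a, ha, hab⟩ => ⟨a, ha, hab.trans hbc⟩
  have hU' : IsUpperSet (U \ Z) := fun b c hbc ⟨⟨a, ha, hab⟩, hb⟩ =>
    ⟨⟨a, ha, hab.trans hbc⟩, fun hc => hb (hZ a b c hab hbc ha hc)⟩
  obtain ⟨R, hR⟩ := exists_stab_upper hU
  obtain ⟨R', hR'⟩ := exists_stab_upper hU'
  have key : ∀ a b : σ →₀ ℕ, (∀ i, min (a i) ((R ⊔ R') i) = min (b i) ((R ⊔ R') i)) →
      a ∈ Z → b ∈ Z := by
    intro a b hab ha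
    by_contra hb
    exact (hR' _ le_sup_right b a (fun i => (hab i).symm)
      ⟨hR _ le_sup_left a b hab ⟨a, ha, le_rfl⟩, hb⟩).2 ha
  refine ⟨R ⊔ R', fun a b hab => ?_⟩
  by_cases ha : a ∈ Z
  · rw [ind_of_mem ha, ind_of_mem (key a b hab ha)]
  · rw [ind_of_notMem ha, ind_of_notMem fun hb => ha (key b a (fun i => (hab i).symm) hb)]

lemma cls_point (l : σ → S) :
    Cod (Fintype.card σ) ({0} : Set (σ →₀ ℕ)) ∧
      cls l (Fintype.card σ) (ind {0}) = ∏ i, l i := by
  have hc : Cod (Fintype.card σ) ({0} : Set (σ →₀ ℕ)) := by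
    intro a L hL
    have ha : a = 0 := hL a le_rfl fun _ _ => rfl
    have : L = ∅ := by
      by_contra hne
      obtain ⟨i, hi⟩ := nonempty_iff_ne_empty.2 hne
      have := hL (Finsupp.single i 1) (by simp [ha]) (fun j hj => by
        rw [ha, Finsupp.single_eq_of_ne (by rintro rfl; exact hj hi)]; rfl)
      simp at this
    simp [this]
  refine ⟨hc, ?_⟩
  have hs : Stab (fun _ => 1) (ind ({0} : Set (σ →₀ ℕ))) := by
    intro a b hab
    have : a = 0 ↔ b = 0 := by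
      simp only [Finsupp.ext_iff, Finsupp.coe_zero, Pi.zero_apply]
      exact forall_congr' fun i => by
        have : min (a i) 1 = min (b i) 1 := hab i
        omega
    simp [ind, this]
  rw [cls_formula _ hs (by rwa [supp_ind]), sum_eq_single 0]
  · simp [ind]
  · intro b _ hb
    simp [ind, hb]
  · intro h
    exact absurd (mem_box.2 fun i => by simp) h

lemma cls_univ (l : σ → S) : cls l 0 (ind (Set.univ : Set (σ →₀ ℕ))) = 1 := by
  have hs : Stab (fun _ => 0) (ind (Set.univ : Set (σ →₀ ℕ))) := by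
    intro a b _
    simp [ind]
  rw [cls_formula _ hs (fun _ _ _ => Nat.zero_le _), sum_eq_single 0]
  · simp [ind]
  · intro b hb hb0
    exact absurd (Finsupp.ext fun i => Nat.le_zero.1 (mem_box.1 hb i)) hb0
  · intro h
    exact absurd (mem_box.2 fun i => by simp) h

end Crest.Agent.R180
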