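import Mathlib

/-! Derivations: extension, innerness, and the dimension count. -/

set_option autoImplicit false

namespace Crest.Agent.R180

open Finset

lemma formallySmooth_charZero (K F : Type) [Field K] [CharZero K] [Field F] [Algebra K F] :
    Algebra.FormallySmooth K F := by
  obtain ⟨s, hs⟩ := exists_isTranscendenceBasis K F
  have := hs.isAlgebraic_field
  exact Algebra.FormallySmooth.of_algebraicIndependent_of_isSeparable hs.1

lemma exists_derivation {F : Type} [Field F] [Algebra ℚ F] {L : Type} {x : L → F}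
    (hx : AlgebraicIndependent ℚ x) (v : L → F) : ∃ D : Derivation ℚ F F, ∀ i, D (x i) = v i := by
  let : Algebra (MvPolynomial L ℚ) F := (MvPolynomial.aeval x).toRingHom.toAlgebra
  have : IsScalarTower ℚ (MvPolynomial L ℚ) F := IsScalarTower.of_algebraMap_eq fun q =>
    ((MvPolynomial.aeval x).commutes q).symm
  have : FaithfulSMul (MvPolynomial L ℚ) F :=
    (faithfulSMul_iff_algebraMap_injective _ _).2 hx
  let := FractionRing.liftAlgebra (MvPolynomial L ℚ) F
  have := FractionRing.isScalarTower_liftAlgebra (MvPolynomial L ℚ) F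
  have := formallySmooth_charZero (FractionRing (MvPolynomial L ℚ)) F
  have : Algebra.FormallySmooth (MvPolynomial L ℚ) (FractionRing (MvPolynomial L ℚ)) :=
    .of_isLocalization (nonZeroDivisors _)
  have : Algebra.FormallySmooth (MvPolynomial L ℚ) F :=
    .comp _ (FractionRing (MvPolynomial L ℚ)) _
  have hinj : Function.Injective (KaehlerDifferential.mapBaseChange ℚ (MvPolynomial L ℚ) F) := by
    rw [injective_iff_map_eq_zero]
    intro a ha
    obtain ⟨y, rfl⟩ := (Algebra.H1Cotangent.exact_δ_mapBaseChange ℚ (MvPolynomial L ℚ) F a).1 ha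
    rw [Subsingleton.elim y 0, map_zero]
  let b := (KaehlerDifferential.mvPolynomialBasis ℚ L).baseChange F
  obtain ⟨φ, hφ⟩ := LinearMap.exists_leftInverse_of_injective _ (LinearMap.ker_eq_bot.2 hinj)
  refine ⟨((b.constr F v).comp φ).compDer (KaehlerDifferential.D ℚ F), fun i => ?_⟩
  have e : KaehlerDifferential.D ℚ F (x i) =
      KaehlerDifferential.mapBaseChange ℚ (MvPolynomial L ℚ) F (b i) := by
    simp only [b, Module.Basis.baseChange_apply, KaehlerDifferential.mapBaseChange_tmul, one_smul,
      KaehlerDifferential.mvPolynomialBasis_apply, KaehlerDifferential.map_D]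
    congr 1
    exact (MvPolynomial.aeval_X x i).symm
  show b.constr F v (φ (KaehlerDifferential.D ℚ F (x i))) = v i
  rw [e, ← LinearMap.comp_apply φ, hφ, LinearMap.id_apply, Module.Basis.constr_basis]

lemma exists_inner {K B E : Type} [Field K] [CharZero K] [Ring B] [IsDomain B] [Algebra K B]
    [FiniteDimensional K B] [Ring E] [Algebra K E] (f : B →ₐ[K] E) (δ : B →ₗ[K] E)
    (hδ : ∀ a b, δ (a * b) = δ a * f b + f a * δ b) : ∃ ξ : E, ∀ a, δ a = ξ * f a - f a * ξ := by
  classical
  let τ : B →ₗ[K] K := (LinearMap.trace K B).comp (LinearMap.mul K B)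
  have hτ : ∀ a b, τ (a * b) = τ (b * a) := by
    intro a b
    have e : ∀ a b : B, LinearMap.mul K B (a * b) = LinearMap.mul K B a * LinearMap.mul K B b :=
      fun a b => LinearMap.ext fun c => mul_assoc a b c
    simp only [τ, LinearMap.comp_apply, e]
    exact LinearMap.trace_mul_comm K _ _
  have hτ1 : τ 1 ≠ 0 := by
    have e : LinearMap.mul K B 1 = 1 := LinearMap.ext fun c => one_mul c
    simp only [τ, LinearMap.comp_apply, e, LinearMap.trace_one]
    exact_mod_cast Module.finrank_pos.ne'
  have hu : ∀ a : B, a ≠ 0 → IsUnit a := fun a ha => (IsIntegral.of_finite K a).isUnit ha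
  let β : LinearMap.BilinForm K B := (LinearMap.mul K B).compr₂ τ
  have hβ : ∀ a b, β a b = τ (a * b) := fun a b => rfl
  have hn : β.Nondegenerate := by
    constructor
    · intro a h
      by_contra ha
      obtain ⟨u, rfl⟩ := hu a ha
      exact hτ1 (by simpa [hβ] using h (↑u⁻¹ : B))
    · intro a h
      by_contra ha
      obtain ⟨u, rfl⟩ := hu a ha
      exact hτ1 (by simpa [hβ] using h (↑u⁻¹ : B))
  let b := Module.finBasis K B
  let b' := β.dualBasis hn b
  have h1 : ∀ y, ∑ j, τ (y * b j) • b' j = y := fun y => by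
    conv_rhs => rw [← b'.sum_repr y]
    simp [b', hβ]
  have h2 : ∀ y, ∑ j, τ (b' j * y) • b j = y := fun y => by
    conv_rhs => rw [← b.sum_repr y]
    apply sum_congr rfl
    intro j _
    congr 1
    conv_lhs => rw [← b.sum_repr y]
    simp only [← hβ, b', map_sum, map_smul, LinearMap.BilinForm.apply_dualBasis_left]
    simp
  have key : ∀ {M : Type} [AddCommGroup M] [Module K M] (φ : B →ₗ[K] B →ₗ[K] M) (a : B),
      ∑ j, φ (a * b j) (b' j) = ∑ j, φ (b j) (b' j * a) := by
    intro M _ _ φ a
    conv_lhs => rw [sum_congr rfl fun j _ => by rw [← h2 (a * b j)]]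
    conv_rhs => rw [sum_congr rfl fun j _ => by rw [← h1 (b' j * a)]]
    simp only [map_sum, map_smul, LinearMap.sum_apply, LinearMap.smul_apply, mul_assoc]
    exact sum_comm
  let c : B := ∑ j, b j * b' j
  have hc : ∀ a, a * c = c * a := fun a => by
    have := key (LinearMap.mul K B) a
    simpa [c, mul_sum, sum_mul, mul_assoc] using this
  have hc0 : c ≠ 0 := by
    intro e
    have : τ c = Module.finrank K B := by
      simp only [c, map_sum, hτ (b _), ← hβ, b', LinearMap.BilinForm.apply_dualBasis_left]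
      simp
    rw [e, map_zero] at this
    exact Module.finrank_pos.ne' (by exact_mod_cast this.symm)
  obtain ⟨u, hu'⟩ := hu c hc0
  let ξ : E := ∑ j, δ (b j) * f (b' j)
  refine ⟨ξ * f ↑u⁻¹, fun a => ?_⟩
  have e1 := key ((LinearMap.mul K E).compl₁₂ δ f.toLinearMap) a
  simp only [LinearMap.compl₁₂_apply, LinearMap.mul_apply', AlgHom.toLinearMap_apply, hδ, map_mul,
    add_mul, sum_add_distrib, mul_assoc] at e1
  simp only [← mul_sum, ← map_mul, ← map_sum] at e1
  simp only [map_mul, ← mul_assoc, ← sum_mul] at e1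
  have e2 : δ a * f c = ξ * f a - f a * ξ := eq_sub_of_add_eq e1
  have e3 : (↑u⁻¹ : B) * a = a * ↑u⁻¹ := by
    rw [Units.inv_mul_eq_iff_eq_mul, ← mul_assoc, hu', ← hc, ← hu', Units.mul_inv_cancel_right]
  rw [mul_assoc, ← map_mul, e3, map_mul, ← mul_assoc, ← mul_assoc, ← sub_mul, ← e2, mul_assoc,
    ← map_mul, ← hu', Units.mul_inv, map_one, mul_one]

variable {F : Type} [Field F] [Algebra ℚ F] {W : Type} [Fintype W] [DecidableEq W]

omit [DecidableEq W] in
lemma map_der_mul (D : Derivation ℚ F F) (M N : Matrix W W F) :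
    (M * N).map D = M.map D * N + M * N.map D := by
  ext v v'
  simp [Matrix.mul_apply, sum_add_distrib, add_comm, mul_comm]

lemma inner_of_subalgebra (K : Subfield F) (B : Subalgebra K (Matrix W W F)) [IsDomain B]
    [FiniteDimensional K B] {X Y : Matrix W W F} (hX : X ∈ B) (hY : Y ∈ B) :
    ∃ (κ : Type) (_ : Fintype κ) (c : κ → F),
      Fintype.card κ = Module.finrank K B ^ 3 + 2 * Module.finrank K B ∧
      ∀ D : Derivation ℚ F F, (∀ j, D (c j) = 0) →
        ∃ ξ, X.map D = ξ * X - X * ξ ∧ Y.map D = ξ * Y - Y * ξ := by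
  have : CharZero F := algebraRat.charZero F
  let b := Module.finBasis K B
  let t := Module.finrank K B
  refine ⟨(Fin t × Fin t × Fin t) ⊕ Fin t ⊕ Fin t, inferInstance,
    Sum.elim (fun j => b.repr (b j.1 * b j.2.1) j.2.2)
      (Sum.elim (fun j => b.repr ⟨X, hX⟩ j) fun j => b.repr ⟨Y, hY⟩ j), by simp; ring, ?_⟩
  intro D hD
  let δ : B →ₗ[K] Matrix W W F := b.constr K fun j => (b j : Matrix W W F).map D
  have h1 : ∀ a : B, (∀ j, D (b.repr a j) = 0) → δ a = (a : Matrix W W F).map D := by
    intro a ha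
    have e : (a : Matrix W W F) = ∑ j, (b.repr a j : F) • (b j : Matrix W W F) := by
      conv_lhs => rw [← b.sum_repr a]
      rw [AddSubmonoidClass.coe_finsetSum]
      rfl
    rw [e]
    ext v v'
    simp [δ, Matrix.sum_apply, Subfield.smul_def, ha]
  have h2 : ∀ j, δ (b j) = (b j : Matrix W W F).map D := fun j => b.constr_basis K _ j
  obtain ⟨ξ, hξ⟩ := exists_inner B.val δ (by
    intro a a'
    have : (LinearMap.mul K B).compr₂ δ = (LinearMap.mul K _).compl₁₂ δ B.val.toLinearMap +
        (LinearMap.mul K _).compl₁₂ B.val.toLinearMap δ := by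
      refine LinearMap.ext_basis b b fun i j => ?_
      simp only [LinearMap.compr₂_apply, LinearMap.mul_apply', LinearMap.add_apply,
        LinearMap.compl₁₂_apply, h2]
      rw [h1 (b i * b j) fun l => hD (Sum.inl (i, j, l))]
      exact map_der_mul D _ _
    exact LinearMap.congr_fun₂ this a a')
  refine ⟨ξ, ?_, ?_⟩
  · exact (h1 ⟨X, hX⟩ fun j => hD (Sum.inr (Sum.inl j))).symm.trans (hξ _)
  · exact (h1 ⟨Y, hY⟩ fun j => hD (Sum.inr (Sum.inr j))).symm.trans (hξ _)

lemma card_le_of_inner {L κ : Type} [Fintype L] [Fintype κ] {x : L → F}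
    (hx : AlgebraicIndependent ℚ x) (c : κ → F) (X Y : Matrix W W F)
    (h1 : ∀ D : Derivation ℚ F F, (∀ j, D (c j) = 0) → X.map D = 0 → Y.map D = 0 →
      ∀ i, D (x i) = 0)
    (h2 : ∀ D : Derivation ℚ F F, (∀ j, D (c j) = 0) →
      ∃ ξ, X.map D = ξ * X - X * ξ ∧ Y.map D = ξ * Y - Y * ξ) :
    Fintype.card L ≤ Fintype.card κ + Fintype.card W * Fintype.card W := by
  classical
  choose D hD using fun i => exists_derivation hx (Pi.single i 1)
  let d : (L → F) →ₗ[F] Derivation ℚ F F := Fintype.linearCombination F D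
  have hd : ∀ v i, d v (x i) = v i := by
    intro v i
    have e : ∀ (s : Finset L) (D' : L → Derivation ℚ F F) (y : F),
        (∑ i ∈ s, D' i) y = ∑ i ∈ s, D' i y := by
      intro s D' y
      induction s using Finset.induction_on with
      | empty => simp
      | insert j s hj ih => simp [sum_insert hj, ih]
    simp [d, Fintype.linearCombination_apply, e, hD, Pi.single_apply]
  let Ψ : (L → F) →ₗ[F] (κ → F) :=
    { toFun := fun v j => d v (c j)
      map_add' := fun v v' => by ext j; simp
      map_smul' := fun a v => by ext j; simp }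
  let Θ : (L → F) →ₗ[F] Matrix W W F × Matrix W W F :=
    { toFun := fun v => (X.map (d v), Y.map (d v))
      map_add' := fun v v' => by ext <;> simp
      map_smul' := fun a v => by ext <;> simp }
  let ad : Matrix W W F →ₗ[F] Matrix W W F × Matrix W W F :=
    { toFun := fun ξ => (ξ * X - X * ξ, ξ * Y - Y * ξ)
      map_add' := fun v v' => by ext1 <;> simp only [Prod.fst_add, Prod.snd_add] <;> noncomm_ring
      map_smul' := fun a v => by simp [smul_sub] }
  have e1 := Ψ.finrank_range_add_finrank_ker
  have e2 : Module.finrank F (LinearMap.range Ψ) ≤ Fintype.card κ := by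
    simpa using (LinearMap.range Ψ).finrank_le
  have e3 : Function.Injective (Θ.domRestrict (LinearMap.ker Ψ)) := by
    rw [injective_iff_map_eq_zero]
    rintro ⟨v, hv⟩ h
    ext i
    have := h1 (d v) (fun j => congrFun hv j) (congrArg Prod.fst h) (congrArg Prod.snd h) i
    rwa [hd] at this
  have e4 : LinearMap.range (Θ.domRestrict (LinearMap.ker Ψ)) ≤ LinearMap.range ad := by
    rintro _ ⟨⟨v, hv⟩, rfl⟩
    obtain ⟨ξ, h, h'⟩ := h2 (d v) fun j => congrFun hv j
    exact ⟨ξ, Prod.ext h.symm h'.symm⟩
  have e5 := Submodule.finrank_mono e4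
  rw [LinearMap.finrank_range_of_inj e3] at e5
  have e6 := ad.finrank_range_le
  simp only [Module.finrank_fintype_fun_eq_card, Module.finrank_matrix, Module.finrank_self,
    mul_one] at e1 e6
  omega

end Crest.Agent.R180
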