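import Crest.Agent.R180.Ideal

/-! Twisted algebras over maximal graded ideals with nonzero class are domains. -/

set_option autoImplicit false

namespace Crest.Agent.R180

open Finset MvPolynomial

lemma arith_two {U S : Type*} [CommRing U] [IsDomain U] [CharZero U] [CommRing S] (φ : U →+* S)
    (h2 : (2 : S) = 0) {r ρ : ℕ} (h0 : 0 < ρ) (hlt : ρ < 2 ^ r) {x y : U}
    (h : (2 ^ r : ℕ) * x = ρ * y) : φ y = 0 := by
  obtain ⟨a, o, ho, rfl⟩ := Nat.exists_eq_two_pow_mul_odd h0.ne'
  have har : a < r := by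
    by_contra h'
    have : 2 ^ r ≤ 2 ^ a * o := le_trans (Nat.pow_le_pow_right two_pos (by omega))
      (Nat.le_mul_of_pos_right _ ho.pos)
    omega
  obtain ⟨d, rfl⟩ := Nat.exists_eq_add_of_lt har
  obtain ⟨o', rfl⟩ := ho
  have h' : (2 : U) ^ (d + 1) * x = (2 * o' + 1) * y := by
    apply mul_left_cancel₀ (pow_ne_zero a (two_ne_zero (α := U)))
    push_cast at h
    linear_combination h
  have := congrArg φ h'
  simp only [map_mul, map_pow, map_ofNat, map_add, map_one, h2] at this
  simpa using this.symm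

variable {σ : Type} {k : Type} [Field k] {m : MO σ} {G : Type} [Fintype G]

/-- Free modules as systems. -/
noncomputable def piSys (m : MO σ) (k : Type) [Field k] {L : Type} [LinearOrder L]
    [WellFoundedLT L] (key : (σ →₀ ℕ) × G → L) (inj : Function.Injective key)
    (add_le : ∀ c a j a' j', key (a, j) ≤ key (a', j') → key (a + c, j) ≤ key (a' + c, j'))
    (same : ∀ a a' j, key (a, j) ≤ key (a', j) ↔ m.key a ≤ m.key a') :
    Sys m k G (G → MvPolynomial σ k) where
  L := L
  key := key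
  inj := inj
  add_le := add_le
  same := same
  co b := (lcoeff k b.1).comp (LinearMap.proj b.2)
  fin v := by
    classical
    apply Set.Finite.subset
      ((univ.biUnion fun g => (v g).support).finite_toSet.prod (Set.finite_univ (α := G)))
    intro b hb
    exact ⟨mem_coe.2 (mem_biUnion.2 ⟨b.2, mem_univ _, mem_support_iff.2 hb⟩), trivial⟩
  ext v h := funext fun g => MvPolynomial.ext _ _ fun a => h (a, g)
  mul c := LinearMap.pi fun g => (LinearMap.mulLeft k (monomial c 1)).comp (LinearMap.proj g)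
  co_mul c a g v := by
    simp only [lcoeff_apply, LinearMap.mulLeft_apply, LinearMap.comp_apply, LinearMap.proj_apply,
      LinearMap.pi_apply]
    rw [add_comm, coeff_monomial_mul, one_mul]
  co_mul' c a g v h := coeff_mul_monomial_ne h

lemma MO.add_lt (m : MO σ) (c : σ →₀ ℕ) {a b : σ →₀ ℕ} (h : m.key a < m.key b) :
    m.key (a + c) < m.key (b + c) :=
  lt_of_not_ge fun h' => absurd (m.le_of_add_le h') (not_le.2 h)

/-- Term over position. -/
noncomputable def topSys (m : MO σ) (k : Type) [Field k] (rk : G → ℕ) (hrk : Function.Injective rk) :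
    Sys m k G (G → MvPolynomial σ k) :=
  piSys m k (L := m.L ×ₗ ℕ) (fun b => toLex (m.key b.1, rk b.2))
    (fun b b' h => by
      have := toLex.injective h
      simp only [Prod.mk.injEq] at this
      exact Prod.ext (m.inj this.1) (hrk this.2))
    (fun c a j a' j' h => by
      rw [Prod.Lex.toLex_le_toLex] at h ⊢
      rcases h with h | ⟨h, h'⟩
      · exact Or.inl (m.add_lt c h)
      · exact Or.inr ⟨by rw [show a = a' from m.inj h], h'⟩)
    (fun a a' j => by
      rw [Prod.Lex.toLex_le_toLex, le_iff_lt_or_eq (a := m.key a)]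
      simp)

/-- Position over term. -/
noncomputable def potSys (m : MO σ) (k : Type) [Field k] (rk : G → ℕ) (hrk : Function.Injective rk) :
    Sys m k G (G → MvPolynomial σ k) :=
  piSys m k (L := ℕ ×ₗ m.L) (fun b => toLex (rk b.2, m.key b.1))
    (fun b b' h => by
      have := toLex.injective h
      simp only [Prod.mk.injEq] at this
      exact Prod.ext (m.inj this.2) (hrk this.1))
    (fun c a j a' j' h => by
      rw [Prod.Lex.toLex_le_toLex] at h ⊢
      rcases h with h | ⟨h, h'⟩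
      · exact Or.inl h
      · exact Or.inr ⟨h, m.add_le c _ _ h'⟩)
    (fun a a' j => by
      rw [Prod.Lex.toLex_le_toLex]
      simp)

variable {rk : G → ℕ} {hrk : Function.Injective rk}

lemma topSys_lead {v : G → MvPolynomial σ k} {a : σ →₀ ℕ} {g : G} :
    (topSys m k rk hrk).Lead v (a, g) ↔ coeff a (v g) ≠ 0 ∧ ∀ b h, coeff b (v h) ≠ 0 →
      m.key b < m.key a ∨ b = a ∧ rk h ≤ rk g := by
  refine and_congr Iff.rfl ⟨fun H b h hb => ?_, fun H b hb => ?_⟩
  · have : toLex (m.key b, rk h) ≤ toLex (m.key a, rk g) := H (b, h) hb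
    rw [Prod.Lex.toLex_le_toLex] at this
    exact this.imp id fun h' => ⟨m.inj h'.1, h'.2⟩
  · show toLex (m.key b.1, rk b.2) ≤ toLex (m.key a, rk g)
    rw [Prod.Lex.toLex_le_toLex]
    exact (H b.1 b.2 hb).imp id fun h' => ⟨congrArg m.key h'.1, h'.2⟩

lemma potSys_lead {v : G → MvPolynomial σ k} {a : σ →₀ ℕ} {g : G} :
    (potSys m k rk hrk).Lead v (a, g) ↔ PLead m (v g) a ∧ ∀ h, rk g < rk h → v h = 0 := by
  constructor
  · intro H
    have H' : ∀ b h, coeff b (v h) ≠ 0 → rk h < rk g ∨ rk h = rk g ∧ m.key b ≤ m.key a := by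
      intro b h hb
      have : toLex (rk h, m.key b) ≤ toLex (rk g, m.key a) := H.2 (b, h) hb
      rwa [Prod.Lex.toLex_le_toLex] at this
    refine ⟨⟨H.1, fun b hb => ?_⟩, fun h hh => ?_⟩
    · simpa using H' b g hb
    · ext b
      by_contra hb
      have := H' b h hb
      omega
  · rintro ⟨H, H'⟩
    refine ⟨H.1, fun b hb => ?_⟩
    show toLex (rk b.2, m.key b.1) ≤ toLex (rk g, m.key a)
    rw [Prod.Lex.toLex_le_toLex]
    have hb' : coeff b.1 (v b.2) ≠ 0 := hb
    rcases lt_trichotomy (rk b.2) (rk g) with h | h | h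
    · exact Or.inl h
    · rw [hrk h] at hb'
      exact Or.inr ⟨h, H.2 _ hb'⟩
    · simp [H' _ h] at hb'

variable [DecidableEq G]

lemma topSys_lead_P {P : Ideal (MvPolynomial σ k)} {a : σ →₀ ℕ} {g : G} :
    (∃ v : G → MvPolynomial σ k, (∀ h, v h ∈ P) ∧ (topSys m k rk hrk).Lead v (a, g)) ↔
      a ∉ std m P := by
  rw [std, Set.mem_ofPred_eq, not_not]
  constructor
  · rintro ⟨v, h1, h2⟩
    rw [topSys_lead] at h2
    refine ⟨v g, h1 g, h2.1, fun b hb => ?_⟩
    rcases h2.2 b g hb with h | h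
    · exact h.le
    · rw [h.1]
  · rintro ⟨r, h1, h2⟩
    refine ⟨Pi.single g r, fun h => ?_, ?_⟩
    · by_cases e : h = g
      · simpa [e] using h1
      · simp [e]
    · rw [topSys_lead]
      refine ⟨by simpa using h2.1, fun b h hb => ?_⟩
      by_cases e : h = g
      · subst e
        rcases (h2.2 b (by simpa using hb)).lt_or_eq with h | h
        · exact Or.inl h
        · exact Or.inr ⟨m.inj h, le_rfl⟩
      · simp [e] at hb

lemma potSys_lead_P {P : Ideal (MvPolynomial σ k)} {a : σ →₀ ℕ} {g : G} :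
    (∃ v : G → MvPolynomial σ k, (∀ h, v h ∈ P) ∧ (potSys m k rk hrk).Lead v (a, g)) ↔
      a ∉ std m P := by
  rw [std, Set.mem_ofPred_eq, not_not]
  constructor
  · rintro ⟨v, h1, h2⟩
    exact ⟨v g, h1 g, (potSys_lead.1 h2).1⟩
  · rintro ⟨r, h1, h2⟩
    refine ⟨Pi.single g r, fun h => ?_, ?_⟩
    · by_cases e : h = g
      · simpa [e] using h1
      · simp [e]
    · rw [potSys_lead]
      refine ⟨by simpa using h2, fun h hh => ?_⟩
      rw [Pi.single_eq_of_ne]
      rintro rfl
      exact lt_irrefl _ hh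

/-- The diagonal relation of a pair of submodules. -/
def diagRel (rk : G → ℕ) (hrk : Function.Injective rk) (P : Ideal (MvPolynomial σ k))
    (N : Submodule (MvPolynomial σ k) (G → MvPolynomial σ k)) :
    Rel (topSys m k rk hrk) (potSys m k rk hrk) where
  P v v' := v ∈ N ∧ ∀ g, v' g - v g ∈ P
  sub_smul v w v' w' x h h' := by
    refine ⟨N.sub_mem h.1 ?_, fun g => ?_⟩
    · have := N.smul_mem (C x) h'.1
      convert this using 1
      ext1 g
      simp [smul_eq_C_mul]
    · have := P.sub_mem (h.2 g) (P.mul_mem_left (C x) (h'.2 g))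
      convert this using 1
      simp only [smul_eq_C_mul, Pi.sub_apply, Pi.smul_apply]
      ring
  mul c v w h := by
    refine ⟨N.smul_mem (monomial c 1) h.1, fun g => ?_⟩
    have := P.mul_mem_left (monomial c 1) (h.2 g)
    rw [mul_sub] at this
    exact this

variable [Fintype σ] [DecidableEq σ] [AddCommGroup G] {w : σ → G}

omit [AddCommGroup G] in
theorem count_eq {P : Ideal (MvPolynomial σ k)} {c : ℕ} (hc : ICod m c P)
    (N : Submodule (MvPolynomial σ k) (G → MvPolynomial σ k))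
    (hPN : ∀ v, (∀ g, v g ∈ P) → v ∈ N) (g₀ : G)
    (hinv : ∀ a g g', (∃ v ∈ N, (topSys m k rk hrk).Lead v (a, g)) →
      ∃ v ∈ N, (topSys m k rk hrk).Lead v (a, g'))
    (𝔞 : G → Ideal (MvPolynomial σ k))
    (h𝔞 : ∀ g r, r ∈ 𝔞 g ↔ ∃ v ∈ N, v g = r ∧ ∀ h, rk g < rk h → v h = 0)
    {S : Type} [CommRing S] (l : σ → S) :
    ∃ x : S, Fintype.card G * x = ∑ g, (icls m l c P - icls m l c (𝔞 g)) := by
  obtain ⟨T, Z, h1, h2, h3, h4⟩ := (diagRel (m := m) rk hrk P N).matching
  have hX1 : ∀ a g, (a, g) ∈ (diagRel (m := m) rk hrk P N).X ↔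
      (∃ v ∈ N, (topSys m k rk hrk).Lead v (a, g₀)) ∧ a ∈ std m P := by
    intro a g
    refine and_congr ⟨fun ⟨v, _, h, h'⟩ => hinv _ _ _ ⟨v, h.1, h'⟩, fun h => ?_⟩ ?_
    · obtain ⟨v, h, h'⟩ := hinv _ _ g h
      exact ⟨v, v, ⟨h, by simp⟩, h'⟩
    · rw [← not_iff_not, not_not, ← topSys_lead_P (rk := rk) (hrk := hrk) (g := g)]
      refine exists_congr fun v => and_congr_left' ⟨fun h g => ?_, fun h => ⟨hPN v h, fun g => ?_⟩⟩
      · simpa using h.2 g
      · simpa using h g
  have hle : ∀ g, P ≤ 𝔞 g := by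
    intro g r hr
    refine (h𝔞 g r).2 ⟨Pi.single g r, hPN _ fun h => ?_, by simp, fun h hh => ?_⟩
    · by_cases e : h = g
      · simpa [e] using hr
      · simp [e]
    · rw [Pi.single_eq_of_ne]
      rintro rfl
      exact lt_irrefl _ hh
  have hX2 : ∀ g, {a | (a, g) ∈ (diagRel (m := m) rk hrk P N).flip.X} =
      std m P \ std m (𝔞 g) := by
    intro g
    ext a
    rw [Set.mem_sdiff, and_comm]
    refine and_congr ?_ ?_
    · rw [std, Set.mem_ofPred_eq, not_not]
      constructor
      · rintro ⟨v', v, h, h'⟩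
        rw [potSys_lead] at h'
        refine ⟨v' g, (h𝔞 _ _).2 ⟨v', ?_, rfl, h'.2⟩, h'.1⟩
        have := N.add_mem h.1 (hPN (v' - v) h.2)
        rwa [add_sub_cancel] at this
      · rintro ⟨r, hr, h⟩
        obtain ⟨v, hv, rfl, h'⟩ := (h𝔞 _ _).1 hr
        exact ⟨v, v, ⟨hv, by simp⟩, potSys_lead.2 ⟨h, h'⟩⟩
    · rw [← not_iff_not, not_not, ← potSys_lead_P (rk := rk) (hrk := hrk) (g := g)]
      refine exists_congr fun v => and_congr_left' ⟨fun h g => ?_, fun h => ⟨zero_mem _, fun g => ?_⟩⟩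
      · simpa using h.2 g
      · simpa using h g
  have hZ : ∀ t, Cod c (Z t) := fun t => Cod.of_shift hc t.2.2.1 fun z hz =>
    ((hX1 _ _).1 (h2 t z hz).mem).2
  let X₀ : Set (σ →₀ ℕ) := {a | (∃ v ∈ N, (topSys m k rk hrk).Lead v (a, g₀)) ∧ a ∈ std m P}
  have hX₀ : Tame (ind X₀) := by
    apply tame_ind_of_convex
    rintro a b c hab hbc ⟨⟨v, hv, h⟩, _⟩ hc
    obtain ⟨d, rfl⟩ := exists_add_of_le hab
    exact ⟨⟨_, N.smul_mem (monomial d 1) hv, h.mul d⟩, std_lower hbc hc.2⟩
  have hd : ∀ g, Tame (ind (std m P \ std m (𝔞 g))) := by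
    intro g
    apply tame_ind_of_convex
    intro a b c hab hbc ha hc
    exact ⟨std_lower hbc hc.1, fun hb => ha.2 (std_lower hab hb)⟩
  have e1 : ∀ g, {a | (a, g) ∈ (diagRel (m := m) rk hrk P N).X} = X₀ := fun g =>
    Set.ext fun a => hX1 a g
  simp only [e1] at h3
  simp only [hX2] at h4
  have e2 := (cls_sum_sh l T (fun t => t.2.2.1) Z h1 hZ).1
  rw [← (cls_sum_sh l T (fun t => t.2.2.2) Z h1 hZ).1, ← h3, ← h4, cls, cls,
    K_sum _ _ fun _ _ => hX₀, K_sum _ _ fun g _ => hd g, Polynomial.finsetSum_coeff,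
    Polynomial.finsetSum_coeff, sum_const, nsmul_eq_mul, card_univ] at e2
  refine ⟨_, e2.trans (sum_congr rfl fun g _ => ?_)⟩
  rw [icls, ind_diff (std_anti (hle g)), cls_add _ _ (tame_std _) (hd g), icls, cls, cls]
  ring

theorem domain_thm {E : Type} [Ring E] [Algebra (MvPolynomial σ k) E]
    (u : Module.Basis G (MvPolynomial σ k) E) (ε : G → G → k) (hε : ∀ g h, ε g h ≠ 0)
    (hu : ∀ g h, u g * u h = (C (ε g h) : MvPolynomial σ k) • u (g + h)) (hu0 : u 0 = 1)
    {P : Ideal (MvPolynomial σ k)} {c : ℕ} (hc : ICod m c P) (hP : Gr w P)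
    (hmax : ∀ f g, IsWeightedHomogeneous w f g → f ∉ P → col P f = P)
    {S : Type} [CommRing S] (h2 : (2 : S) = 0) {l : σ → S} (h0 : icls m l c P ≠ 0)
    {r : ℕ} (hG : Fintype.card G = 2 ^ r) {z z' : E}
    (hz : ∀ h, IsWeightedHomogeneous w (u.repr z h) h) (hzz : ∀ h, u.repr (z * z') h ∈ P) :
    (∀ h, u.repr z h ∈ P) ∨ ∀ h, u.repr z' h ∈ P := by
  classical
  by_contra hne
  push Not at hne
  obtain ⟨hz1, hz2⟩ := hne
  let rk : G → ℕ := fun g => if g = 0 then 0 else (Fintype.equivFin G g : ℕ) + 1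
  have hrk : Function.Injective rk := by
    intro g g' h
    simp only [rk] at h
    split_ifs at h with h1 h2 h2
    · rw [h1, h2]
    · exact (Fintype.equivFin G).injective (Fin.ext (by omega))
  have hmul : ∀ e e' : E, ∀ h, u.repr (e * e') h =
      ∑ g, C (ε g (h - g)) * (u.repr e g * u.repr e' (h - g)) := by
    intro e e' h
    conv_lhs => rw [← u.sum_repr e, ← u.sum_repr e']
    rw [sum_mul_sum, map_sum, Finsupp.finsetSum_apply]
    apply sum_congr rfl
    intro g _
    rw [map_sum, Finsupp.finsetSum_apply, sum_eq_single (h - g)]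
    · rw [smul_mul_smul_comm, hu, smul_smul, map_smul, add_sub_cancel]
      simp [mul_comm]
    · intro g' _ hg'
      rw [smul_mul_smul_comm, hu, smul_smul, map_smul, Module.Basis.repr_self, Finsupp.smul_apply,
        Finsupp.single_eq_of_ne, smul_zero]
      intro e
      exact hg' (by rw [e, add_sub_cancel_left])
    · simp
  let N : Submodule (MvPolynomial σ k) (G → MvPolynomial σ k) :=
    { carrier := {v | ∃ e : E, ∀ g, v g - u.repr (e * z) g ∈ P}
      add_mem' := by
        rintro v v' ⟨e, he⟩ ⟨e', he'⟩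
        refine ⟨e + e', fun g => ?_⟩
        convert P.add_mem (he g) (he' g) using 1
        simp only [add_mul, map_add, Pi.add_apply, Finsupp.add_apply]
        ring
      zero_mem' := ⟨0, by simp⟩
      smul_mem' := by
        rintro x v ⟨e, he⟩
        refine ⟨x • e, fun g => ?_⟩
        convert P.mul_mem_left x (he g) using 1
        simp only [smul_mul_assoc, map_smul, Pi.smul_apply, Finsupp.smul_apply, smul_eq_mul]
        ring }
  have hPN : ∀ v, (∀ g, v g ∈ P) → v ∈ N := fun v hv => ⟨0, by simpa using hv⟩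
  have hπ : ∀ v ∈ N, ∀ γ, (fun h => weightedHomogeneousComponent w (γ + h) (v h)) ∈ N := by
    rintro v ⟨e, he⟩ γ
    refine ⟨u.equivFun.symm fun g => weightedHomogeneousComponent w (γ + g) (u.repr e g),
      fun h => ?_⟩
    have := hP _ (he h) (γ + h)
    rw [map_sub] at this
    convert this using 2
    rw [hmul, hmul, map_sum]
    apply sum_congr rfl
    intro g _
    rw [weightedHomogeneousComponent_C_mul, show γ + h = γ + g + (h - g) by abel,
      comp_mul (hz (h - g)), ← Module.Basis.equivFun_apply u (u.equivFun.symm _),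
      LinearEquiv.apply_symm_apply]
  have hsh : ∀ v ∈ N, ∀ g, (fun h => C (ε g (h - g)) * v (h - g)) ∈ N := by
    rintro v ⟨e, he⟩ g
    refine ⟨u g * e, fun h => ?_⟩
    have := P.mul_mem_left (C (ε g (h - g))) (he (h - g))
    rw [mul_sub] at this
    convert this using 2
    rw [mul_assoc, hmul, sum_eq_single g]
    · simp
    · intro g' _ hg'
      simp [Finsupp.single_eq_of_ne hg']
    · simp
  have hinv : ∀ a g g', (∃ v ∈ N, (topSys m k rk hrk).Lead v (a, g)) →
      ∃ v ∈ N, (topSys m k rk hrk).Lead v (a, g') := by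
    rintro a g g' ⟨v, hv, h⟩
    refine ⟨_, hsh _ (hπ v hv (Finsupp.weight w a - g)) (g' - g), ?_⟩
    rw [topSys_lead] at h ⊢
    simp only [coeff_C_mul, coeff_weightedHomogeneousComponent, sub_sub_cancel]
    refine ⟨?_, fun b h' hb => ?_⟩
    · rw [if_pos (by abel)]
      exact mul_ne_zero (hε _ _) h.1
    · have hb' := right_ne_zero_of_mul hb
      split_ifs at hb' with hw
      · rcases h.2 b _ hb' with h1 | h1
        · exact Or.inl h1
        · refine Or.inr ⟨h1.1, le_of_eq (congrArg rk ?_)⟩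
          rw [h1.1] at hw
          have : h' - g' = 0 := by
            have := sub_eq_zero.2 hw
            rw [← neg_eq_zero, ← this]
            abel
          exact sub_eq_zero.1 this
      · exact absurd rfl hb'
  let 𝔞 : G → Ideal (MvPolynomial σ k) := fun g =>
    (N ⊓ ⨅ h, ⨅ _ : rk g < rk h, LinearMap.ker (LinearMap.proj h)).map (LinearMap.proj g)
  have h𝔞 : ∀ g r, r ∈ 𝔞 g ↔ ∃ v ∈ N, v g = r ∧ ∀ h, rk g < rk h → v h = 0 := by
    intro g r
    simp only [𝔞, Submodule.mem_map, Submodule.mem_inf, Submodule.mem_iInf, LinearMap.mem_ker,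
      LinearMap.proj_apply]
    exact exists_congr fun v => by tauto
  have h𝔞G : ∀ g, Gr w (𝔞 g) := by
    intro g r hr γ
    obtain ⟨v, hv, rfl, h⟩ := (h𝔞 _ _).1 hr
    refine (h𝔞 _ _).2 ⟨_, hπ v hv (γ - g), by simp, fun h' hh => by simp [h h' hh]⟩
  obtain ⟨x, hx⟩ := count_eq (hrk := hrk) hc N hPN 0 hinv 𝔞 h𝔞 (X : σ → MvPolynomial σ ℤ)
  have e1 : ∀ g, icls m (X : σ → MvPolynomial σ ℤ) c P - icls m X c (𝔞 g) =
      if 𝔞 g ≤ P then 0 else icls m X c P := by
    intro g
    have hle : P ≤ 𝔞 g := by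
      intro r hr
      refine (h𝔞 g r).2 ⟨Pi.single g r, hPN _ fun h => ?_, by simp, fun h hh => ?_⟩
      · by_cases e : h = g
        · simpa [e] using hr
        · simp [e]
      · rw [Pi.single_eq_of_ne]
        rintro rfl
        exact lt_irrefl _ hh
    split_ifs with h
    · rw [le_antisymm h hle, sub_self]
    · obtain ⟨f, γ, h1, h2, h3⟩ := (h𝔞G g).exists_homogeneous h
      rw [icls_eq_zero_of_lt _ ((hc.succ (hmax f γ h1 h3)).mono (adj_le hle h2)) (Nat.lt_succ_self c),
        sub_zero]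
  simp only [e1] at hx
  rw [sum_ite, sum_const_zero, zero_add, sum_const, nsmul_eq_mul, hG] at hx
  apply h0
  have := arith_two (aeval l : MvPolynomial σ ℤ →ₐ[ℤ] S).toRingHom h2 ?_ ?_ hx
  · rw [icls, map_cls] at this
    simpa [icls] using this
  · rw [card_pos]
    obtain ⟨g, hg, hmax'⟩ := exists_max_image (univ.filter fun g => u.repr z g ∉ P) rk
      (let ⟨g, hg⟩ := hz1; ⟨g, by simpa using hg⟩)
    refine ⟨g, mem_filter.2 ⟨mem_univ _, fun hle => (mem_filter.1 hg).2 (hle ?_)⟩⟩
    refine (h𝔞 _ _).2 ⟨fun h => if rk g < rk h then 0 else u.repr z h, ⟨1, fun h => ?_⟩, by simp,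
      fun h hh => by simp [hh]⟩
    by_cases hh : rk g < rk h
    · simp only [hh, if_true, one_mul, zero_sub, neg_mem_iff]
      by_contra e
      exact absurd (hmax' h (by simpa using e)) (not_le.2 hh)
    · simp [hh]
  · rw [← hG, ← card_univ]
    apply card_lt_card
    rw [filter_ssubset]
    refine ⟨0, mem_univ _, not_not.2 ?_⟩
    by_contra hle
    obtain ⟨f, γ, h1, h2, h3⟩ := (h𝔞G 0).exists_homogeneous hle
    obtain ⟨v, ⟨e, he⟩, rfl, hv⟩ := (h𝔞 _ _).1 h2
    obtain ⟨g, hg⟩ := hz2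
    apply hg
    rw [← hmax _ γ h1 h3, mem_col]
    have e2 : ∀ y y' : E, (∀ h, u.repr y h ∈ P) ∨ (∀ h, u.repr y' h ∈ P) →
        u.repr (y * y') g ∈ P := by
      intro y y' hy
      rw [hmul]
      refine P.sum_mem fun h _ => P.mul_mem_left _ ?_
      rcases hy with hy | hy
      · exact P.mul_mem_right _ (hy _)
      · exact P.mul_mem_left _ (hy _)
    have e3 := P.add_mem (e2 (v 0 • (1 : E) - e * z) z' (Or.inl fun h => ?_)) (e2 e (z * z') (Or.inr hzz))
    · convert e3 using 1
      simp [sub_mul, mul_assoc, mul_comm]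
    · convert he h using 1
      rw [map_sub, Finsupp.sub_apply, ← hu0, map_smul, Module.Basis.repr_self]
      congr 1
      by_cases e' : h = 0
      · simp [e']
      · rw [hv h (by simp [rk, e'])]
        simp [Finsupp.single_eq_of_ne e']

end Crest.Agent.R180
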