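import Mathlib

/-! From an integral domain algebra to the division ring. -/

set_option autoImplicit false

namespace Crest.Agent.R180

open Finset TensorProduct

/-- The statement to be proved. -/
def Goal : Prop :=
  ∃ (D : Type) (_ : DivisionRing D), Countable D ∧ CharZero D ∧
      Algebra.IsAlgebraic (Subring.center D) D ∧
      (∃ x y : D, Algebra.adjoin (Subring.center D) ({x, y} : Set D) = ⊤) ∧
      ¬ FiniteDimensional (Subring.center D) D

lemma goal_of_divisionRing (D : Type) [DivisionRing D] [Countable D] (k : Type) [Field k]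
    [CharZero k] [Algebra k D] [Algebra.IsIntegral k D] (x y : D)
    (hgen : Algebra.adjoin k ({x, y} : Set D) = ⊤) (hinf : ¬ FiniteDimensional k D) : Goal := by
  classical
  let φ : k →+* Subring.center D := (algebraMap k D).codRestrict _ fun a =>
    Subring.mem_center_iff.2 fun d => (Algebra.commutes a d).symm
  let : Algebra k (Subring.center D) := φ.toAlgebra
  have : IsScalarTower k (Subring.center D) D := IsScalarTower.of_algebraMap_eq fun _ => rfl
  refine ⟨D, inferInstance, inferInstance,
    charZero_of_injective_algebraMap (algebraMap k D).injective,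
    ⟨fun d => ((Algebra.IsIntegral.isIntegral (R := k) d).tower_top).isAlgebraic⟩,
    ⟨x, y, ?_⟩, fun hfin => hinf ?_⟩
  · rw [eq_top_iff]
    intro d _
    have : Algebra.adjoin k ({x, y} : Set D) ≤
        (Algebra.adjoin (Subring.center D) ({x, y} : Set D)).restrictScalars k :=
      Algebra.adjoin_le Algebra.subset_adjoin
    exact this (hgen ▸ Algebra.mem_top)
  · let e := Module.finBasis (Subring.center D) D
    let s : Set (Subring.center D) := Set.range (fun j => e.repr 1 j) ∪
      (Set.range (fun j : _ × _ => e.repr (x * e j.1) j.2) ∪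
        Set.range (fun j : _ × _ => e.repr (y * e j.1) j.2))
    have hs : s.Finite := (Set.finite_range _).union ((Set.finite_range _).union (Set.finite_range _))
    have hZ := fg_adjoin_of_finite (R := k) hs fun z _ =>
      (isIntegral_algHom_iff (IsScalarTower.toAlgHom k (Subring.center D) D)
        Subtype.val_injective).1 (Algebra.IsIntegral.isIntegral _)
    let M : Submodule k D := ⨆ j, (Algebra.adjoin k s).toSubmodule.map
      ((LinearMap.toSpanSingleton (Subring.center D) D (e j)).restrictScalars k)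
    have hM : M.FG := Submodule.fg_iSup _ fun j => hZ.map _
    have h1 : ∀ j, ∀ z ∈ Algebra.adjoin k s, z • e j ∈ M := fun j z hz =>
      Submodule.mem_iSup_of_mem j ⟨z, hz, rfl⟩
    have h2 : ∀ z ∈ Algebra.adjoin k s, ∀ d : D, (∀ j, e.repr d j ∈ s) → z • d ∈ M := by
      intro z hz d hd
      rw [← e.sum_repr d, smul_sum]
      refine M.sum_mem fun j _ => ?_
      rw [smul_smul]
      exact h1 j _ (mul_mem hz (Algebra.subset_adjoin (hd j)))
    have h3 : ∀ d : D, (∀ j l, e.repr (d * e j) l ∈ s) → ∀ v ∈ M, d * v ∈ M := by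
      intro d hd v hv
      induction hv using Submodule.iSup_induction' with
      | mem j v hv =>
        obtain ⟨z, hz, rfl⟩ := hv
        show d * (z • e j) ∈ M
        rw [mul_smul_comm]
        exact h2 z hz _ (hd j)
      | zero => simp
      | add v v' _ _ hv hv' => rw [mul_add]; exact M.add_mem hv hv'
    have h4 : ∀ d ∈ Algebra.adjoin k ({x, y} : Set D), ∀ v ∈ M, d * v ∈ M := by
      intro d hd
      induction hd using Algebra.adjoin_induction with
      | mem d hd =>
        rcases hd with rfl | rfl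
        · exact h3 _ fun j l => Or.inr (Or.inl ⟨(j, l), rfl⟩)
        · exact h3 _ fun j l => Or.inr (Or.inr ⟨(j, l), rfl⟩)
      | algebraMap a => intro v hv; rw [← Algebra.smul_def]; exact M.smul_mem _ hv
      | add d d' _ _ hd hd' => intro v hv; rw [add_mul]; exact M.add_mem (hd v hv) (hd' v hv)
      | mul d d' _ _ hd hd' => intro v hv; rw [mul_assoc]; exact hd _ (hd' v hv)
    have h5 : M = ⊤ := by
      rw [eq_top_iff]
      intro d _
      have := h4 d (hgen ▸ Algebra.mem_top) 1
        (by simpa using h2 1 (one_mem _) 1 fun j => Or.inl ⟨j, rfl⟩)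
      rwa [mul_one] at this
    exact ⟨h5 ▸ hM⟩

/-- Generic finiteness. -/
def GenFin (T : Type) [CommRing T] {A : Type} [Ring A] [Algebra T A] (x : Bool → A) : Prop :=
  ∃ (s : ℕ) (w : Fin s → A) (t : T) (c₁ : Fin s → T) (c : Bool → Fin s → Fin s → T),
    algebraMap T A t ≠ 0 ∧ t • (1 : A) = ∑ l, c₁ l • w l ∧
      ∀ b j, t • (x b * w j) = ∑ l, c b j l • w l

lemma goal_of_faithful {Z A : Type} [CommRing Z] [IsDomain Z] [CharZero Z] [Ring A] [IsDomain A]
    [Algebra Z A] [FaithfulSMul Z A] [Countable A] [Algebra.IsIntegral Z A] (x : Bool → A)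
    (hgen : Algebra.adjoin Z (Set.range x) = ⊤) (hbig : ¬ GenFin Z x) : Goal := by
  let k := FractionRing Z
  let D := k ⊗[Z] A
  let i : A →ₐ[Z] D := Algebra.TensorProduct.includeRight
  have hk : ∀ s : Z, s ≠ 0 → algebraMap Z k s ≠ 0 := fun s hs =>
    (map_ne_zero_iff _ (IsFractionRing.injective Z k)).2 hs
  have hA : ∀ s : Z, s ≠ 0 → algebraMap Z A s ≠ 0 := fun s hs =>
    (map_ne_zero_iff _ (FaithfulSMul.algebraMap_injective Z A)).2 hs
  have h1 : ∀ d : D, ∃ (s : Z) (a : A), s ≠ 0 ∧ algebraMap Z k s • d = i a := by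
    intro d
    obtain ⟨⟨a, s⟩, h⟩ := IsLocalizedModule.surj (nonZeroDivisors Z) (TensorProduct.mk Z k A 1) d
    exact ⟨s, a, nonZeroDivisors.ne_zero s.2, by rw [algebraMap_smul]; exact h⟩
  have h2 : ∀ a, i a = 0 → a = 0 := by
    intro a ha
    obtain ⟨s, hs⟩ := (IsLocalizedModule.eq_zero_iff (nonZeroDivisors Z)
      (TensorProduct.mk Z k A 1)).1 ha
    rw [Submonoid.smul_def, Algebra.smul_def] at hs
    exact (mul_eq_zero.1 hs).resolve_left (hA _ (nonZeroDivisors.ne_zero s.2))
  have : Nontrivial D := ⟨1, 0, fun e => one_ne_zero (h2 1 (by rw [map_one, e]))⟩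
  have : NoZeroDivisors D := ⟨fun {d d'} h => by
    obtain ⟨s, a, hs, e⟩ := h1 d
    obtain ⟨s', a', hs', e'⟩ := h1 d'
    have : a * a' = 0 := h2 _ (by rw [map_mul, ← e, ← e', smul_mul_smul_comm, h, smul_zero])
    rcases mul_eq_zero.1 this with h | h
    · rw [h, map_zero] at e
      exact Or.inl ((smul_eq_zero.1 e).resolve_left (hk s hs))
    · rw [h, map_zero] at e'
      exact Or.inr ((smul_eq_zero.1 e').resolve_left (hk s' hs'))⟩
  have : IsDomain D := NoZeroDivisors.to_isDomain D
  have h3 : ∀ d : D, ∃ (s : Z) (a : A), d = (algebraMap Z k s)⁻¹ • i a := by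
    intro d
    obtain ⟨s, a, hs, e⟩ := h1 d
    exact ⟨s, a, by rw [← e, inv_smul_smul₀ (hk s hs)]⟩
  have hint : Algebra.IsIntegral k D := ⟨fun d => by
    obtain ⟨s, a, rfl⟩ := h3 d
    exact (((Algebra.IsIntegral.isIntegral (R := Z) a).map i).tower_top).smul _⟩
  have : Countable Z := (FaithfulSMul.algebraMap_injective Z A).countable
  have : Countable D := Function.Surjective.countable
    (f := fun p : Z × A => (algebraMap Z k p.1)⁻¹ • i p.2) fun d =>
      let ⟨s, a, e⟩ := h3 d; ⟨(s, a), e.symm⟩
  let := DivisionRing.ofIsUnitOrEqZero (R := D) fun d =>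
    or_iff_not_imp_right.2 (hint.isIntegral d).isUnit
  refine goal_of_divisionRing D k (i (x true)) (i (x false)) ?_ fun hfin => hbig ?_
  · rw [eq_top_iff]
    intro d _
    obtain ⟨s, a, rfl⟩ := h3 d
    apply Subalgebra.smul_mem
    have : Algebra.adjoin Z (Set.range x) ≤ ((Algebra.adjoin k
        ({i (x true), i (x false)} : Set D)).restrictScalars Z).comap i := by
      rw [Algebra.adjoin_le_iff]
      rintro _ ⟨b, rfl⟩
      apply Algebra.subset_adjoin
      cases b <;> simp
    exact this (hgen ▸ Algebra.mem_top)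
  · let e := Module.finBasis k D
    choose s w hs he using fun j => h1 (e j)
    have h4 : ∀ d : D, ∃ κ : Fin (Module.finrank k D) → k, d = ∑ l, κ l • i (w l) := by
      intro d
      refine ⟨fun l => e.repr d l * (algebraMap Z k (s l))⁻¹, ?_⟩
      conv_lhs => rw [← e.sum_repr d]
      apply sum_congr rfl
      intro l _
      rw [← he, smul_smul, inv_mul_cancel_right₀ (hk _ (hs l))]
    choose κ hκ using h4
    obtain ⟨t, ht⟩ := IsLocalization.exist_integer_multiples_of_finite (nonZeroDivisors Z)
      (fun j : Option (Bool × Fin (Module.finrank k D)) × Fin (Module.finrank k D) =>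
        κ (i (j.1.elim 1 fun b => x b.1 * w b.2)) j.2)
    choose c hc using ht
    have h5 : ∀ j : Option (Bool × Fin (Module.finrank k D)),
        (t : Z) • (j.elim 1 fun b => x b.1 * w b.2) = ∑ l, c (j, l) • w l := by
      intro j
      rw [← sub_eq_zero]
      apply h2
      rw [map_sub, map_smul, hκ (i _), map_sum, smul_sum, ← sum_sub_distrib]
      apply sum_eq_zero
      intro l _
      rw [map_smul, ← algebraMap_smul k (c (j, l)), hc, smul_assoc, sub_self]
    exact ⟨_, w, t, fun l => c (none, l), fun b j l => c (some (b, j), l),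
      hA _ (nonZeroDivisors.ne_zero t.2), h5 none, fun b j => h5 (some (b, j))⟩

theorem goal_of_domain {T A : Type} [CommRing T] [Algebra ℚ T] [Ring A] [IsDomain A]
    [Algebra T A] [Countable A] [Algebra.IsIntegral T A] (x : Bool → A)
    (hgen : Algebra.adjoin T (Set.range x) = ⊤) (hbig : ¬ GenFin T x) : Goal := by
  let Z := T ⧸ RingHom.ker (algebraMap T A)
  let φ : Z →+* A := RingHom.kerLift (algebraMap T A)
  have hφ : ∀ t, φ (Ideal.Quotient.mk _ t) = algebraMap T A t := fun t => rfl
  let : Algebra Z A := φ.toAlgebra' fun z a => by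
    obtain ⟨t, rfl⟩ := Ideal.Quotient.mk_surjective z
    rw [hφ]
    exact Algebra.commutes t a
  have : IsScalarTower T Z A := IsScalarTower.of_algebraMap_eq fun _ => rfl
  have hinj : Function.Injective φ := RingHom.kerLift_injective _
  have : FaithfulSMul Z A := (faithfulSMul_iff_algebraMap_injective _ _).2 hinj
  have : IsDomain Z := hinj.isDomain φ
  have : CharZero Z := algebraRat.charZero Z
  have : Algebra.IsIntegral Z A := ⟨fun a => (Algebra.IsIntegral.isIntegral (R := T) a).tower_top⟩
  refine goal_of_faithful (Z := Z) x ?_ ?_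
  · rw [eq_top_iff]
    intro a _
    have : Algebra.adjoin T (Set.range x) ≤ (Algebra.adjoin Z (Set.range x)).restrictScalars T :=
      Algebra.adjoin_le Algebra.subset_adjoin
    exact this (hgen ▸ Algebra.mem_top)
  · rintro ⟨s, w, t, c₁, c, h1, h2, h3⟩
    choose σ hσ using Ideal.Quotient.mk_surjective (I := RingHom.ker (algebraMap T A))
    have e : ∀ (z : Z) (a : A), σ z • a = z • a := fun z a => by
      conv_rhs => rw [← hσ z]
      exact (algebraMap_smul Z (σ z) a).symm
    refine hbig ⟨s, w, σ t, fun l => σ (c₁ l), fun b j l => σ (c b j l), ?_, ?_, ?_⟩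
    · rwa [← hφ, hσ]
    · simpa only [e] using h2
    · simpa only [e] using h3

end Crest.Agent.R180
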