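import Crest.Agent.R180.Match

/-! Classes of ideals: additivity, cutting, Gysin. -/

set_option autoImplicit false

namespace Crest.Agent.R180

open Finset MvPolynomial

variable {σ : Type} {k : Type} [Field k] (m : MO σ)

/-- `a` is the leading exponent of `r`. -/
def PLead (r : MvPolynomial σ k) (a : σ →₀ ℕ) : Prop :=
  coeff a r ≠ 0 ∧ ∀ b, coeff b r ≠ 0 → m.key b ≤ m.key a

lemma coeff_mul_monomial_ne {c a : σ →₀ ℕ} {v : MvPolynomial σ k}
    (h : coeff a (monomial c (1 : k) * v) ≠ 0) : c ≤ a := by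
  classical
  rw [coeff_monomial_mul'] at h
  by_contra h'
  exact h (if_neg h')

variable (k) in
/-- The polynomial ring as a system. -/
noncomputable def polySys : Sys m k Unit (MvPolynomial σ k) where
  L := m.L
  key b := m.key b.1
  inj := fun b b' h => Prod.ext (m.inj h) rfl
  add_le := fun c a _ a' _ h => m.add_le c a a' h
  same := fun _ _ _ => Iff.rfl
  co b := lcoeff k b.1
  fin v := by
    apply Set.Finite.subset (v.support.finite_toSet.prod (Set.finite_univ (α := Unit)))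
    intro b hb
    exact ⟨mem_support_iff.2 hb, trivial⟩
  ext v h := MvPolynomial.ext _ _ fun a => h (a, ())
  mul c := LinearMap.mulLeft k (monomial c 1)
  co_mul c a _ v := by
    simp only [lcoeff_apply, LinearMap.mulLeft_apply]
    rw [add_comm, coeff_monomial_mul, one_mul]
  co_mul' c a _ v h := coeff_mul_monomial_ne h

lemma polySys_lead {r : MvPolynomial σ k} {a : σ →₀ ℕ} :
    (polySys k m).Lead r (a, ()) ↔ PLead m r a :=
  ⟨fun h => ⟨h.1, fun b hb => h.2 (b, ()) hb⟩, fun h => ⟨h.1, fun b hb => h.2 b.1 hb⟩⟩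

/-- Standard exponents. -/
def std (I : Ideal (MvPolynomial σ k)) : Set (σ →₀ ℕ) := {a | ¬ ∃ r ∈ I, PLead m r a}

variable {m}

lemma PLead.mul {r : MvPolynomial σ k} {a : σ →₀ ℕ} (h : PLead m r a) (c : σ →₀ ℕ) :
    PLead m (monomial c 1 * r) (a + c) :=
  (polySys_lead m).1 (((polySys_lead m).2 h).mul c)

lemma exists_plead (m : MO σ) {r : MvPolynomial σ k} (hr : r ≠ 0) : ∃ a, PLead m r a := by
  obtain ⟨⟨a, _⟩, h⟩ := (polySys k m).exists_lead hr
  exact ⟨a, (polySys_lead m).1 h⟩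

lemma plead_monomial (m : MO σ) (a : σ →₀ ℕ) : PLead m (monomial a (1 : k)) a := by
  classical
  refine ⟨by simp, fun b hb => ?_⟩
  rw [coeff_monomial] at hb
  have : a = b := by
    by_contra h
    exact hb (if_neg h)
  rw [this]

lemma plead_X_sub_C (m : MO σ) (i : σ) (z : k) :
    PLead m (X i - C z : MvPolynomial σ k) (Finsupp.single i 1) := by
  classical
  have h0 : (0 : σ →₀ ℕ) ≠ Finsupp.single i 1 := by
    intro h
    simpa using DFunLike.congr_fun h i
  refine ⟨by simp [coeff_C, h0], fun b hb => ?_⟩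
  by_cases h1 : Finsupp.single i 1 = b
  · rw [h1]
  · by_cases h2 : 0 = b
    · rw [← h2]
      exact m.zero_le _
    · simp [coeff_X, coeff_C, h1, h2] at hb

lemma std_lower {I : Ideal (MvPolynomial σ k)} {a b : σ →₀ ℕ} (hab : a ≤ b) (hb : b ∈ std m I) :
    a ∈ std m I := by
  rintro ⟨r, hr, h⟩
  obtain ⟨c, rfl⟩ := exists_add_of_le hab
  exact hb ⟨_, I.mul_mem_left _ hr, h.mul c⟩

lemma std_anti {I J : Ideal (MvPolynomial σ k)} (h : I ≤ J) : std m J ⊆ std m I :=
  fun _ ha ⟨r, hr, h'⟩ => ha ⟨r, h hr, h'⟩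

lemma std_top : std m (⊤ : Ideal (MvPolynomial σ k)) = ∅ := by
  ext a
  simp only [Set.mem_empty_iff_false, iff_false]
  exact fun h => h ⟨_, trivial, plead_monomial m a⟩

lemma std_bot : std m (⊥ : Ideal (MvPolynomial σ k)) = Set.univ := by
  ext a
  simp only [Set.mem_univ, iff_true]
  rintro ⟨r, hr, h⟩
  rw [Ideal.mem_bot] at hr
  exact h.1 (by simp [hr])

lemma eq_zero_of_mem_std {J : Ideal (MvPolynomial σ k)} {i : σ} {z : k} (h : X i - C z ∈ J)
    {a : σ →₀ ℕ} (ha : a ∈ std m J) : a i = 0 := by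
  by_contra h0
  exact std_lower (Finsupp.single_le_iff.2 (Nat.one_le_iff_ne_zero.2 h0)) ha
    ⟨_, h, plead_X_sub_C m i z⟩

lemma tame_std [Fintype σ] (I : Ideal (MvPolynomial σ k)) : Tame (ind (std m I)) :=
  tame_ind_of_convex fun _ _ _ _ hbc _ hc => std_lower hbc hc

/-- The colon ideal by one element. -/
noncomputable def col (J : Ideal (MvPolynomial σ k)) (f : MvPolynomial σ k) : Ideal (MvPolynomial σ k) :=
  Submodule.comap (LinearMap.mulRight (MvPolynomial σ k) f) J

lemma mem_col {J : Ideal (MvPolynomial σ k)} {f r : MvPolynomial σ k} :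
    r ∈ col J f ↔ r * f ∈ J := Iff.rfl

lemma le_col (J : Ideal (MvPolynomial σ k)) (f : MvPolynomial σ k) : J ≤ col J f :=
  fun _ hr => J.mul_mem_right _ hr

/-- The ideal `J + (f)`. -/
noncomputable def adj (J : Ideal (MvPolynomial σ k)) (f : MvPolynomial σ k) : Ideal (MvPolynomial σ k) :=
  J ⊔ Ideal.span {f}

lemma mem_adj {J : Ideal (MvPolynomial σ k)} {f r : MvPolynomial σ k} :
    r ∈ adj J f ↔ ∃ v, r - v * f ∈ J := by
  rw [adj, Submodule.mem_sup]
  constructor
  · rintro ⟨y, hy, z, hz, rfl⟩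
    obtain ⟨v, rfl⟩ := Ideal.mem_span_singleton'.1 hz
    exact ⟨v, by simpa using hy⟩
  · rintro ⟨v, hv⟩
    exact ⟨_, hv, v * f, Ideal.mem_span_singleton'.2 ⟨v, rfl⟩, by ring⟩

lemma le_adj (J : Ideal (MvPolynomial σ k)) (f : MvPolynomial σ k) : J ≤ adj J f := le_sup_left

lemma self_mem_adj (J : Ideal (MvPolynomial σ k)) (f : MvPolynomial σ k) : f ∈ adj J f :=
  mem_adj.2 ⟨1, by simp⟩

lemma lt_adj {J : Ideal (MvPolynomial σ k)} {f : MvPolynomial σ k} (h : f ∉ J) : J < adj J f :=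
  lt_of_le_of_ne (le_adj J f) fun e => h (e ▸ self_mem_adj J f)

lemma adj_le {J J' : Ideal (MvPolynomial σ k)} {f : MvPolynomial σ k} (h : J ≤ J') (hf : f ∈ J') :
    adj J f ≤ J' := sup_le h ((Ideal.span_singleton_le_iff_mem _).2 hf)

variable (m) in
/-- The relation given by multiplication with `f` modulo `J`. -/
def mulRel (J : Ideal (MvPolynomial σ k)) (f : MvPolynomial σ k) :
    Rel (polySys k m) (polySys k m) where
  P v w := w - v * f ∈ J
  sub_smul v w v' w' x h h' := by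
    have := J.sub_mem h (J.mul_mem_left (C x) h')
    convert this using 1
    simp only [smul_eq_C_mul]
    ring
  mul c v w h := by
    have := J.mul_mem_left (monomial c 1) h
    convert this using 1
    simp only [polySys, LinearMap.mulLeft_apply]
    ring

lemma mulRel_X (J : Ideal (MvPolynomial σ k)) (f : MvPolynomial σ k) :
    {a | (a, ()) ∈ (mulRel m J f).X} = std m (col J f) := by
  ext a
  constructor
  · rintro ⟨_, h⟩ ⟨r, hr, h'⟩
    exact h ⟨r, by simpa [mulRel] using mem_col.1 hr, (polySys_lead m).2 h'⟩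
  · intro h
    refine ⟨⟨monomial a 1, monomial a 1 * f, by simp [mulRel],
      (polySys_lead m).2 (plead_monomial m a)⟩, ?_⟩
    rintro ⟨r, hr, h'⟩
    exact h ⟨r, mem_col.2 (by simpa [mulRel] using hr), (polySys_lead m).1 h'⟩

lemma mulRel_flip_X (J : Ideal (MvPolynomial σ k)) (f : MvPolynomial σ k) :
    {a | (a, ()) ∈ (mulRel m J f).flip.X} = std m J \ std m (adj J f) := by
  ext a
  constructor
  · rintro ⟨⟨w, v, h1, h2⟩, h⟩
    refine ⟨?_, fun h' => h' ⟨w, mem_adj.2 ⟨v, h1⟩, (polySys_lead m).1 h2⟩⟩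
    rintro ⟨r, hr, h'⟩
    exact h ⟨r, by simpa [mulRel, Rel.flip] using hr, (polySys_lead m).2 h'⟩
  · rintro ⟨h1, h2⟩
    obtain ⟨w, hw, h3⟩ : ∃ r ∈ adj J f, PLead m r a := not_not.1 h2
    obtain ⟨v, hv⟩ := mem_adj.1 hw
    refine ⟨⟨w, v, hv, (polySys_lead m).2 h3⟩, ?_⟩
    rintro ⟨r, hr, h'⟩
    exact h1 ⟨r, by simpa [mulRel, Rel.flip] using hr, (polySys_lead m).1 h'⟩

lemma ind_diff {Y Y' : Set (σ →₀ ℕ)} (h : Y' ⊆ Y) : ind Y = ind Y' + ind (Y \ Y') := by
  ext a
  by_cases h1 : a ∈ Y'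
  · simp [ind, h1, h h1]
  · by_cases h2 : a ∈ Y <;> simp [ind, h1, h2]

section Graded

variable {M : Type} [AddCommGroup M] (w : σ → M)

/-- Graded ideals. -/
def Gr (J : Ideal (MvPolynomial σ k)) : Prop :=
  ∀ r ∈ J, ∀ g, weightedHomogeneousComponent w g r ∈ J

variable {w}

lemma comp_mul {f : MvPolynomial σ k} {g : M} (hf : IsWeightedHomogeneous w f g) (h : M)
    (r : MvPolynomial σ k) :
    weightedHomogeneousComponent w (h + g) (r * f) = weightedHomogeneousComponent w h r * f := by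
  classical
  induction r using MvPolynomial.induction_on' with
  | monomial a x =>
    have h1 := isWeightedHomogeneous_monomial w a x rfl
    rw [weightedHomogeneousComponent_of_mem (h1.mul hf), weightedHomogeneousComponent_of_mem h1]
    simp only [add_left_inj]
    split_ifs <;> simp
  | add p q hp hq => rw [add_mul, map_add, map_add, hp, hq, add_mul]

lemma Gr.col {J : Ideal (MvPolynomial σ k)} (hJ : Gr w J) {f : MvPolynomial σ k} {g : M}
    (hf : IsWeightedHomogeneous w f g) : Gr w (col J f) := by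
  intro r hr h
  rw [mem_col, ← comp_mul hf]
  exact hJ _ hr _

lemma Gr.adj {J : Ideal (MvPolynomial σ k)} (hJ : Gr w J) {f : MvPolynomial σ k} {g : M}
    (hf : IsWeightedHomogeneous w f g) : Gr w (adj J f) := by
  intro r hr h
  obtain ⟨v, hv⟩ := mem_adj.1 hr
  refine mem_adj.2 ⟨weightedHomogeneousComponent w (h - g) v, ?_⟩
  rw [← comp_mul hf, sub_add_cancel, ← map_sub]
  exact hJ _ hv _

lemma Gr.exists_homogeneous {J J' : Ideal (MvPolynomial σ k)} (hJ' : Gr w J') (h : ¬ J' ≤ J) :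
    ∃ f g, IsWeightedHomogeneous w f g ∧ f ∈ J' ∧ f ∉ J := by
  classical
  by_contra hne
  push Not at hne
  apply h
  intro r hr
  rw [← sum_weightedHomogeneousComponent w r,
    finsum_eq_sum _ (weightedHomogeneousComponent_finsupp r)]
  exact J.sum_mem fun g _ => hne _ g (weightedHomogeneousComponent_isWeightedHomogeneous g r)
    (hJ' r hr g)

lemma PLead.comp {r : MvPolynomial σ k} {a : σ →₀ ℕ} (h : PLead m r a) :
    PLead m (weightedHomogeneousComponent w (Finsupp.weight w a) r) a := by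
  classical
  refine ⟨by simpa [coeff_weightedHomogeneousComponent] using h.1, fun b hb => h.2 b ?_⟩
  rw [coeff_weightedHomogeneousComponent] at hb
  split_ifs at hb
  · exact hb
  · exact absurd rfl hb

lemma mulRel_weight {J : Ideal (MvPolynomial σ k)} (hJ : Gr w J) {f : MvPolynomial σ k} {g : M}
    (hf : IsWeightedHomogeneous w f g) {a c : σ →₀ ℕ} (h : (mulRel m J f).Γ (a, ()) (c, ())) :
    Finsupp.weight w c = Finsupp.weight w a + g := by
  classical
  obtain ⟨v, u, h1, h2, h3⟩ := h.1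
  have h4 : (mulRel m J f).P (weightedHomogeneousComponent w (Finsupp.weight w a) v)
      (weightedHomogeneousComponent w (Finsupp.weight w a + g) u) := by
    show _ - _ ∈ J
    rw [← comp_mul hf, ← map_sub]
    exact hJ _ h1 _
  have h5 := h.2.1 _ _ h4 ((polySys_lead m).2 ((polySys_lead m).1 h2).comp)
  by_contra hne
  apply h5
  rintro ⟨b, _⟩ hb
  have hb' : coeff b (weightedHomogeneousComponent w (Finsupp.weight w a + g) u) ≠ 0 := hb
  rw [coeff_weightedHomogeneousComponent] at hb'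
  split_ifs at hb' with hw
  · refine lt_of_le_of_ne (h3.2 (b, ()) hb') fun e => hne ?_
    have e' : b = c := m.inj e
    rw [← e', hw]
  · exact absurd rfl hb'

end Graded

lemma mulRel_gysin {J : Ideal (MvPolynomial σ k)} {i : σ} {z : k} {a c : σ →₀ ℕ}
    (h : (mulRel m J (X i - C z)).Γ (a, ()) (c, ())) (ha : a + Finsupp.single i 1 ∈ std m J) :
    c = a + Finsupp.single i 1 := by
  classical
  obtain ⟨v, u, h1, h2, h3⟩ := h.1
  have h2' := (polySys_lead m).1 h2
  have hl : PLead m (v * (X i - C z)) (a + Finsupp.single i 1) := by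
    have e : v * (X i - C z) = monomial (Finsupp.single i 1) 1 * v - z • v := by
      rw [smul_eq_C_mul, ← X]
      ring
    rw [e, ← polySys_lead]
    apply ((polySys_lead m).2 (h2'.mul _)).sub_below
    rintro ⟨b, _⟩ hb
    refine lt_of_le_of_lt (h2'.2 b hb) (lt_of_le_of_ne (m.le_of_le le_self_add) fun e => ?_)
    simpa using DFunLike.congr_fun (m.inj e) i
  have e1 : m.key c ≤ m.key (a + Finsupp.single i 1) :=
    ((polySys_lead m).2 hl).le_of_not_below (h.2.1 v _ (by simp [mulRel]) h2)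
  have e2 : ¬ (polySys k m).Below u (a + Finsupp.single i 1, ()) := by
    intro hb
    refine ha ⟨_, J.neg_mem h1, ?_⟩
    have := ((polySys_lead m).2 hl).sub_below hb 1
    rw [one_smul] at this
    rw [neg_sub]
    exact (polySys_lead m).1 this
  exact m.inj (le_antisymm e1 (h3.le_of_not_below e2))

variable [Fintype σ] [DecidableEq σ]

omit [DecidableEq σ] in
lemma key_decomp (m : MO σ) (J : Ideal (MvPolynomial σ k)) (f : MvPolynomial σ k) :
    ∃ (τ : Type) (T : Finset τ) (p q : τ → σ →₀ ℕ) (Z : τ → Set (σ →₀ ℕ)),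
      (∀ t, Tame (ind (Z t))) ∧
      (∀ t, ∀ z ∈ Z t, (mulRel m J f).Γ (z + p t, ()) (z + q t, ())) ∧
      (∀ t, ∀ z ∈ Z t, z + p t ∈ std m (col J f) ∧ z + q t ∈ std m J) ∧
      ind (std m (col J f)) = ∑ t ∈ T, sh (p t) (ind (Z t)) ∧
      ind (std m J) = ind (std m (adj J f)) + ∑ t ∈ T, sh (q t) (ind (Z t)) := by
  obtain ⟨T, Z, h1, h2, h3, h4⟩ := (mulRel m J f).matching
  simp only [univ_unique, sum_singleton] at h3 h4
  refine ⟨_, T, fun t => t.2.2.1, fun t => t.2.2.2, Z, h1, h2, fun t z hz => ⟨?_, ?_⟩, ?_, ?_⟩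
  · rw [← mulRel_X]
    exact (h2 t z hz).mem
  · have : z + t.2.2.2 ∈ std m J \ std m (adj J f) := by
      rw [← mulRel_flip_X]
      exact (h2 t z hz).flip.mem
    exact this.1
  · rw [← h3, ← mulRel_X]
  · rw [← h4, ind_diff (std_anti (le_adj J f)), ← mulRel_flip_X]

variable {S : Type} [CommRing S]

lemma cls_sum_sh (l : σ → S) {τ : Type} (T : Finset τ) (p : τ → σ →₀ ℕ) (Z : τ → Set (σ →₀ ℕ))
    (hZ : ∀ t, Tame (ind (Z t))) {c : ℕ} (hc : ∀ t, Cod c (Z t)) :
    cls l c (∑ t ∈ T, sh (p t) (ind (Z t))) = ∑ t ∈ T, cls l c (ind (Z t)) ∧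
    cls l (c + 1) (∑ t ∈ T, sh (p t) (ind (Z t))) =
      ∑ t ∈ T, (cls l (c + 1) (ind (Z t)) - lin l (p t) * cls l c (ind (Z t))) := by
  unfold cls
  rw [K_sum _ _ fun t _ => (hZ t).sh _, Polynomial.finsetSum_coeff, Polynomial.finsetSum_coeff]
  constructor
  · apply sum_congr rfl
    intro t _
    rw [K_sh _ (hZ t), (coeff_mon_mul l _ (X_pow_dvd_K l (hZ t) (by simpa using hc t))).1]
  · apply sum_congr rfl
    intro t _
    rw [K_sh _ (hZ t), (coeff_mon_mul l _ (X_pow_dvd_K l (hZ t) (by simpa using hc t))).2]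

variable (m) in
/-- The class of an ideal. -/
noncomputable def icls (l : σ → S) (c : ℕ) (I : Ideal (MvPolynomial σ k)) : S :=
  cls l c (ind (std m I))

variable (m) in
/-- Codimension bound of an ideal. -/
def ICod (c : ℕ) (I : Ideal (MvPolynomial σ k)) : Prop := Cod c (std m I)

lemma ICod.mono {c : ℕ} {I J : Ideal (MvPolynomial σ k)} (h : ICod m c I) (hIJ : I ≤ J) :
    ICod m c J := Cod.mono h (std_anti hIJ)

lemma icls_top (l : σ → S) (c : ℕ) : icls m l c (⊤ : Ideal (MvPolynomial σ k)) = 0 := by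
  rw [icls, std_top, ind_empty, cls, K_zero, Polynomial.coeff_zero]

lemma icls_eq_zero_of_lt (l : σ → S) {c c' : ℕ} {I : Ideal (MvPolynomial σ k)} (h : ICod m c' I)
    (hlt : c < c') : icls m l c I = 0 :=
  cls_eq_zero_of_lt l (tame_std I) (by rw [supp_ind]; exact h) hlt

theorem icls_add (l : σ → S) {c : ℕ} {J : Ideal (MvPolynomial σ k)} (hc : ICod m c J)
    (f : MvPolynomial σ k) : icls m l c J = icls m l c (col J f) + icls m l c (adj J f) := by
  obtain ⟨τ, T, p, q, Z, h1, _, h3, h4, h5⟩ := key_decomp m J f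
  have hZ : ∀ t, Cod c (Z t) := fun t => Cod.of_shift hc (q t) fun z hz => (h3 t z hz).2
  rw [icls, icls, h4, h5, cls_add _ _ (tame_std _) (tame_sum _ fun t _ => (h1 t).sh _),
    (cls_sum_sh l T p Z h1 hZ).1, (cls_sum_sh l T q Z h1 hZ).1, add_comm, icls]

theorem ICod.succ {c : ℕ} {J : Ideal (MvPolynomial σ k)} (hc : ICod m c J)
    {f : MvPolynomial σ k} (hf : col J f = J) : ICod m (c + 1) (adj J f) := by
  have := icls_add (fun _ => (1 : ℤ)) hc f
  rw [hf, left_eq_add] at this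
  have h := cod_succ (tame_std (adj J f)) (ind_nonneg _)
    (by rw [supp_ind]; exact hc.mono (le_adj J f)) this
  rw [supp_ind] at h
  exact h

lemma cut_formula {c : ℕ} {J : Ideal (MvPolynomial σ k)} (hc : ICod m c J)
    {f : MvPolynomial σ k} (hf : col J f = J) :
    ∃ (τ : Type) (T : Finset τ) (p q : τ → σ →₀ ℕ) (Z : τ → Set (σ →₀ ℕ)),
      (∀ t, ∀ z ∈ Z t, (mulRel m J f).Γ (z + p t, ()) (z + q t, ())) ∧
      (∀ t, ∀ z ∈ Z t, z + p t ∈ std m J ∧ z + q t ∈ std m J) ∧
      ∀ (S : Type) [CommRing S] (l : σ → S), icls m l c J = ∑ t ∈ T, cls l c (ind (Z t)) ∧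
        icls m l (c + 1) (adj J f) =
          ∑ t ∈ T, (lin l (q t) - lin l (p t)) * cls l c (ind (Z t)) := by
  obtain ⟨τ, T, p, q, Z, h1, h2, h3, h4, h5⟩ := key_decomp m J f
  have hZ : ∀ t, Cod c (Z t) := fun t => Cod.of_shift hc (q t) fun z hz => (h3 t z hz).2
  rw [hf] at h3 h4
  refine ⟨τ, T, p, q, Z, h2, h3, fun S _ l => ⟨?_, ?_⟩⟩
  · rw [icls, h4, (cls_sum_sh l T p Z h1 hZ).1]
  · have e1 := congrArg (cls l (c + 1)) h4
    have e2 := congrArg (cls l (c + 1)) h5
    rw [(cls_sum_sh l T p Z h1 hZ).2] at e1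
    rw [cls_add _ _ (tame_std _) (tame_sum _ fun t _ => (h1 t).sh _),
        (cls_sum_sh l T q Z h1 hZ).2, e1] at e2
    rw [icls, ← sub_eq_iff_eq_add.2 e2, ← sum_sub_distrib]
    apply sum_congr rfl
    intro t _
    ring

variable {M : Type} [AddCommGroup M]

variable (m) in
/-- On standard exponents, the linear form is given by the weight. -/
def Adm (w : σ → M) (lb : M →+ S) (l : σ → S) (J : Ideal (MvPolynomial σ k)) : Prop :=
  ∀ a ∈ std m J, lin l a = lb (Finsupp.weight w a)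

omit [DecidableEq σ] in
lemma Adm.mono {w : σ → M} {lb : M →+ S} {l : σ → S} {I J : Ideal (MvPolynomial σ k)}
    (h : Adm m w lb l I) (hIJ : I ≤ J) : Adm m w lb l J := fun a ha => h a (std_anti hIJ ha)

lemma cls_ind_of_not_nonempty (l : σ → S) (c : ℕ) {Z : Set (σ →₀ ℕ)} (h : ¬ Z.Nonempty) :
    cls l c (ind Z) = 0 := by
  rw [Set.not_nonempty_iff_eq_empty.1 h, ind_empty, cls, K_zero, Polynomial.coeff_zero]

omit [DecidableEq σ] in
lemma lin_sub_eq {w : σ → M} {lb : M →+ S} {l : σ → S} {J : Ideal (MvPolynomial σ k)}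
    (hA : Adm m w lb l J) (hJ : Gr w J) {f : MvPolynomial σ k} {g : M}
    (hf : IsWeightedHomogeneous w f g) {z p q : σ →₀ ℕ}
    (h : (mulRel m J f).Γ (z + p, ()) (z + q, ())) (h1 : z + p ∈ std m J) (h2 : z + q ∈ std m J) :
    lin l q - lin l p = lb g := by
  have e1 := hA _ h1
  have e2 := hA _ h2
  rw [mulRel_weight hJ hf h, map_add, ← e1, lin_add, lin_add] at e2
  linear_combination e2

theorem icls_cut {w : σ → M} {lb : M →+ S} {l : σ → S} {c : ℕ} {J : Ideal (MvPolynomial σ k)}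
    (hc : ICod m c J) (hA : Adm m w lb l J) (hJ : Gr w J) {f : MvPolynomial σ k} {g : M}
    (hg : IsWeightedHomogeneous w f g) (hf : col J f = J) :
    icls m l (c + 1) (adj J f) = lb g * icls m l c J := by
  obtain ⟨τ, T, p, q, Z, h2, h3, h4⟩ := cut_formula hc hf
  rw [(h4 S l).1, (h4 S l).2, mul_sum]
  apply sum_congr rfl
  intro t _
  by_cases hZ : (Z t).Nonempty
  · obtain ⟨z, hz⟩ := hZ
    rw [lin_sub_eq hA hJ hg (h2 t z hz) (h3 t z hz).1 (h3 t z hz).2]
  · simp [cls_ind_of_not_nonempty _ _ hZ]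

theorem icls_vanish {l : σ → S} (c : ℕ) {J : Ideal (MvPolynomial σ k)} {i : σ} (hi : l i = 0)
    {z : k} (h : X i - C z ∈ J) : icls m l c J = 0 := by
  rw [icls, cls, K_eq_zero_of_no_ray _ i (by simp [tt, hi]), Polynomial.coeff_zero]
  intro a
  refine ⟨1, ind_of_notMem fun ha => ?_⟩
  simpa using eq_zero_of_mem_std h ha

theorem icls_gysin {w : σ → M} {lb : M →+ S} {l : σ → S} {c : ℕ} {J : Ideal (MvPolynomial σ k)}
    (hc : ICod m c J) (hA : Adm m w lb l J) (hJ : Gr w J) {i : σ} (hi : l i = 0) (hw : w i = 0)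
    {z : k} (hf : col J (X i - C z) = J) :
    icls m (Function.update l i 1) (c + 1) (adj J (X i - C z)) = icls m l c J := by
  obtain ⟨τ, T, p, q, Z, h2, h3, h4⟩ := cut_formula hc hf
  have hg : IsWeightedHomogeneous w (X i - C z : MvPolynomial σ k) 0 :=
    (hw ▸ isWeightedHomogeneous_X k w i).sub (isWeightedHomogeneous_C w z)
  let l' : σ → Polynomial S := Function.update (fun j => Polynomial.C (l j)) i Polynomial.X
  have hlin : ∀ a, lin l' a = Polynomial.C (lin l a) + (a i : Polynomial S) * Polynomial.X := by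
    intro a
    unfold lin
    rw [map_sum, ← add_sum_erase _ _ (mem_univ i), ← add_sum_erase _ _ (mem_univ i), hi,
      sum_congr rfl (g := fun j => Polynomial.C ((a j : S) * l j))]
    · simp [l', add_comm]
    · intro j hj
      simp [l', Function.update_of_ne (ne_of_mem_erase hj)]
  have e := congrArg (fun x => Polynomial.coeff x 1) (h4 _ l').2
  have e1 : icls m l' (c + 1) (adj J (X i - C z)) = Polynomial.X *
      Polynomial.C (icls m (Function.update l i 1) (c + 1) (adj J (X i - C z))) := by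
    rw [icls, cls_update _ (tame_std _) (by rw [supp_ind]; exact hc.succ hf), icls, map_cls]
    · congr 2
      ext1 j
      by_cases hj : j = i
      · subst hj
        simp
      · simp [Function.update_of_ne hj]
    · intro a ha
      apply eq_zero_of_mem_std (m := m) (self_mem_adj J (X i - C z))
      by_contra h
      exact ha (ind_of_notMem h)
  simp only [e1, Polynomial.coeff_X_mul, Polynomial.coeff_C_zero,
    Polynomial.finsetSum_coeff] at e
  rw [e, (h4 S l).1]
  apply sum_congr rfl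
  intro t _
  by_cases hZ : (Z t).Nonempty
  · obtain ⟨z₀, hz⟩ := hZ
    have e2 := lin_sub_eq hA hJ hg (h2 t z₀ hz) (h3 t z₀ hz).1 (h3 t z₀ hz).2
    have e3 : lin l' (q t) - lin l' (p t) =
        Polynomial.X * Polynomial.C ((q t i : S) - (p t i : S)) := by
      rw [hlin, hlin, sub_eq_zero.1 (e2.trans (map_zero lb))]
      simp only [map_sub, map_natCast]
      ring
    have e4 : (cls l' c (ind (Z t))).coeff 0 = cls l c (ind (Z t)) := by
      rw [← Polynomial.constantCoeff_apply, map_cls]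
      congr 1
      ext1 j
      by_cases hj : j = i
      · subst hj
        simp [l', hi]
      · simp [l', Function.update_of_ne hj]
    rw [e3, mul_assoc, Polynomial.coeff_X_mul, Polynomial.coeff_C_mul, e4]
    by_cases hray : ∀ a, ∃ n, ind (Z t) (a + Finsupp.single i n) = 0
    · rw [cls, K_eq_zero_of_no_ray _ i (by simp [tt, hi]) hray]
      simp
    · push Not at hray
      obtain ⟨a, ha⟩ := hray
      have ha0 : a ∈ Z t := by
        by_contra h
        exact ha 0 (by simpa using ind_of_notMem h)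
      have ha1 : a + Finsupp.single i 1 ∈ Z t := by
        by_contra h
        exact ha 1 (ind_of_notMem h)
      have := mulRel_gysin (h2 t a ha0) (by rw [add_right_comm]; exact (h3 t _ ha1).1)
      have e5 := DFunLike.congr_fun this i
      simp only [Finsupp.coe_add, Pi.add_apply, Finsupp.single_eq_same] at e5
      have e6 : q t i = p t i + 1 := by omega
      rw [e6]
      simp
  · simp [cls_ind_of_not_nonempty _ _ hZ]

theorem step [IsDomain S] {w : σ → M} {lb : M →+ S} {l : σ → S} {f : MvPolynomial σ k} {g : M}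
    (hg : IsWeightedHomogeneous w f g) (hg0 : lb g ≠ 0) {c : ℕ} (J : Ideal (MvPolynomial σ k))
    (hc : ICod m c J) (hA : Adm m w lb l J) (hJ : Gr w J) (h0 : icls m l c J ≠ 0) :
    ∃ J' c', J ≤ J' ∧ f ∈ J' ∧ Gr w J' ∧ c' ≤ c + 1 ∧ ICod m c' J' ∧ icls m l c' J' ≠ 0 := by
  induction J using WellFoundedGT.induction with
  | ind J ih =>
    by_cases hf : col J f = J
    · refine ⟨adj J f, c + 1, le_adj _ _, self_mem_adj _ _, hJ.adj hg, le_rfl, hc.succ hf, ?_⟩
      rw [icls_cut hc hA hJ hg hf]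
      exact mul_ne_zero hg0 h0
    · by_cases h1 : icls m l c (adj J f) = 0
      · rw [icls_add l hc f, h1, add_zero] at h0
        obtain ⟨J', c', e1, e2⟩ := ih (col J f) (lt_of_le_of_ne (le_col J f) (Ne.symm hf))
          (hc.mono (le_col J f)) (hA.mono (le_col J f)) (hJ.col hg) h0
        exact ⟨J', c', (le_col J f).trans e1, e2⟩
      · exact ⟨adj J f, c, le_adj _ _, self_mem_adj _ _, hJ.adj hg, Nat.le_succ c,
          hc.mono (le_adj _ _), h1⟩

theorem steps [IsDomain S] {w : σ → M} {lb : M →+ S} {l : σ → S} {ι : Type} (s : Finset ι)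
    (f : ι → MvPolynomial σ k) (g : ι → M)
    (hg : ∀ i ∈ s, IsWeightedHomogeneous w (f i) (g i)) (hg0 : ∀ i ∈ s, lb (g i) ≠ 0) {c : ℕ}
    (J : Ideal (MvPolynomial σ k))
    (hc : ICod m c J) (hA : Adm m w lb l J) (hJ : Gr w J) (h0 : icls m l c J ≠ 0) :
    ∃ J' c', J ≤ J' ∧ (∀ i ∈ s, f i ∈ J') ∧ Gr w J' ∧ c' ≤ c + s.card ∧ ICod m c' J' ∧
      icls m l c' J' ≠ 0 := by
  classical
  induction s using Finset.induction_on with
  | empty => exact ⟨J, c, le_rfl, by simp, hJ, by simp, hc, h0⟩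
  | insert i s hi ih =>
    obtain ⟨J', c', e1, e2, e3, e4, e5, e6⟩ := ih (fun j hj => hg j (mem_insert_of_mem hj))
      (fun j hj => hg0 j (mem_insert_of_mem hj))
    obtain ⟨J'', c'', d1, d2, d3, d4, d5, d6⟩ := step (hg i (mem_insert_self _ _))
      (hg0 i (mem_insert_self _ _)) J' e5 (hA.mono e1) e3 e6
    refine ⟨J'', c'', e1.trans d1, ?_, d3, by rw [card_insert_of_notMem hi]; omega, d5, d6⟩
    intro j hj
    rcases mem_insert.1 hj with rfl | hj
    · exact d2
    · exact d1 (e2 j hj)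

theorem exists_max {w : σ → M} {l : σ → S} {c : ℕ} (J : Ideal (MvPolynomial σ k))
    (hc : ICod m c J) (hJ : Gr w J) (h0 : icls m l c J ≠ 0) :
    ∃ P, J ≤ P ∧ Gr w P ∧ icls m l c P ≠ 0 ∧
      ∀ f g, IsWeightedHomogeneous w f g → f ∉ P → col P f = P := by
  induction J using WellFoundedGT.induction with
  | ind J ih =>
    by_cases h : ∀ f g, IsWeightedHomogeneous w f g → f ∉ J → col J f = J
    · exact ⟨J, le_rfl, hJ, h0, h⟩
    · push Not at h
      obtain ⟨f, g, hg, hf, hne⟩ := h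
      by_cases h1 : icls m l c (adj J f) = 0
      · rw [icls_add l hc f, h1, add_zero] at h0
        obtain ⟨P, e1, e2⟩ := ih (col J f) (lt_of_le_of_ne (le_col J f) (Ne.symm hne))
          (hc.mono (le_col J f)) (hJ.col hg) h0
        exact ⟨P, (le_col J f).trans e1, e2⟩
      · obtain ⟨P, e1, e2⟩ := ih (adj J f) (lt_adj hf) (hc.mono (le_adj J f)) (hJ.adj hg) h1
        exact ⟨P, (le_adj J f).trans e1, e2⟩

end Crest.Agent.R180
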