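import Mathlib

/-! K-polynomials of tame functions on exponent vectors. -/

set_option autoImplicit false

namespace Crest.Agent.R180

open Finset Polynomial

section K

variable {σ : Type} [Fintype σ] [DecidableEq σ]

/-- The box of exponents bounded by `R`. -/
noncomputable def box (R : σ → ℕ) : Finset (σ →₀ ℕ) :=
  (Fintype.piFinset fun i => range (R i + 1)).map Finsupp.equivFunOnFinite.symm.toEmbedding

lemma mem_box {R : σ → ℕ} {a : σ →₀ ℕ} : a ∈ box R ↔ ∀ i, a i ≤ R i := by
  simp [box, Fintype.mem_piFinset]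

variable {A : Type*} [CommRing A]

/-- One-variable factor. -/
def fac (t : A) (r a : ℕ) : A := t ^ a * if a < r then 1 - t else 1

/-- The K-polynomial of one cell of the box decomposition. -/
def term (t : σ → A) (R : σ → ℕ) (a : σ →₀ ℕ) : A := ∏ i, fac (t i) (R i) (a i)

/-- K-polynomial with respect to a box. -/
noncomputable def KR (t : σ → A) (R : σ → ℕ) (H : (σ →₀ ℕ) → ℤ) : A :=
  ∑ a ∈ box R, (H a : A) * term t R a

/-- `H` only depends on the truncation at `R`. -/
def Stab (R : σ → ℕ) (H : (σ →₀ ℕ) → ℤ) : Prop :=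
  ∀ a b : σ →₀ ℕ, (∀ i, min (a i) (R i) = min (b i) (R i)) → H a = H b

/-- Tame functions. -/
def Tame (H : (σ →₀ ℕ) → ℤ) : Prop := ∃ R, Stab R H

open Classical in
/-- The K-polynomial. -/
noncomputable def K (t : σ → A) (H : (σ →₀ ℕ) → ℤ) : A :=
  if h : Tame H then KR t h.choose H else 0

omit [Fintype σ] [DecidableEq σ] in
lemma Stab.mono {R R' : σ → ℕ} {H : (σ →₀ ℕ) → ℤ} (h : Stab R H) (hR : R ≤ R') : Stab R' H := by
  intro a b hab
  apply h
  intro i
  have h1 := hab i
  have h2 : R i ≤ R' i := hR i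
  omega

lemma sum_fac (t : A) (r a : ℕ) (ha : a ≤ r) (r' : ℕ) (hr : r ≤ r') :
    ∑ j ∈ range (r' + 1), (if min j r = a then fac t r' j else 0) = fac t r a := by
  induction r', hr using Nat.le_induction with
  | base =>
    rw [sum_eq_single a]
    · simp [min_eq_left ha]
    · intro j hj hja
      have : j ≤ r := by simpa [Nat.lt_succ_iff] using hj
      simp [min_eq_left this, hja]
    · intro h
      exact absurd (by simpa [Nat.lt_succ_iff] using ha) h
  | succ r' hr ih =>
    rw [← ih, sum_range_succ, sum_range_succ, sum_range_succ _ r', add_assoc]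
    congr 1
    · apply sum_congr rfl
      intro j hj
      have hj' : j < r' := mem_range.1 hj
      have : j < r' + 1 := by omega
      simp [fac, hj', this]
    · have h1 : min r' r = r := min_eq_right hr
      have h2 : min (r' + 1) r = r := min_eq_right (by omega)
      rw [h1, h2]
      split_ifs
      · simp [fac]; ring
      · simp

lemma KR_eq_of_le (t : σ → A) {R R' : σ → ℕ} {H : (σ →₀ ℕ) → ℤ} (h : Stab R H) (hR : R ≤ R') :
    KR t R' H = KR t R H := by
  have key : ∀ a ∈ box R, term t R a =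
      ∑ a' ∈ box R', (if (∀ i, min (a' i) (R i) = a i) then term t R' a' else 0) := by
    intro a ha
    rw [mem_box] at ha
    unfold term
    rw [box, sum_map]
    rw [← prod_congr rfl fun i _ => sum_fac (t i) (R i) (a i) (ha i) (R' i) (hR i)]
    rw [prod_univ_sum]
    apply sum_congr rfl
    intro x _
    simp only [Equiv.coe_toEmbedding, Finsupp.equivFunOnFinite_symm_apply_apply]
    split_ifs with hx
    · apply prod_congr rfl
      intro i _
      simp [hx i]
    · push Not at hx
      obtain ⟨i, hi⟩ := hx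
      exact prod_eq_zero (mem_univ i) (by simp [hi])
  unfold KR
  symm
  rw [sum_congr rfl fun a ha => by rw [key a ha, mul_sum], sum_comm]
  apply sum_congr rfl
  intro a' _
  let b : σ →₀ ℕ := Finsupp.equivFunOnFinite.symm fun i => min (a' i) (R i)
  have hb : ∀ i, b i = min (a' i) (R i) := fun i => rfl
  rw [sum_eq_single b]
  · rw [if_pos (fun i => (hb i).symm), h a' b (fun i => by rw [hb]; omega)]
  · intro a _ hab
    rw [if_neg, mul_zero]
    intro hx
    apply hab
    ext i
    rw [hb, hx]
  · intro hb'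
    exact absurd (mem_box.2 fun i => by rw [hb]; omega) hb'

lemma K_eq (t : σ → A) {R : σ → ℕ} {H : (σ →₀ ℕ) → ℤ} (h : Stab R H) : K t H = KR t R H := by
  have hT : Tame H := ⟨R, h⟩
  rw [K, dif_pos hT, ← KR_eq_of_le t hT.choose_spec (le_sup_left (b := R)),
    KR_eq_of_le t h le_sup_right]

omit [Fintype σ] [DecidableEq σ] in
lemma Tame.add {H H' : (σ →₀ ℕ) → ℤ} (h : Tame H) (h' : Tame H') : Tame (H + H') := by
  obtain ⟨R, h⟩ := h
  obtain ⟨R', h'⟩ := h'
  refine ⟨R ⊔ R', fun a b hab => ?_⟩
  simp only [Pi.add_apply]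
  rw [h.mono le_sup_left a b hab, h'.mono le_sup_right a b hab]

omit [Fintype σ] [DecidableEq σ] in
lemma tame_zero : Tame (0 : (σ →₀ ℕ) → ℤ) := ⟨0, fun _ _ _ => rfl⟩

lemma K_zero (t : σ → A) : K t (0 : (σ →₀ ℕ) → ℤ) = 0 := by
  rw [K_eq t (R := 0) (fun _ _ _ => rfl)]
  simp [KR]

lemma K_add (t : σ → A) {H H' : (σ →₀ ℕ) → ℤ} (h : Tame H) (h' : Tame H') :
    K t (H + H') = K t H + K t H' := by
  obtain ⟨R, h⟩ := h
  obtain ⟨R', h'⟩ := h'
  have h1 := h.mono (le_sup_left (b := R'))
  have h2 := h'.mono (le_sup_right (a := R))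
  have h3 : Stab (R ⊔ R') (H + H') := fun a b hab => by
    simp only [Pi.add_apply]
    rw [h1 a b hab, h2 a b hab]
  rw [K_eq t h1, K_eq t h2, K_eq t h3]
  simp [KR, add_mul, sum_add_distrib]

omit [Fintype σ] [DecidableEq σ] in
lemma tame_sum {ι : Type*} (s : Finset ι) {H : ι → (σ →₀ ℕ) → ℤ} (h : ∀ j ∈ s, Tame (H j)) :
    Tame (∑ j ∈ s, H j) := by
  classical
  induction s using Finset.induction_on with
  | empty => simpa using tame_zero
  | insert j s hj ih =>
    rw [sum_insert hj]
    exact (h j (mem_insert_self _ _)).add (ih fun k hk => h k (mem_insert_of_mem hk))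

lemma K_sum (t : σ → A) {ι : Type*} (s : Finset ι) {H : ι → (σ →₀ ℕ) → ℤ}
    (h : ∀ j ∈ s, Tame (H j)) : K t (∑ j ∈ s, H j) = ∑ j ∈ s, K t (H j) := by
  classical
  induction s using Finset.induction_on with
  | empty => simpa using K_zero t
  | insert j s hj ih =>
    rw [sum_insert hj, sum_insert hj, K_add t (h j (mem_insert_self _ _))
      (tame_sum s fun k hk => h k (mem_insert_of_mem hk)), ih fun k hk => h k (mem_insert_of_mem hk)]

/-- Shift of a function by an exponent. -/
noncomputable def sh (p : σ →₀ ℕ) (H : (σ →₀ ℕ) → ℤ) : (σ →₀ ℕ) → ℤ :=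
  fun a => if p ≤ a then H (a - p) else 0

omit [Fintype σ] [DecidableEq σ] in
lemma Stab.sh {R : σ → ℕ} {H : (σ →₀ ℕ) → ℤ} (h : Stab R H) (p : σ →₀ ℕ) :
    Stab (R + ⇑p) (sh p H) := by
  intro a b hab
  have hab' : ∀ i, min (a i) (R i + p i) = min (b i) (R i + p i) := hab
  have h1 : p ≤ a ↔ p ≤ b := by
    simp only [Finsupp.le_def]
    exact forall_congr' fun i => by have := hab' i; omega
  unfold R180.sh
  by_cases hp : p ≤ a
  · rw [if_pos hp, if_pos (h1.1 hp)]
    apply h
    intro i
    have := hab' i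
    have h2 := Finsupp.le_def.1 hp i
    have h3 := Finsupp.le_def.1 (h1.1 hp) i
    simp only [Finsupp.coe_tsub, Pi.sub_apply]
    omega
  · rw [if_neg hp, if_neg (fun h' => hp (h1.2 h'))]

omit [Fintype σ] [DecidableEq σ] in
lemma Tame.sh {H : (σ →₀ ℕ) → ℤ} (h : Tame H) (p : σ →₀ ℕ) : Tame (sh p H) := by
  obtain ⟨R, h⟩ := h
  exact ⟨_, h.sh p⟩

/-- The monomial `t ^ p`. -/
def mon (t : σ → A) (p : σ →₀ ℕ) : A := ∏ i, t i ^ p i

lemma K_sh (t : σ → A) {H : (σ →₀ ℕ) → ℤ} (h : Tame H) (p : σ →₀ ℕ) :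
    K t (sh p H) = mon t p * K t H := by
  obtain ⟨R, h⟩ := h
  rw [K_eq t h, K_eq t (h.sh p), KR, KR, mul_sum]
  symm
  apply sum_bij_ne_zero (fun a _ _ => a + p)
  · intro a ha _
    rw [mem_box] at ha ⊢
    intro i
    simpa using ha i
  · intro a _ _ b _ _ hab
    exact add_right_cancel hab
  · intro b hb hb0
    have hp : p ≤ b := by
      by_contra hp
      simp [R180.sh, hp] at hb0
    obtain ⟨a, rfl⟩ := exists_add_of_le hp
    have e : mon t p * ((H a : A) * term t R a) = (sh p H (p + a) : A) * term t (R + ⇑p) (p + a) := by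
      simp only [R180.sh, le_self_add, if_true, add_tsub_cancel_left, mon, term]
      rw [mul_left_comm, ← prod_mul_distrib]
      congr 1
      apply prod_congr rfl
      intro i _
      simp only [fac, Pi.add_apply, Finsupp.coe_add, pow_add, add_comm (R i), add_lt_add_iff_left]
      ring
    refine ⟨a, ?_, ?_, add_comm _ _⟩
    · rw [mem_box] at hb ⊢
      intro i
      have := hb i
      simp only [Finsupp.coe_add, Pi.add_apply] at this
      omega
    · rw [e]; exact hb0
  · intro a _ _
    simp only [R180.sh, le_add_self, if_true, add_tsub_cancel_right, mon, term]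
    rw [mul_left_comm, ← prod_mul_distrib]
    congr 1
    apply prod_congr rfl
    intro i _
    simp only [fac, Pi.add_apply, Finsupp.coe_add, pow_add, add_lt_add_iff_right]
    ring

lemma map_K {A' : Type*} [CommRing A'] (φ : A →+* A') (t : σ → A) (H : (σ →₀ ℕ) → ℤ) :
    φ (K t H) = K (fun i => φ (t i)) H := by
  by_cases h : Tame H
  · obtain ⟨R, h⟩ := h
    rw [K_eq t h, K_eq _ h]
    simp [KR, term, fac, map_sum, map_prod, apply_ite φ]
  · simp [K, h]

/-- If `t i = 1` and the support contains no ray in direction `i`, the K-polynomial vanishes. -/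
lemma K_eq_zero_of_no_ray (t : σ → A) {H : (σ →₀ ℕ) → ℤ} (i : σ) (hi : t i = 1)
    (hH : ∀ a, ∃ n, H (a + Finsupp.single i n) = 0) : K t H = 0 := by
  by_cases h : Tame H
  · obtain ⟨R, h⟩ := h
    rw [K_eq t h, KR]
    apply sum_eq_zero
    intro a ha
    rw [mem_box] at ha
    by_cases hlt : a i < R i
    · rw [term, prod_eq_zero (mem_univ i) (by simp [fac, hlt, hi]), mul_zero]
    · obtain ⟨n, hn⟩ := hH a
      rw [h a (a + Finsupp.single i n), hn]
      · simp
      · intro j
        by_cases hj : i = j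
        · subst hj
          simp only [Finsupp.coe_add, Pi.add_apply, Finsupp.single_eq_same]
          omega
        · simp [Finsupp.single_eq_of_ne (Ne.symm hj)]
  · simp [K, h]

end K

section Prod

variable {B G : Type} [Fintype B] [DecidableEq B] [Fintype G] [DecidableEq G]

/-- Restriction of an exponent to a block. -/
noncomputable def res (j : B) (a : B × G →₀ ℕ) : G →₀ ℕ :=
  Finsupp.equivFunOnFinite.symm fun h => a (j, h)

omit [Fintype B] [DecidableEq B] [DecidableEq G] in
@[simp] lemma res_apply (j : B) (a : B × G →₀ ℕ) (h : G) : res j a h = a (j, h) := rfl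

variable {A : Type*} [CommRing A]

lemma K_prod (t : B × G → A) (H : B → (G →₀ ℕ) → ℤ) (h : ∀ j, Tame (H j)) :
    Tame (fun a => ∏ j, H j (res j a)) ∧
      K t (fun a => ∏ j, H j (res j a)) = ∏ j, K (fun g => t (j, g)) (H j) := by
  choose R hR using h
  have hS : Stab (fun x : B × G => R x.1 x.2) (fun a => ∏ j, H j (res j a)) := by
    intro a b hab
    apply prod_congr rfl
    intro j _
    exact hR j _ _ fun g => hab (j, g)
  refine ⟨⟨_, hS⟩, ?_⟩
  rw [K_eq t hS, prod_congr rfl fun j _ => K_eq _ (hR j)]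
  unfold KR
  rw [prod_univ_sum]
  apply sum_nbij' (fun a j => res j a)
    (fun x => Finsupp.equivFunOnFinite.symm fun y : B × G => x y.1 y.2)
  · intro a ha
    rw [mem_box] at ha
    rw [Fintype.mem_piFinset]
    intro j
    rw [mem_box]
    intro g
    exact ha (j, g)
  · intro x hx
    rw [Fintype.mem_piFinset] at hx
    rw [mem_box]
    intro y
    exact mem_box.1 (hx y.1) y.2
  · intro a _
    ext y
    rfl
  · intro x _
    ext j g
    rfl
  · intro a _
    rw [prod_mul_distrib, term, Fintype.prod_prod_type]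
    simp [term]

end Prod

end Crest.Agent.R180
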