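import Crest.Agent.R180.Univ
import Crest.Agent.R180.Deriv

/-! Generically finite representations have few moduli. -/

set_option autoImplicit false

namespace Crest.Agent.R180

open Finset

lemma large {F : Type} [Field F] [Algebra ℚ F] {W : Type} [Fintype W] [DecidableEq W] [Nonempty W]
    {τ : Matrix W W F → F} {x : Bool → Matrix W W F} {φ : TT →ₐ[ℚ] F} {ψ : AA →+* Matrix W W F}
    (h : IsEv τ x φ ψ) (hdom : ∀ u v, ψ (u * v) = 0 → ψ u = 0 ∨ ψ v = 0) {s : ℕ}
    (w : Fin s → AA) (t : TT) (c₁ : Fin s → TT) (c : Bool → Fin s → Fin s → TT)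
    (ht : ψ (algebraMap TT AA t) ≠ 0) (e1 : ψ (t • (1 : AA) - ∑ l, c₁ l • w l) = 0)
    (e2 : ∀ b j, ψ (t • (gen b * w j) - ∑ l, c b j l • w l) = 0) :
    ∃ (κ : Type) (_ : Fintype κ) (c : κ → F), Fintype.card κ ≤ s ^ 3 + 2 * s ∧
      ∀ D : Derivation ℚ F F, (∀ j, D (c j) = 0) →
        ∃ ξ, (x true).map D = ξ * x true - x true * ξ ∧
          (x false).map D = ξ * x false - x false * ξ := by
  have ht' : φ t ≠ 0 := fun e => ht (by rw [← h.alg, e, map_zero])
  let K : Subfield F := Subfield.closure (φ : TT →+* F).range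
  have hK : ∀ t, φ t ∈ K := fun t => Subfield.subset_closure ⟨t, rfl⟩
  have hK' : ∀ y ∈ K, ∃ t u, φ t ≠ 0 ∧ φ t * y = φ u := by
    intro y hy
    obtain ⟨a, ha, b, hb, rfl⟩ := Subfield.mem_closure_iff.1 hy
    rw [Subring.closure_eq] at ha hb
    obtain ⟨a, rfl⟩ := ha
    obtain ⟨b, rfl⟩ := hb
    by_cases e : φ b = 0
    · exact ⟨1, 0, by simp, by simp [e]⟩
    · exact ⟨b, a, e, mul_div_cancel₀ _ e⟩
  let B : Subalgebra K (Matrix W W F) :=
    { carrier := {M | ∃ t u, φ t ≠ 0 ∧ φ t • M = ψ u}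
      mul_mem' := by
        rintro M M' ⟨t, u, h1, h2⟩ ⟨t', u', h1', h2'⟩
        exact ⟨t * t', u * u', by simp [h1, h1'], by
          rw [map_mul, map_mul, ← h2, ← h2', smul_mul_smul_comm]⟩
      add_mem' := by
        rintro M M' ⟨t, u, h1, h2⟩ ⟨t', u', h1', h2'⟩
        refine ⟨t * t', t' • u + t • u', by simp [h1, h1'], ?_⟩
        rw [map_mul, map_add, h.smul, h.smul, ← h2, ← h2', smul_add, smul_smul, smul_smul,
          mul_comm (φ t')]
      algebraMap_mem' := by
        intro y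
        obtain ⟨t, u, h1, h2⟩ := hK' y y.2
        refine ⟨t, algebraMap TT AA u, h1, ?_⟩
        rw [← h.alg, ← h2, map_mul, Algebra.smul_def]
        rfl }
  have : NoZeroDivisors B := ⟨by
    rintro ⟨M, t, u, h1, h2⟩ ⟨M', t', u', h1', h2'⟩ e
    have e' : M * M' = 0 := congrArg Subtype.val e
    rcases hdom u u' (by rw [map_mul, ← h2, ← h2', smul_mul_smul_comm, e', smul_zero]) with e | e
    · rw [e] at h2
      exact Or.inl (Subtype.ext ((smul_eq_zero.1 h2).resolve_left h1))
    · rw [e] at h2'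
      exact Or.inr (Subtype.ext ((smul_eq_zero.1 h2').resolve_left h1'))⟩
  have : IsDomain B := NoZeroDivisors.to_isDomain B
  let V : Submodule K (Matrix W W F) := Submodule.span K (Set.range fun l => ψ (w l))
  have hV : ∀ t, ∀ M ∈ V, φ t • M ∈ V := fun t M hM => V.smul_mem ⟨φ t, hK t⟩ hM
  have hV' : ∀ t M, φ t ≠ 0 → φ t • M ∈ V → M ∈ V := fun t M h1 hM => by
    have := V.smul_mem ⟨(φ t)⁻¹, K.inv_mem (hK t)⟩ hM
    rwa [Subfield.smul_def, inv_smul_smul₀ h1] at this
  have hV'' : ∀ (u : AA) (c : Fin s → TT), ψ (t • u - ∑ l, c l • w l) = 0 → ψ u ∈ V := by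
    intro u c e
    apply hV' t _ ht'
    rw [map_sub, sub_eq_zero, h.smul, map_sum] at e
    rw [e]
    refine V.sum_mem fun l _ => ?_
    rw [h.smul]
    exact hV _ _ (Submodule.subset_span ⟨l, rfl⟩)
  have hV3 : ∀ u, ∀ M ∈ V, ψ u * M ∈ V := by
    intro u
    induction u using FreeAlgebra.induction with
    | grade0 t =>
      intro M hM
      rw [← h.alg, ← Algebra.smul_def]
      exact hV t M hM
    | grade1 b =>
      intro M hM
      induction hM using Submodule.span_induction with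
      | mem M hM =>
        obtain ⟨j, rfl⟩ := hM
        rw [← map_mul]
        exact hV'' _ _ (e2 b j)
      | zero => simp
      | add M M' _ _ hM hM' => rw [mul_add]; exact V.add_mem hM hM'
      | smul y M _ hM => rw [mul_smul_comm]; exact V.smul_mem _ hM
    | mul a b ha hb => intro M hM; rw [map_mul, mul_assoc]; exact ha _ (hb M hM)
    | add a b ha hb => intro M hM; rw [map_add, add_mul]; exact V.add_mem (ha M hM) (hb M hM)
  have hBV : B.toSubmodule ≤ V := by
    rintro M ⟨t, u, h1, h2⟩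
    apply hV' t M h1
    rw [h2, ← mul_one u, map_mul]
    exact hV3 u _ (hV'' 1 _ e1)
  have : FiniteDimensional K V := FiniteDimensional.span_of_finite K (Set.finite_range _)
  have : FiniteDimensional K B := Submodule.finiteDimensional_of_le hBV
  have hr : Module.finrank K B ≤ s := by
    rw [← Subalgebra.finrank_toSubmodule]
    exact (Submodule.finrank_mono hBV).trans
      ((finrank_range_le_card (R := K) fun l => ψ (w l)).trans (by simp))
  have hx : ∀ b, x b ∈ B := fun b => ⟨1, gen b, by simp, by simp [h.gen]⟩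
  obtain ⟨κ, _, c, h1, h2⟩ := inner_of_subalgebra K B (hx true) (hx false)
  refine ⟨κ, inferInstance, c, ?_, h2⟩
  rw [h1]
  gcongr

end Crest.Agent.R180
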