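import Crest.Agent.R180.Local

/-! Localization: the class of a variety smooth at a fixed point. -/

set_option autoImplicit false

namespace Crest.Agent.R180

open Finset MvPolynomial

variable {σ : Type} [Fintype σ] [DecidableEq σ] {k : Type} [Field k] {m : MO σ}
variable {S : Type} [CommRing S] {M : Type} [AddCommGroup M] [DecidableEq M]

/-- Weights with sliced variables. -/
def lS (w : σ → M) (lb : M →+ S) (U : Finset σ) (i : σ) : S :=
  if w i = 0 ∧ i ∉ U then 1 else lb (w i)

variable {w : σ → M} {lb : M →+ S} {z : σ → k}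

omit [DecidableEq M] [DecidableEq σ] in
lemma adm_weight (J : Ideal (MvPolynomial σ k)) : Adm m w lb (fun i => lb (w i)) J := by
  intro a _
  simp [lin, Finsupp.weight_eq_sum, map_sum]

lemma adm_lS {U : Finset σ} {J : Ideal (MvPolynomial σ k)}
    (h : ∀ i, w i = 0 → i ∉ U → ζ z i ∈ J) : Adm m w lb (lS w lb U) J := by
  intro a ha
  rw [← adm_weight J a ha]
  apply sum_congr rfl
  intro i _
  unfold lS
  split_ifs with hi
  · rw [eq_zero_of_mem_std (h i hi.1 hi.2) ha]
    simp
  · rfl

omit [Fintype σ] [DecidableEq σ] [DecidableEq M] in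
lemma ζ_hom (hz : ∀ i, w i ≠ 0 → z i = 0) (i : σ) : IsWeightedHomogeneous w (ζ z i) (w i) := by
  by_cases h : w i = 0
  · exact (isWeightedHomogeneous_X k w i).sub (h ▸ isWeightedHomogeneous_C w (z i))
  · simpa [ζ, hz i h] using isWeightedHomogeneous_X k w i

variable [IsDomain S]

lemma cls_away (hz : ∀ i, w i ≠ 0 → z i = 0) (hl : ∀ i, w i ≠ 0 → lb (w i) ≠ 0)
    (J : Ideal (MvPolynomial σ k)) (c : ℕ) (hJ : Gr w J) (h0 : ∀ i, w i = 0 → ζ z i ∈ J)
    (hne : ¬ J ≤ pt z) (hc : ICod m c J) : icls m (lS w lb ∅) c J = 0 := by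
  induction J using WellFoundedGT.induction generalizing c with
  | ind J ih =>
    by_cases hall : ∀ i, ζ z i ∈ J
    · rw [eq_top_of_pt_le z (pt_le z hall) hne, icls_top]
    · push Not at hall
      obtain ⟨i, hi⟩ := hall
      have hw : w i ≠ 0 := fun e => hi (h0 i e)
      have ha : ∀ c', ICod m c' (adj J (ζ z i)) → icls m (lS w lb ∅) c' (adj J (ζ z i)) = 0 :=
        fun c' hc' => ih _ (lt_adj hi) c' (hJ.adj (ζ_hom hz i)) (fun j hj => le_adj _ _ (h0 j hj))
          (fun h => hne ((le_adj _ _).trans h)) hc'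
      by_cases hf : col J (ζ z i) = J
      · have := icls_cut hc (adm_lS (lb := lb) (U := ∅) fun j hj _ => h0 j hj) hJ (ζ_hom hz i) hf
        rw [ha _ (hc.succ hf)] at this
        exact (mul_eq_zero.1 this.symm).resolve_left (hl i hw)
      · rw [icls_add _ hc (ζ z i), ha _ (hc.mono (le_adj _ _)), add_zero]
        exact ih _ (lt_of_le_of_ne (le_col _ _) (Ne.symm hf)) c (hJ.col (ζ_hom hz i))
          (fun j hj => le_col _ _ (h0 j hj)) (fun h => hne ((le_col _ _).trans h))
          (hc.mono (le_col _ _))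

lemma cls_isolated (hz : ∀ i, w i ≠ 0 → z i = 0) (hl : ∀ i, w i ≠ 0 → lb (w i) ≠ 0)
    {u : MvPolynomial σ k} (hu : u ∉ pt z)
    (J : Ideal (MvPolynomial σ k)) (c : ℕ) (hJ : Gr w J) (h0 : ∀ i, w i = 0 → ζ z i ∈ J)
    (hu' : ∀ r ∈ pt z, u * r ∈ J) (hc : ICod m c J) :
    icls m (lS w lb ∅) c J = icls m (lS w lb ∅) c (J ⊔ pt z) := by
  induction J using WellFoundedGT.induction with
  | ind J ih =>
    by_cases hall : ∀ i, ζ z i ∈ J
    · rw [sup_eq_left.2 (pt_le z hall)]
    · push Not at hall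
      obtain ⟨i, hi⟩ := hall
      rw [icls_add _ hc (ζ z i), cls_away hz hl _ c (hJ.col (ζ_hom hz i))
        (fun j hj => le_col _ _ (h0 j hj)) (fun h => hu (h (hu' _ (ζ_mem z i))))
        (hc.mono (le_col _ _)), zero_add,
        ih _ (lt_adj hi) (hJ.adj (ζ_hom hz i)) (fun j hj => le_adj _ _ (h0 j hj))
          (fun r hr => le_adj _ _ (hu' r hr)) (hc.mono (le_adj _ _))]
      congr 1
      apply le_antisymm
      · exact sup_le (adj_le le_sup_left (Ideal.mem_sup_right (ζ_mem z i))) le_sup_right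
      · exact sup_le_sup_right (le_adj _ _) _

omit [DecidableEq σ] in
lemma Gen.nakayama {J : Ideal (MvPolynomial σ k)} (h : Gen z ∅ J) :
    ∃ u, u ∉ pt z ∧ ∀ r ∈ pt z, u * r ∈ J := by
  obtain ⟨u, h1, h2⟩ := Submodule.exists_sub_one_mem_and_smul_le_of_fg_of_le_sup (I := pt z)
    (N := J) (N' := pt z) (P := pt z) (Submodule.fg_span (Set.finite_range _)) le_rfl
    (by simpa [Gen, pow_two] using h)
  refine ⟨u, fun hu => ?_, fun r hr => h2 (Submodule.smul_mem_pointwise_smul r u _ hr)⟩
  have := sub_mem hu h1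
  rw [mem_pt] at this
  simp at this

omit [IsDomain S] in
lemma icod_pt : ICod m (Fintype.card σ) (pt z) := by
  rw [ICod, std_pt]
  exact (cls_point (fun _ => (0 : ℤ))).1

lemma cls_few (hz : ∀ i, w i ≠ 0 → z i = 0) (hl : ∀ i, w i ≠ 0 → lb (w i) ≠ 0)
    (T : Finset σ) (hT : ∀ t ∈ T, w t ≠ 0)
    (J : Ideal (MvPolynomial σ k)) (c : ℕ) (hJ : Gr w J) (h0 : ∀ i, w i = 0 → ζ z i ∈ J)
    (hG : Gen z T J) (hc : ICod m c J) (hlt : c + T.card < Fintype.card σ) :
    icls m (lS w lb ∅) c J = 0 := by
  induction T using Finset.induction_on generalizing J c with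
  | empty =>
    obtain ⟨u, hu, hu'⟩ := hG.nakayama
    rw [cls_isolated hz hl hu J c hJ h0 hu' hc]
    exact icls_eq_zero_of_lt _ (icod_pt.mono le_sup_right) (by simpa using hlt)
  | insert t T ht ihT =>
    rw [card_insert_of_notMem ht] at hlt
    have hw := hT t (mem_insert_self _ _)
    induction J using WellFoundedGT.induction with
    | ind J ih =>
      have ha : ∀ c', c' ≤ c + 1 → ICod m c' (adj J (ζ z t)) →
          icls m (lS w lb ∅) c' (adj J (ζ z t)) = 0 :=
        fun c' h' hc' => ihT (fun s hs => hT s (mem_insert_of_mem hs)) _ c' (hJ.adj (ζ_hom hz t))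
          (fun j hj => le_adj _ _ (h0 j hj)) (by simpa [erase_insert ht] using hG.adj t) hc'
          (by omega)
      by_cases hf : col J (ζ z t) = J
      · have := icls_cut hc (adm_lS (lb := lb) (U := ∅) fun j hj _ => h0 j hj) hJ (ζ_hom hz t) hf
        rw [ha _ le_rfl (hc.succ hf)] at this
        exact (mul_eq_zero.1 this.symm).resolve_left (hl t hw)
      · rw [icls_add _ hc (ζ z t), ha _ (Nat.le_succ c) (hc.mono (le_adj _ _)), add_zero]
        exact ih _ (lt_of_le_of_ne (le_col _ _) (Ne.symm hf)) (hJ.col (ζ_hom hz t))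
          (fun j hj => le_col _ _ (h0 j hj)) (hG.mono (le_col _ _)) (hc.mono (le_col _ _))

lemma cls_smooth₁ (hz : ∀ i, w i ≠ 0 → z i = 0) (hl : ∀ i, w i ≠ 0 → lb (w i) ≠ 0)
    (T : Finset σ) (hT : ∀ t ∈ T, w t ≠ 0)
    (J : Ideal (MvPolynomial σ k)) (c : ℕ) (hJ : Gr w J) (h0 : ∀ i, w i = 0 → ζ z i ∈ J)
    (hG : Gen z T J) (hI : Ind z T J) (hc : ICod m c J) (heq : c + T.card = Fintype.card σ) :
    icls m (lS w lb ∅) c J ≠ 0 := by
  induction T using Finset.induction_on generalizing J c with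
  | empty =>
    obtain ⟨u, hu, hu'⟩ := hG.nakayama
    rw [cls_isolated hz hl hu J c hJ h0 hu' hc, sup_eq_right.2 hI.le, icls, std_pt,
      show c = Fintype.card σ by simpa using heq, (cls_point _).2, prod_ne_zero_iff]
    intro i _
    unfold lS
    split_ifs with hi
    · exact one_ne_zero
    · exact hl i (by simpa using hi)
  | insert t T ht ihT =>
    rw [card_insert_of_notMem ht] at heq
    induction J using WellFoundedGT.induction with
    | ind J ih =>
      have hG' : Gen z T (adj J (ζ z t)) := by simpa [erase_insert ht] using hG.adj t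
      by_cases hf : col J (ζ z t) = J
      · have := icls_cut hc (adm_lS (lb := lb) (U := ∅) fun j hj _ => h0 j hj) hJ (ζ_hom hz t) hf
        intro e
        rw [e, mul_zero] at this
        exact ihT (fun s hs => hT s (mem_insert_of_mem hs)) _ _ (hJ.adj (ζ_hom hz t))
          (fun j hj => le_adj _ _ (h0 j hj)) hG'
          (by simpa [erase_insert ht] using hI.adj hG (mem_insert_self t T)) (hc.succ hf)
          (by omega) this
      · rw [icls_add _ hc (ζ z t), cls_few hz hl T (fun s hs => hT s (mem_insert_of_mem hs)) _ c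
          (hJ.adj (ζ_hom hz t)) (fun j hj => le_adj _ _ (h0 j hj)) hG' (hc.mono (le_adj _ _))
          (by omega), add_zero]
        exact ih _ (lt_of_le_of_ne (le_col _ _) (Ne.symm hf)) (hJ.col (ζ_hom hz t))
          (fun j hj => le_col _ _ (h0 j hj)) (hG.mono (le_col _ _))
          (hI.col (mem_insert_self t T)) (hc.mono (le_col _ _))

lemma cls_smooth₂ (hz : ∀ i, w i ≠ 0 → z i = 0) (hl : ∀ i, w i ≠ 0 → lb (w i) ≠ 0)
    (U : Finset σ) (hU : ∀ t ∈ U, w t = 0) (T : Finset σ) (hUT : U ⊆ T)
    (hT : ∀ t ∈ T, t ∉ U → w t ≠ 0)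
    (J : Ideal (MvPolynomial σ k)) (c : ℕ) (hJ : Gr w J)
    (h0 : ∀ i, w i = 0 → i ∉ U → ζ z i ∈ J)
    (hG : Gen z T J) (hI : Ind z T J) (hc : ICod m c J) (heq : c + T.card = Fintype.card σ) :
    icls m (lS w lb U) c J ≠ 0 := by
  induction U using Finset.induction_on generalizing T J c with
  | empty =>
    exact cls_smooth₁ hz hl T (fun t ht => hT t ht (by simp)) J c hJ
      (fun i hi => h0 i hi (by simp)) hG hI hc heq
  | insert t U ht ihU =>
    have hw := hU t (mem_insert_self _ _)
    have htT := hUT (mem_insert_self _ _)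
    have hl0 : lS w lb (insert t U) t = 0 := by simp [lS, hw]
    induction J using WellFoundedGT.induction with
    | ind J ih =>
      by_cases hf : col J (ζ z t) = J
      · rw [← icls_gysin hc (adm_lS h0) hJ hl0 hw hf]
        have e : Function.update (lS w lb (insert t U)) t 1 = lS w lb U := by
          ext1 i
          by_cases hi : i = t
          · subst hi
            simp [lS, hw, ht]
          · simp [lS, hi]
        rw [e]
        refine ihU (fun s hs => hU s (mem_insert_of_mem hs)) (T.erase t) ?_ ?_ _ _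
          (hJ.adj (ζ_hom hz t)) ?_ (hG.adj t) (hI.adj hG htT) (hc.succ hf) ?_
        · intro s hs
          exact mem_erase.2 ⟨by rintro rfl; exact ht hs, hUT (mem_insert_of_mem hs)⟩
        · intro s hs hs'
          rw [mem_erase] at hs
          exact hT s hs.2 (by simp [hs.1, hs'])
        · intro i hi hi'
          by_cases e' : i = t
          · rw [e']
            exact self_mem_adj _ _
          · exact le_adj _ _ (h0 i hi (by simp [e', hi']))
        · rw [card_erase_of_mem htT]
          have := card_pos.2 ⟨t, htT⟩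
          omega
      · rw [icls_add _ hc (ζ z t), icls_vanish c hl0 (self_mem_adj J (ζ z t)), add_zero]
        exact ih _ (lt_of_le_of_ne (le_col _ _) (Ne.symm hf)) (hJ.col (ζ_hom hz t))
          (fun j hj hj' => le_col _ _ (h0 j hj hj')) (hG.mono (le_col _ _))
          (hI.col htT) (hc.mono (le_col _ _))

theorem cls_smooth (hz : ∀ i, w i ≠ 0 → z i = 0) (hl : ∀ i, w i ≠ 0 → lb (w i) ≠ 0)
    (T : Finset σ) (hT : ∀ i, w i = 0 → i ∈ T)
    (J : Ideal (MvPolynomial σ k)) (c : ℕ) (hJ : Gr w J)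
    (hG : Gen z T J) (hI : Ind z T J) (hc : ICod m c J) (heq : c + T.card = Fintype.card σ) :
    icls m (fun i => lb (w i)) c J ≠ 0 := by
  have := cls_smooth₂ (m := m) hz hl (univ.filter fun i => w i = 0) (by simp) T
    (fun i hi => hT i (by simpa using hi)) (by simp) J c hJ (by simp +contextual) hG hI hc heq
  convert this using 2
  ext1 i
  simp [lS]

end Crest.Agent.R180
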