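import Crest.Agent.R180.Ideal

/-! Local structure at a rational point. -/

set_option autoImplicit false

namespace Crest.Agent.R180

open Finset MvPolynomial

variable {σ : Type} {k : Type} [Field k] (z : σ → k)

/-- Local coordinates at `z`. -/
noncomputable def ζ (i : σ) : MvPolynomial σ k := X i - C (z i)

/-- The maximal ideal of the point `z`. -/
noncomputable def pt : Ideal (MvPolynomial σ k) := Ideal.span (Set.range (ζ z))

lemma ζ_mem (i : σ) : ζ z i ∈ pt z := Ideal.subset_span ⟨i, rfl⟩

lemma sub_C_mem {J : Ideal (MvPolynomial σ k)} (h : ∀ i, ζ z i ∈ J) (r : MvPolynomial σ k) :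
    r - C (eval z r) ∈ J := by
  induction r using MvPolynomial.induction_on with
  | C a => simp
  | add p q hp hq =>
    have := J.add_mem hp hq
    convert this using 1
    simp only [map_add]
    ring
  | mul_X p i hp =>
    have := J.add_mem (J.mul_mem_right (X i) hp) (J.mul_mem_left (C (eval z p)) (h i))
    convert this using 1
    simp only [map_mul, eval_X, ζ]
    ring

lemma mem_pt {r : MvPolynomial σ k} : r ∈ pt z ↔ eval z r = 0 := by
  constructor
  · intro h
    have : pt z ≤ RingHom.ker (eval z) := by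
      rw [pt, Ideal.span_le]
      rintro _ ⟨i, rfl⟩
      simp [ζ]
    exact this h
  · intro h
    simpa [h] using sub_C_mem z (ζ_mem z) r

lemma pt_le {J : Ideal (MvPolynomial σ k)} (h : ∀ i, ζ z i ∈ J) : pt z ≤ J := by
  rw [pt, Ideal.span_le]
  rintro _ ⟨i, rfl⟩
  exact h i

lemma eq_top_of_pt_le {J : Ideal (MvPolynomial σ k)} (h : pt z ≤ J) (h' : ¬ J ≤ pt z) : J = ⊤ := by
  obtain ⟨r, hr, hr'⟩ := Set.not_subset.1 h'
  have h1 : C (eval z r) ∈ J := by
    simpa using J.sub_mem hr (h (sub_C_mem z (ζ_mem z) r))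
  have h2 : eval z r ≠ 0 := fun e => hr' ((mem_pt z).2 e)
  exact J.eq_top_of_isUnit_mem h1 ((IsUnit.mk0 _ h2).map C)

lemma std_pt (m : MO σ) : std m (pt z) = {0} := by
  classical
  ext a
  constructor
  · intro ha
    ext i
    exact eq_zero_of_mem_std (ζ_mem z i) ha
  · rintro rfl ⟨r, hr, h⟩
    have : r = C (coeff 0 r) := by
      ext b
      rw [coeff_C]
      split_ifs with hb
      · rw [hb]
      · by_contra hne
        exact hb (m.inj (le_antisymm (m.zero_le b) (h.2 b hne)))
    rw [this, mem_pt, eval_C] at hr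
    exact h.1 hr

/-- Translation of the origin. -/
noncomputable def tr : MvPolynomial σ k →ₐ[k] MvPolynomial σ k := aeval fun i => X i + C (z i)

lemma tr_ζ (i : σ) : tr z (ζ z i) = X i := by simp [tr, ζ]

lemma tr_neg_tr (r : MvPolynomial σ k) : tr (-z) (tr z r) = r := by
  have : (tr (-z)).comp (tr z) = AlgHom.id k _ := by
    ext1 i
    simp [tr]
  exact DFunLike.congr_fun this r

lemma mem_pt_pow {n : ℕ} {r : MvPolynomial σ k} :
    r ∈ pt z ^ n ↔ ∀ a ∈ (tr z r).support, n ≤ a.degree := by
  rw [← mem_pow_idealOfVars_iff]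
  constructor
  · intro h
    have h1 : (pt z).map (tr z) ≤ idealOfVars σ k := by
      rw [pt, Ideal.map_span, Ideal.span_le]
      rintro _ ⟨_, ⟨i, rfl⟩, rfl⟩
      rw [tr_ζ]
      exact Ideal.subset_span ⟨i, rfl⟩
    apply Ideal.pow_right_mono h1 n
    rw [← Ideal.map_pow]
    exact Ideal.mem_map_of_mem _ h
  · intro h
    have h1 : (idealOfVars σ k).map (tr (-z)) ≤ pt z := by
      rw [Ideal.map_span, Ideal.span_le]
      rintro _ ⟨_, ⟨i, rfl⟩, rfl⟩
      have : tr (-z) (X i) = ζ z i := by simp [tr, ζ, sub_eq_add_neg]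
      rw [this]
      exact ζ_mem z i
    rw [← tr_neg_tr z r]
    apply Ideal.pow_right_mono h1 n
    rw [← Ideal.map_pow]
    exact Ideal.mem_map_of_mem _ h

lemma mem_pt_pow_of_mul {n : ℕ} {r : MvPolynomial σ k} {t : σ} (h : r * ζ z t ∈ pt z ^ (n + 1)) :
    r ∈ pt z ^ n := by
  rw [mem_pt_pow] at h ⊢
  intro a ha
  have := h (a + Finsupp.single t 1) (by
    rw [map_mul, tr_ζ, mem_support_iff, coeff_mul_X]
    exact mem_support_iff.1 ha)
  simpa using this

/-- The coordinates in `T` generate the maximal ideal locally. -/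
def Gen (T : Finset σ) (J : Ideal (MvPolynomial σ k)) : Prop :=
  pt z ≤ J ⊔ Ideal.span (ζ z '' T) ⊔ pt z ^ 2

/-- The coordinates in `T` are analytically independent. -/
def Ind (T : Finset σ) (J : Ideal (MvPolynomial σ k)) : Prop :=
  ∀ n, ∀ q ∈ supported k (T : Set σ), q ∈ J ⊔ pt z ^ n → q ∈ pt z ^ n

variable {z}

lemma Gen.mono {T : Finset σ} {I J : Ideal (MvPolynomial σ k)} (h : Gen z T I) (hIJ : I ≤ J) :
    Gen z T J := h.trans (sup_le_sup_right (sup_le_sup_right hIJ _) _)

lemma Gen.adj [DecidableEq σ] {T : Finset σ} {J : Ideal (MvPolynomial σ k)} (h : Gen z T J)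
    (t : σ) : Gen z (T.erase t) (adj J (ζ z t)) := by
  refine h.trans (sup_le_sup_right (sup_le ((le_adj _ _).trans le_sup_left) ?_) _)
  rw [Ideal.span_le]
  rintro _ ⟨i, hi, rfl⟩
  by_cases e : i = t
  · subst e
    exact Ideal.mem_sup_left (self_mem_adj _ _)
  · exact Ideal.mem_sup_right (Ideal.subset_span ⟨i, by simpa [e] using hi, rfl⟩)

lemma ζ_mem_supported {T : Set σ} {t : σ} (ht : t ∈ T) : ζ z t ∈ supported k T :=
  Subalgebra.sub_mem _ (X_mem_supported.2 ht) (Subalgebra.algebraMap_mem _ _)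

lemma Gen.approx_one {T : Finset σ} {J : Ideal (MvPolynomial σ k)} (h : Gen z T J)
    {r : MvPolynomial σ k} (hr : r ∈ pt z) :
    ∃ q ∈ supported k (T : Set σ), q ∈ pt z ∧ r - q ∈ J ⊔ pt z ^ 2 := by
  have key : ∀ b ∈ Ideal.span (ζ z '' T),
      b ∈ pt z ∧ ∃ q ∈ supported k (T : Set σ), q ∈ pt z ∧ b - q ∈ pt z ^ 2 := by
    intro b hb
    induction hb using Submodule.span_induction with
    | mem x hx =>
      obtain ⟨t, ht, rfl⟩ := hx
      exact ⟨ζ_mem z t, _, ζ_mem_supported ht, ζ_mem z t, by simp⟩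
    | zero => exact ⟨zero_mem _, 0, zero_mem _, zero_mem _, by simp⟩
    | add x y _ _ hx hy =>
      obtain ⟨e, q, h1, h2, h3⟩ := hx
      obtain ⟨e', q', h1', h2', h3'⟩ := hy
      refine ⟨add_mem e e', q + q', add_mem h1 h1', add_mem h2 h2', ?_⟩
      convert add_mem h3 h3' using 1
      ring
    | smul a x _ hx =>
      obtain ⟨e, q, h1, h2, h3⟩ := hx
      refine ⟨Ideal.mul_mem_left _ _ e, C (eval z a) * q,
        mul_mem (Subalgebra.algebraMap_mem _ _) h1, Ideal.mul_mem_left _ _ h2, ?_⟩
      have h4 : (a - C (eval z a)) * x ∈ pt z ^ 2 := by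
        rw [pow_two]
        exact Ideal.mul_mem_mul (sub_C_mem z (ζ_mem z) a) e
      convert add_mem h4 (Ideal.mul_mem_left _ (C (eval z a)) h3) using 1
      rw [smul_eq_mul]
      ring
  obtain ⟨y, hy, y₃, hy₃, rfl⟩ := Submodule.mem_sup.1 (h hr)
  obtain ⟨y₁, hy₁, y₂, hy₂, rfl⟩ := Submodule.mem_sup.1 hy
  obtain ⟨_, q, h1, h2, h3⟩ := key y₂ hy₂
  refine ⟨q, h1, h2, ?_⟩
  convert add_mem (Ideal.mem_sup_left (T := pt z ^ 2) hy₁)
    (Ideal.mem_sup_right (add_mem h3 hy₃)) using 1
  ring

lemma Gen.approx_pow {T : Finset σ} {J : Ideal (MvPolynomial σ k)} (h : Gen z T J) (n : ℕ)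
    {r : MvPolynomial σ k} (hr : r ∈ pt z ^ n) :
    ∃ q ∈ supported k (T : Set σ), q ∈ pt z ^ n ∧ r - q ∈ J ⊔ pt z ^ (n + 1) := by
  induction n generalizing r with
  | zero =>
    exact ⟨C (eval z r), Subalgebra.algebraMap_mem _ _, by simp,
      Ideal.mem_sup_right (by simpa using sub_C_mem z (ζ_mem z) r)⟩
  | succ n ih =>
    rw [pow_succ] at hr
    induction hr using Submodule.mul_induction_on' with
    | mem_mul_mem a ha b hb =>
      obtain ⟨q, h1, h2, h3⟩ := ih ha
      obtain ⟨q', h1', h2', h3'⟩ := h.approx_one hb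
      refine ⟨q * q', mul_mem h1 h1', by rw [pow_succ]; exact Ideal.mul_mem_mul h2 h2', ?_⟩
      obtain ⟨y, hy, y', hy', e⟩ := Submodule.mem_sup.1 h3
      obtain ⟨x, hx, x', hx', e'⟩ := Submodule.mem_sup.1 h3'
      have e1 : a * b - q * q' = (y * b + q * x) + (y' * b + q * x') := by
        linear_combination (-b) * e - q * e'
      rw [e1]
      refine add_mem (Ideal.mem_sup_left (add_mem (J.mul_mem_right _ hy) (J.mul_mem_left _ hx)))
        (Ideal.mem_sup_right (add_mem ?_ ?_))
      · rw [pow_succ]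
        exact Ideal.mul_mem_mul hy' hb
      · rw [add_assoc, pow_add]
        exact Ideal.mul_mem_mul h2 hx'
    | add x _ y _ hx hy =>
      obtain ⟨q, h1, h2, h3⟩ := hx
      obtain ⟨q', h1', h2', h3'⟩ := hy
      refine ⟨q + q', add_mem h1 h1', add_mem h2 h2', ?_⟩
      convert add_mem h3 h3' using 1
      ring

lemma Gen.approx {T : Finset σ} {J : Ideal (MvPolynomial σ k)} (h : Gen z T J) (n : ℕ)
    (r : MvPolynomial σ k) : ∃ q ∈ supported k (T : Set σ), r - q ∈ J ⊔ pt z ^ n := by
  induction n with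
  | zero => exact ⟨0, zero_mem _, by simp⟩
  | succ n ih =>
    obtain ⟨q, h1, h2⟩ := ih
    obtain ⟨y, hy, y', hy', e⟩ := Submodule.mem_sup.1 h2
    obtain ⟨q', h1', _, h3'⟩ := h.approx_pow n hy'
    refine ⟨q + q', add_mem h1 h1', ?_⟩
    convert add_mem (Ideal.mem_sup_left hy) h3' using 1
    linear_combination -e

lemma Ind.col {T : Finset σ} {J : Ideal (MvPolynomial σ k)} (h : Ind z T J) {t : σ} (ht : t ∈ T) :
    Ind z T (col J (ζ z t)) := by
  intro n q hq hq'
  apply mem_pt_pow_of_mul z (t := t)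
  apply h _ _ (mul_mem hq (ζ_mem_supported ht))
  obtain ⟨y, hy, y', hy', rfl⟩ := Submodule.mem_sup.1 hq'
  rw [add_mul]
  refine add_mem (Ideal.mem_sup_left hy) (Ideal.mem_sup_right ?_)
  rw [pow_succ]
  exact Ideal.mul_mem_mul hy' (ζ_mem z t)

lemma Ind.adj [DecidableEq σ] {T : Finset σ} {J : Ideal (MvPolynomial σ k)} (h : Ind z T J)
    (hG : Gen z T J) {t : σ} (ht : t ∈ T) : Ind z (T.erase t) (adj J (ζ z t)) := by
  intro n q hq hq'
  obtain ⟨y, hy, y', hy', e⟩ := Submodule.mem_sup.1 hq'
  obtain ⟨v, hv⟩ := mem_adj.1 hy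
  obtain ⟨v', h1, h2⟩ := hG.approx n v
  have h3 : q - v' * ζ z t ∈ pt z ^ n := by
    apply h _ _ (sub_mem (supported_mono (by simp) hq) (mul_mem h1 (ζ_mem_supported ht)))
    convert add_mem (add_mem (Ideal.mem_sup_left hv) (Ideal.mem_sup_right hy'))
      (Ideal.mul_mem_right (ζ z t) _ h2) using 1
    linear_combination -e
  let π : MvPolynomial σ k →ₐ[k] MvPolynomial σ k := aeval (Function.update X t (C (z t)))
  have hπ : π q = q := by
    have : supported k ((T.erase t : Finset σ) : Set σ) ≤ AlgHom.equalizer π (AlgHom.id k _) := by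
      rw [supported_eq_adjoin_X, Algebra.adjoin_le_iff]
      rintro _ ⟨i, hi, rfl⟩
      have : i ≠ t := ne_of_mem_erase hi
      simp [π, Function.update_of_ne this]
    exact this hq
  have hπt : π (ζ z t) = 0 := by simp [π, ζ]
  have h4 : (pt z).map π ≤ pt z := by
    rw [pt, Ideal.map_span, Ideal.span_le]
    rintro _ ⟨_, ⟨i, rfl⟩, rfl⟩
    by_cases e : i = t
    · rw [e, hπt]
      exact zero_mem _
    · have : π (ζ z i) = ζ z i := by simp [π, ζ, Function.update_of_ne e]
      rw [this]
      exact ζ_mem z i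
  have h5 := Ideal.mem_map_of_mem π h3
  rw [Ideal.map_pow, map_sub, map_mul, hπ, hπt, mul_zero, sub_zero] at h5
  exact Ideal.pow_right_mono h4 n h5

lemma Ind.le {T : Finset σ} {J : Ideal (MvPolynomial σ k)} (h : Ind z T J) : J ≤ pt z := by
  by_contra hne
  have h1 : J ⊔ pt z = ⊤ := eq_top_of_pt_le z le_sup_right fun h' => hne (le_sup_left.trans h')
  have h2 := h 1 1 (one_mem _) (by rw [pow_one, h1]; trivial)
  rw [pow_one, mem_pt] at h2
  simp at h2

lemma coeff_aeval_X_mul [Fintype σ] (y : σ → Polynomial k) {j : ℕ} (p : MvPolynomial σ k)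
    (hp : ∀ a ∈ p.support, j ≤ a.degree) :
    (aeval (fun i => Polynomial.X * y i) p).coeff j =
      eval (fun i => (y i).coeff 0) (homogeneousComponent j p) := by
  classical
  conv_lhs => rw [p.as_sum]
  conv_rhs => rw [p.as_sum]
  simp only [map_sum, Polynomial.finsetSum_coeff]
  apply sum_congr rfl
  intro a ha
  have hj := hp a ha
  rw [homogeneousComponent_of_mem (isHomogeneous_monomial _ rfl), aeval_monomial,
    Finsupp.prod_fintype _ _ (by simp)]
  simp only [mul_pow, prod_mul_distrib, prod_pow_eq_pow_sum]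
  rw [← Finsupp.degree_eq_sum, Polynomial.algebraMap_eq, Polynomial.coeff_C_mul,
    Polynomial.coeff_X_pow_mul']
  by_cases e : j = a.degree
  · rw [if_pos e, if_pos e.ge, e, Nat.sub_self, eval_monomial, Finsupp.prod_fintype _ _ (by simp),
      ← Polynomial.constantCoeff_apply]
    simp only [map_prod, map_pow, Polynomial.constantCoeff_apply]
  · rw [if_neg e, if_neg (by omega)]
    simp

lemma ind_of_arcs [Fintype σ] [Infinite k] {T : Finset σ} {J : Ideal (MvPolynomial σ k)}
    (h : ∀ v : σ → k, ∃ y : σ → Polynomial k, (∀ r ∈ J, aeval y r = 0) ∧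
      (∀ i, (y i).coeff 0 = z i) ∧ ∀ i ∈ T, (y i).coeff 1 = v i) : Ind z T J := by
  classical
  intro n q hq hq'
  have hq1 : tr z q ∈ supported k (T : Set σ) := by
    have : supported k (T : Set σ) ≤ (supported k (T : Set σ)).comap (tr z) := by
      rw [supported_eq_adjoin_X, Algebra.adjoin_le_iff]
      rintro _ ⟨i, hi, rfl⟩
      simp only [SetLike.mem_coe, Subalgebra.mem_comap, tr, aeval_X]
      exact add_mem (Algebra.subset_adjoin ⟨i, hi, rfl⟩) (Subalgebra.algebraMap_mem _ _)
    exact this hq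
  have key : ∀ j ≤ n, q ∈ pt z ^ j := by
    intro j hj
    induction j with
    | zero => simp
    | succ j ih =>
      have ih' := (mem_pt_pow z).1 (ih (by omega))
      have h0 : homogeneousComponent j (tr z q) = 0 := by
        apply MvPolynomial.funext
        intro v
        obtain ⟨y, h1, h2, h3⟩ := h v
        have e1 : ∀ r, aeval y r = aeval (fun i => Polynomial.X * (y i).divX) (tr z r) := by
          intro r
          have : aeval y = (aeval (fun i => Polynomial.X * (y i).divX)).comp (tr z) := by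
            ext1 i
            simp [tr, ← h2, Polynomial.X_mul_divX_add]
          rw [this]
          rfl
        have e2 : (aeval y q).coeff j = 0 := by
          obtain ⟨x, hx, x', hx', rfl⟩ := Submodule.mem_sup.1 hq'
          rw [map_add, h1 x hx, zero_add, e1, coeff_aeval_X_mul _ _
            (fun a ha => le_trans (by omega) ((mem_pt_pow z).1 hx' a ha)),
            homogeneousComponent_eq_zero', map_zero]
          intro a ha
          have := (mem_pt_pow z).1 hx' a ha
          omega
        rw [e1, coeff_aeval_X_mul _ _ ih'] at e2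
        rw [map_zero, ← e2]
        apply hom_congr_vars (by ext; simp) _ rfl
        intro i hi _
        have hiT : i ∈ T := by
          apply mem_supported.1 hq1
          obtain ⟨d, hd, hi'⟩ := (mem_vars_iff_mem_support _).1 hi
          refine (mem_vars_iff_mem_support _).2 ⟨d, ?_, hi'⟩
          rw [mem_support_iff, coeff_homogeneousComponent] at hd
          rw [mem_support_iff]
          intro e
          simp [e] at hd
        simp [h3 i hiT]
      rw [mem_pt_pow]
      intro a ha
      have h1 := ih' a ha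
      have h2 : a.degree ≠ j := by
        intro e
        have := congrArg (coeff a) h0
        rw [coeff_homogeneousComponent, if_pos e] at this
        exact mem_support_iff.1 ha this
      omega
  exact key n le_rfl

end Crest.Agent.R180
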