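import Crest.Agent.R180.Coef

/-! Matching of leading terms along a linear relation (Goursat / Bruhat). -/

set_option autoImplicit false

namespace Crest.Agent.R180

open Finset

/-- A monomial order, given by a key function. -/
structure MO (σ : Type) where
  L : Type
  [lin : LinearOrder L]
  [wf : WellFoundedLT L]
  key : (σ →₀ ℕ) → L
  inj : Function.Injective key
  add_le : ∀ c a b, key a ≤ key b → key (a + c) ≤ key (b + c)
  zero_le : ∀ a, key 0 ≤ key a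

attribute [instance] MO.lin MO.wf

variable {σ : Type}

lemma MO.le_of_add_le (m : MO σ) {a b c : σ →₀ ℕ} (h : m.key (a + c) ≤ m.key (b + c)) :
    m.key a ≤ m.key b := by
  by_contra h'
  have h1 := m.add_le c b a (le_of_not_ge h')
  have h2 : a = b := add_right_cancel (m.inj (le_antisymm h h1))
  exact h' (h2 ▸ le_rfl)

lemma MO.le_of_le (m : MO σ) {a b : σ →₀ ℕ} (h : a ≤ b) : m.key a ≤ m.key b := by
  obtain ⟨c, rfl⟩ := exists_add_of_le h
  have := m.add_le a 0 c (m.zero_le c)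
  rwa [zero_add, add_comm c] at this

/-- A vector space with coefficient functionals, monomial multiplication and a term order. -/
structure Sys (m : MO σ) (k : Type) [Field k] (ι : Type) (F : Type) [AddCommGroup F]
    [Module k F] where
  L : Type
  [lin : LinearOrder L]
  [wf : WellFoundedLT L]
  key : (σ →₀ ℕ) × ι → L
  inj : Function.Injective key
  add_le : ∀ c a j a' j', key (a, j) ≤ key (a', j') → key (a + c, j) ≤ key (a' + c, j')
  same : ∀ a a' j, key (a, j) ≤ key (a', j) ↔ m.key a ≤ m.key a'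
  co : (σ →₀ ℕ) × ι → F →ₗ[k] k
  fin : ∀ v, {b | co b v ≠ 0}.Finite
  ext : ∀ v, (∀ b, co b v = 0) → v = 0
  mul : (σ →₀ ℕ) → F →ₗ[k] F
  co_mul : ∀ c a j v, co (a + c, j) (mul c v) = co (a, j) v
  co_mul' : ∀ c a j v, co (a, j) (mul c v) ≠ 0 → c ≤ a

attribute [instance] Sys.lin Sys.wf

variable {m : MO σ} {k : Type} [Field k]

namespace Sys

variable {ι F : Type} [AddCommGroup F] [Module k F] (s : Sys m k ι F)

/-- `b` is the leading position of `v`. -/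
def Lead (v : F) (b : (σ →₀ ℕ) × ι) : Prop :=
  s.co b v ≠ 0 ∧ ∀ b', s.co b' v ≠ 0 → s.key b' ≤ s.key b

/-- All positions of `v` are below `b`. -/
def Below (v : F) (b : (σ →₀ ℕ) × ι) : Prop := ∀ b', s.co b' v ≠ 0 → s.key b' < s.key b

lemma below_zero (b : (σ →₀ ℕ) × ι) : s.Below 0 b := fun b' h => by simp at h

lemma exists_lead {v : F} (hv : v ≠ 0) : ∃ b, s.Lead v b := by
  have hne : {b | s.co b v ≠ 0}.Nonempty := by
    by_contra h
    apply hv
    apply s.ext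
    intro b
    by_contra hb
    exact h ⟨b, hb⟩
  obtain ⟨b, hb, hmax⟩ := (s.fin v).exists_maximalFor s.key _ hne
  refine ⟨b, hb, fun b' hb' => ?_⟩
  by_contra h
  exact h (hmax hb' (le_of_not_ge h))

variable {s}

lemma Lead.mul {v : F} {a : σ →₀ ℕ} {j : ι} (h : s.Lead v (a, j)) (c : σ →₀ ℕ) :
    s.Lead (s.mul c v) (a + c, j) := by
  refine ⟨by rw [s.co_mul]; exact h.1, ?_⟩
  rintro ⟨a', j'⟩ hb
  obtain ⟨a'', rfl⟩ := exists_add_of_le (s.co_mul' _ _ _ _ hb)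
  rw [add_comm c] at hb ⊢
  rw [s.co_mul] at hb
  exact s.add_le _ _ _ _ _ (h.2 _ hb)

lemma Lead.sub_lead {v v' : F} {b : (σ →₀ ℕ) × ι} (h : s.Lead v b) (h' : s.Lead v' b) :
    s.Below (v - (s.co b v / s.co b v') • v') b := by
  intro b' hb'
  have h1 : s.key b' ≤ s.key b := by
    by_cases e : s.co b' v = 0
    · apply h'.2
      intro e'
      simp [e, e'] at hb'
    · exact h.2 _ e
  refine lt_of_le_of_ne h1 fun e => hb' ?_
  rw [s.inj e]
  simp [div_mul_cancel₀ _ h'.1]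

lemma Lead.sub_below {v v' : F} {b : (σ →₀ ℕ) × ι} (h : s.Lead v b) (h' : s.Below v' b) (x : k) :
    s.Lead (v - x • v') b := by
  have h0 : s.co b v' = 0 := by
    by_contra e
    exact lt_irrefl _ (h' _ e)
  refine ⟨by simpa [h0] using h.1, fun b' hb' => ?_⟩
  by_cases e : s.co b' v = 0
  · apply le_of_lt
    apply h'
    intro e'
    simp [e, e'] at hb'
  · exact h.2 _ e

lemma Lead.le_of_not_below {v : F} {b c : (σ →₀ ℕ) × ι} (h : s.Lead v b) (h' : ¬ s.Below v c) :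
    s.key c ≤ s.key b := by
  by_contra e
  exact h' fun b' hb' => lt_of_le_of_lt (h.2 _ hb') (lt_of_not_ge e)

lemma Lead.unique {v : F} {b c : (σ →₀ ℕ) × ι} (h : s.Lead v b) (h' : s.Lead v c) : b = c :=
  s.inj (le_antisymm (h'.2 _ h.1) (h.2 _ h'.1))

end Sys

variable {ι₁ ι₂ F₁ F₂ : Type} [AddCommGroup F₁] [Module k F₁] [AddCommGroup F₂] [Module k F₂]

/-- A linear relation compatible with monomial multiplication. -/
structure Rel (s₁ : Sys m k ι₁ F₁) (s₂ : Sys m k ι₂ F₂) where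
  P : F₁ → F₂ → Prop
  sub_smul : ∀ v w v' w' (x : k), P v w → P v' w' → P (v - x • v') (w - x • w')
  mul : ∀ c v w, P v w → P (s₁.mul c v) (s₂.mul c w)

namespace Rel

variable {s₁ : Sys m k ι₁ F₁} {s₂ : Sys m k ι₂ F₂} (r : Rel s₁ s₂)

/-- The transposed relation. -/
def flip : Rel s₂ s₁ where
  P w v := r.P v w
  sub_smul w v w' v' x h h' := r.sub_smul v w v' w' x h h'
  mul c w v h := r.mul c v w h

/-- The matching. -/
def Γ (b : (σ →₀ ℕ) × ι₁) (c : (σ →₀ ℕ) × ι₂) : Prop :=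
  (∃ v w, r.P v w ∧ s₁.Lead v b ∧ s₂.Lead w c) ∧
    (∀ v w, r.P v w → s₁.Lead v b → ¬ s₂.Below w c) ∧
    (∀ v w, r.P v w → s₂.Lead w c → ¬ s₁.Below v b)

/-- The leading positions of the first subquotient. -/
def X : Set ((σ →₀ ℕ) × ι₁) :=
  {b | (∃ v w, r.P v w ∧ s₁.Lead v b) ∧ ¬ ∃ v, r.P v 0 ∧ s₁.Lead v b}

variable {r}

lemma Γ.flip {b c} (h : r.Γ b c) : r.flip.Γ c b :=
  ⟨let ⟨v, w, h1, h2, h3⟩ := h.1; ⟨w, v, h1, h3, h2⟩,
    fun w v h1 h2 => h.2.2 v w h1 h2, fun w v h1 h2 => h.2.1 v w h1 h2⟩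

lemma Γ_flip_iff {b c} : r.flip.Γ c b ↔ r.Γ b c := ⟨fun h => h.flip, fun h => h.flip⟩

lemma Γ.mem {b c} (h : r.Γ b c) : b ∈ r.X :=
  ⟨let ⟨v, w, h1, h2, _⟩ := h.1; ⟨v, w, h1, h2⟩,
    fun ⟨v, h1, h2⟩ => h.2.1 v 0 h1 h2 (s₂.below_zero _)⟩

lemma Γ.unique {b c c'} (h : r.Γ b c) (h' : r.Γ b c') : c = c' := by
  obtain ⟨v, w, h1, h2, h3⟩ := h.1
  obtain ⟨v', w', h1', h2', h3'⟩ := h'.1
  exact s₂.inj (le_antisymm (h3'.le_of_not_below (h.2.1 _ _ h1' h2'))
    (h3.le_of_not_below (h'.2.1 _ _ h1 h2)))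

lemma exists_Γ {b} (hb : b ∈ r.X) : ∃ c, r.Γ b c := by
  let A : Set ((σ →₀ ℕ) × ι₂) := {c | ∃ v w, r.P v w ∧ s₁.Lead v b ∧ s₂.Lead w c}
  have hA : ∀ v w, r.P v w → s₁.Lead v b → ∃ c ∈ A, s₂.Lead w c := by
    intro v w h1 h2
    have hw : w ≠ 0 := by
      rintro rfl
      exact hb.2 ⟨v, h1, h2⟩
    obtain ⟨c, hc⟩ := s₂.exists_lead hw
    exact ⟨c, ⟨v, w, h1, h2, hc⟩, hc⟩
  have hne : A.Nonempty := by
    obtain ⟨v, w, h1, h2⟩ := hb.1
    obtain ⟨c, hc, _⟩ := hA v w h1 h2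
    exact ⟨c, hc⟩
  obtain ⟨c, hc, hmin⟩ := (InvImage.wf s₂.key wellFounded_lt).has_min A hne
  have key : ∀ v w, r.P v w → s₁.Lead v b → ¬ s₂.Below w c := by
    intro v w h1 h2 h3
    obtain ⟨c', hc', hl⟩ := hA v w h1 h2
    exact hmin c' hc' (h3 _ hl.1)
  refine ⟨c, hc, key, ?_⟩
  intro v' w' h1' h2' h3'
  obtain ⟨v, w, h1, h2, h3⟩ := hc
  exact key _ _ (r.sub_smul _ _ _ _ _ h1 h1') (h2.sub_below h3' _) (h3.sub_lead h2')

lemma Γ.le_add {a j c j' d c'} (h : r.Γ (a, j) (c, j')) (h' : r.Γ (a + d, j) c') :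
    s₂.key c' ≤ s₂.key (c + d, j') := by
  obtain ⟨v, w, h1, h2, h3⟩ := h.1
  exact (h3.mul d).le_of_not_below (h'.2.1 _ _ (r.mul d _ _ h1) (h2.mul d))

lemma Γ.rigid {a j c j' d d'} (h : r.Γ (a, j) (c, j')) (h' : r.Γ (a + d, j) (c + d', j')) :
    d = d' := by
  have h1 := h.le_add h'
  have h2 := h.flip.le_add h'.flip
  rw [s₂.same, add_comm c, add_comm c] at h1
  rw [s₁.same, add_comm a, add_comm a] at h2
  exact m.inj (le_antisymm (m.le_of_add_le h2) (m.le_of_add_le h1))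

lemma Γ.convex {a j c j' d d'} (h : r.Γ (a, j) (c, j'))
    (h' : r.Γ (a + d + d', j) (c + d + d', j')) : r.Γ (a + d, j) (c + d, j') := by
  have hX : (a + d, j) ∈ r.X := by
    obtain ⟨v, w, h1, h2, _⟩ := h.1
    refine ⟨⟨_, _, r.mul d _ _ h1, h2.mul d⟩, ?_⟩
    rintro ⟨v', h1', h2'⟩
    have := r.mul d' _ _ h1'
    rw [map_zero] at this
    exact h'.mem.2 ⟨_, this, h2'.mul d'⟩
  obtain ⟨⟨c', j''⟩, hc'⟩ := exists_Γ hX
  have e1 := h.le_add hc'
  have e2 := hc'.le_add h'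
  have e3 := s₂.add_le d' _ _ _ _ e1
  have e4 := s₂.inj (le_antisymm e2 e3)
  simp only [Prod.mk.injEq, add_left_inj] at e4
  rw [e4.1, e4.2]
  exact hc'

variable [Fintype σ] [DecidableEq σ]

omit [DecidableEq σ] in
lemma finite_types (r : Rel s₁ s₂) (j : ι₁) (j' : ι₂) :
    {pq : (σ →₀ ℕ) × (σ →₀ ℕ) | ∃ a c, r.Γ (a, j) (c, j') ∧ pq = (a - c, c - a)}.Finite := by
  by_contra hinf
  have hinf' : Set.Infinite _ := hinf
  let f := hinf'.natEmbedding
  choose a c hac using fun n => (f n).2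
  obtain ⟨n, n', hlt, hle⟩ := wellQuasiOrdered_le (fun n => (a n, c n))
  obtain ⟨d, hd⟩ := exists_add_of_le hle.1
  obtain ⟨d', hd'⟩ := exists_add_of_le hle.2
  simp only at hd hd'
  have h1 := (hac n').1
  rw [hd, hd'] at h1
  have h2 := (hac n).1.rigid h1
  subst h2
  have : f n = f n' := by
    apply Subtype.ext
    rw [(hac n).2, (hac n').2, hd, hd']
    ext i <;> simp only [Finsupp.coe_tsub, Finsupp.coe_add, Pi.sub_apply, Pi.add_apply] <;> omega
  exact absurd (f.injective this) hlt.ne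

omit [Fintype σ] [DecidableEq σ] in
lemma side [Fintype ι₁] (r : Rel s₁ s₂) {τ : Type} (T : Finset τ) (j₁ : τ → ι₁) (j₂ : τ → ι₂)
    (p q : τ → σ →₀ ℕ)
    (h1 : ∀ a j c j', r.Γ (a, j) (c, j') →
      ∃ t ∈ T, j₁ t = j ∧ j₂ t = j' ∧ p t = a - c ∧ q t = c - a)
    (h2 : ∀ t ∈ T, ∀ t' ∈ T, j₁ t = j₁ t' → j₂ t = j₂ t' → p t = p t' → q t = q t' → t = t')
    (h3 : ∀ t ∈ T, ∀ i, p t i = 0 ∨ q t i = 0) :
    ∑ j, ind {a | (a, j) ∈ r.X} =
      ∑ t ∈ T, sh (p t) (ind {z | r.Γ (z + p t, j₁ t) (z + q t, j₂ t)}) := by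
  classical
  ext a
  rw [Finset.sum_apply, Finset.sum_apply, ← sum_fiberwise_of_maps_to (s := T) (t := univ)
    (g := j₁) (fun _ _ => mem_univ _)]
  apply sum_congr rfl
  intro j _
  have key : ∀ t ∈ T.filter (fun t => j₁ t = j),
      sh (p t) (ind {z | r.Γ (z + p t, j₁ t) (z + q t, j₂ t)}) a ≠ 0 →
      ∃ c, r.Γ (a, j) (c, j₂ t) ∧ p t = a - c ∧ q t = c - a := by
    intro t ht hne
    rw [mem_filter] at ht
    unfold sh at hne
    split_ifs at hne with hp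
    · obtain ⟨z, rfl⟩ := exists_add_of_le hp
      rw [add_tsub_cancel_left] at hne
      have hz : z ∈ {z | r.Γ (z + p t, j₁ t) (z + q t, j₂ t)} := by
        by_contra hz
        exact hne (ind_of_notMem hz)
      refine ⟨z + q t, ?_, ?_, ?_⟩
      · rw [add_comm (p t), ← ht.2]
        exact hz
      · ext i
        have := h3 t ht.1 i
        simp only [Finsupp.coe_tsub, Finsupp.coe_add, Pi.sub_apply, Pi.add_apply]
        omega
      · ext i
        have := h3 t ht.1 i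
        simp only [Finsupp.coe_tsub, Finsupp.coe_add, Pi.sub_apply, Pi.add_apply]
        omega
    · exact absurd rfl hne
  by_cases ha : (a, j) ∈ r.X
  · obtain ⟨⟨c, j'⟩, hc⟩ := exists_Γ ha
    obtain ⟨t, ht, e1, e2, e3, e4⟩ := h1 _ _ _ _ hc
    rw [ind_of_mem (Y := {a | (a, j) ∈ r.X}) ha, sum_eq_single t]
    · have hp : p t ≤ a := by rw [e3]; exact tsub_le_self
      unfold sh
      rw [if_pos hp, ind_of_mem]
      show r.Γ _ _
      have e5 : a - p t + q t = c := by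
        rw [e3, e4]
        ext i
        simp only [Finsupp.coe_tsub, Finsupp.coe_add, Pi.sub_apply, Pi.add_apply]
        omega
      rw [tsub_add_cancel_of_le hp, e5, e1, e2]
      exact hc
    · intro t' ht' hne
      by_contra hne'
      obtain ⟨c', hc', e5, e6⟩ := key t' ht' hne'
      have := hc.unique hc'
      simp only [Prod.mk.injEq] at this
      rw [mem_filter] at ht'
      apply hne
      apply h2 _ ht'.1 _ ht
      · rw [ht'.2, e1]
      · rw [e2, this.2]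
      · rw [e5, e3, this.1]
      · rw [e6, e4, this.1]
    · intro h
      exact absurd (mem_filter.2 ⟨ht, e1⟩) h
  · rw [ind_of_notMem (Y := {a | (a, j) ∈ r.X}) ha]
    symm
    apply sum_eq_zero
    intro t ht
    by_contra hne
    obtain ⟨c, hc, _⟩ := key t ht hne
    exact ha hc.mem

omit [DecidableEq σ] in
theorem matching [Fintype ι₁] [Fintype ι₂] (r : Rel s₁ s₂) :
    ∃ (T : Finset (ι₁ × ι₂ × (σ →₀ ℕ) × (σ →₀ ℕ)))
      (Z : ι₁ × ι₂ × (σ →₀ ℕ) × (σ →₀ ℕ) → Set (σ →₀ ℕ)),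
      (∀ t, Tame (ind (Z t))) ∧
      (∀ t, ∀ z ∈ Z t, r.Γ (z + t.2.2.1, t.1) (z + t.2.2.2, t.2.1)) ∧
      ∑ j, ind {a | (a, j) ∈ r.X} = ∑ t ∈ T, sh t.2.2.1 (ind (Z t)) ∧
      ∑ j, ind {a | (a, j) ∈ r.flip.X} = ∑ t ∈ T, sh t.2.2.2 (ind (Z t)) := by
  have hfin : {t : ι₁ × ι₂ × (σ →₀ ℕ) × (σ →₀ ℕ) |
      ∃ a c, r.Γ (a, t.1) (c, t.2.1) ∧ t.2.2 = (a - c, c - a)}.Finite := by
    apply Set.Finite.subset (Set.finite_iUnion fun j : ι₁ => Set.finite_iUnion fun j' : ι₂ =>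
      (r.finite_types j j').image fun pq => (j, j', pq))
    rintro ⟨j, j', pq⟩ ht
    simp only [Set.mem_iUnion]
    exact ⟨j, j', pq, ht, rfl⟩
  have h3 : ∀ t ∈ hfin.toFinset, ∀ i, t.2.2.1 i = 0 ∨ t.2.2.2 i = 0 := by
    intro t ht i
    obtain ⟨a, c, _, h⟩ := hfin.mem_toFinset.1 ht
    rw [h]
    simp only [Finsupp.coe_tsub, Pi.sub_apply]
    omega
  refine ⟨hfin.toFinset, fun t => {z | r.Γ (z + t.2.2.1, t.1) (z + t.2.2.2, t.2.1)}, ?_,
    fun t z hz => hz, ?_, ?_⟩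
  · intro t
    apply tame_ind_of_convex
    intro a b c hab hbc ha hc
    obtain ⟨d, rfl⟩ := exists_add_of_le hab
    obtain ⟨d', rfl⟩ := exists_add_of_le hbc
    show r.Γ _ _
    rw [add_right_comm a d, add_right_comm a d]
    apply Γ.convex ha (d' := d')
    have : r.Γ _ _ := hc
    convert this using 2 <;> abel
  · apply r.side hfin.toFinset (fun t => t.1) (fun t => t.2.1) (fun t => t.2.2.1)
      (fun t => t.2.2.2) _ _ h3
    · intro a j c j' h
      exact ⟨(j, j', a - c, c - a), hfin.mem_toFinset.2 ⟨a, c, h, rfl⟩, rfl, rfl, rfl, rfl⟩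
    · intro t _ t' _ e1 e2 e3 e4
      exact Prod.ext e1 (Prod.ext e2 (Prod.ext e3 e4))
  · have := r.flip.side hfin.toFinset (fun t => t.2.1) (fun t => t.1) (fun t => t.2.2.2)
      (fun t => t.2.2.1) ?_ ?_ (fun t ht i => (h3 t ht i).symm)
    · simpa only [Γ_flip_iff] using this
    · intro c j' a j h
      exact ⟨(j, j', a - c, c - a), hfin.mem_toFinset.2 ⟨a, c, h.flip, rfl⟩, rfl, rfl, rfl, rfl⟩
    · intro t _ t' _ e1 e2 e3 e4
      exact Prod.ext e2 (Prod.ext e1 (Prod.ext e4 e3))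

end Rel

end Crest.Agent.R180
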