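import Mathlib

/-! Monic polynomials whose coefficients are universal expressions in power sums. -/

set_option autoImplicit false

namespace Crest.Agent.R180

open Finset Polynomial

lemma exists_newton (n : ℕ) : ∃ Q : MvPolynomial ℕ ℚ, ∀ (V : Type) [Fintype V],
    MvPolynomial.aeval (fun j => MvPolynomial.psum V ℚ j) Q = MvPolynomial.esymm V ℚ n := by
  induction n using Nat.strong_induction_on with
  | _ n ih =>
    rcases Nat.eq_zero_or_pos n with rfl | hn
    · exact ⟨1, fun V _ => by simp⟩
    · choose! Q hQ using ih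
      refine ⟨(n : ℚ)⁻¹ • ((-1) ^ (n + 1) * ∑ a ∈ antidiagonal n with a.1 < n,
        (-1) ^ a.1 * Q a.1 * MvPolynomial.X a.2), fun V _ => ?_⟩
      have h := MvPolynomial.mul_esymm_eq_sum V ℚ n
      rw [map_smul, inv_smul_eq_iff₀ (by exact_mod_cast hn.ne'), Nat.cast_smul_eq_nsmul,
        nsmul_eq_mul, h]
      simp only [map_mul, map_pow, map_neg, map_one, map_sum, MvPolynomial.aeval_X]
      refine congrArg _ (sum_congr rfl fun a ha => ?_)
      rw [hQ a.1 (mem_filter.1 ha).2]

/-- Newton polynomials. -/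
noncomputable def newtonQ (n : ℕ) : MvPolynomial ℕ ℚ := (exists_newton n).choose

variable {A : Type*} [CommRing A] [Algebra ℚ A]

/-- The monic polynomial with prescribed power sums of roots. -/
noncomputable def charP (N : ℕ) (p : ℕ → A) : A[X] :=
  X ^ N + ∑ j ∈ range N, C ((-1) ^ (N - j) * MvPolynomial.aeval p (newtonQ (N - j))) * X ^ j

lemma charP_monic (N : ℕ) (p : ℕ → A) : (charP N p).Monic := by
  nontriviality A
  apply monic_X_pow_add
  refine lt_of_le_of_lt (degree_sum_le _ _) ?_
  rw [Finset.sup_lt_iff (WithBot.bot_lt_coe _)]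
  intro j hj
  exact lt_of_le_of_lt (degree_C_mul_X_pow_le _ _) (by exact_mod_cast mem_range.1 hj)

lemma map_charP {A' : Type*} [CommRing A'] [Algebra ℚ A'] (φ : A →ₐ[ℚ] A') (N : ℕ) (p : ℕ → A) :
    (charP N p).map (φ : A →+* A') = charP N fun j => φ (p j) := by
  simp only [charP, Polynomial.map_add, Polynomial.map_pow, map_X, Polynomial.map_sum,
    Polynomial.map_mul, map_C, RingHom.coe_coe, map_mul, map_pow, map_neg, map_one,
    Polynomial.map_neg, Polynomial.map_one]
  congr 1
  apply sum_congr rfl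
  intro j _
  rw [← MvPolynomial.comp_aeval_apply]

lemma charP_psum {V : Type} [Fintype V] (μ : V → A) :
    charP (Fintype.card V) (fun j => ∑ v, μ v ^ j) = ∏ v, (X - C (μ v)) := by
  nontriviality A
  have hm : (∏ v, (X - C (μ v))).Monic := monic_prod_X_sub_C _ _
  rw [hm.as_sum, natDegree_finsetProd_X_sub_C_eq_card, card_univ, charP]
  congr 1
  apply sum_congr rfl
  intro j hj
  congr 2
  have e1 : ∏ v, (X - C (μ v)) = ((univ.val.map μ).map fun t => X - C t).prod := by
    rw [Multiset.map_map]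
    rfl
  rw [e1, Multiset.prod_X_sub_C_coeff _ (by simpa using (mem_range.1 hj).le)]
  simp only [Multiset.card_map, card_val, card_univ]
  congr 1
  rw [← MvPolynomial.aeval_esymm_eq_multiset_esymm V ℚ, ← (exists_newton _).choose_spec V,
    MvPolynomial.comp_aeval_apply, newtonQ]
  congr 2
  ext1 i
  simp [MvPolynomial.psum]

/-- The trace relation of degree `N`. -/
noncomputable def trRel {E : Type*} [Ring E] [Algebra A E] (N : ℕ) (τ : E → A) (a : E) : E :=
  aeval a (charP N fun j => N * τ (a ^ j))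

lemma map_trRel {A' : Type*} [CommRing A'] [Algebra ℚ A'] {E E' : Type*} [Ring E] [Algebra A E]
    [Ring E'] [Algebra A' E'] (φ : A →ₐ[ℚ] A') (ψ : E →+* E')
    (h : ∀ x, algebraMap A' E' (φ x) = ψ (algebraMap A E x)) (τ : E → A) (τ' : E' → A')
    (hτ : ∀ e, τ' (ψ e) = φ (τ e)) (N : ℕ) (a : E) : ψ (trRel N τ a) = trRel N τ' (ψ a) := by
  rw [trRel, map_aeval_eq_aeval_map (φ := (φ : A →+* A')) (RingHom.ext h), map_charP, trRel]
  simp only [map_mul, map_natCast, ← hτ, map_pow]

end Crest.Agent.R180
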