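import Crest.Agent.R180.Prod
import Crest.Agent.R180.Newton

/-! Pauli coordinates on matrix algebras. -/

set_option autoImplicit false

namespace Crest.Agent.R180

open Finset Matrix

/-- The sign character. -/
def sg (t : ZMod 2) : ℚ := if t = 0 then 1 else -1

lemma sg_add (a b : ZMod 2) : sg (a + b) = sg a * sg b := by
  fin_cases a <;> fin_cases b <;> simp [sg] <;> rfl

@[simp] lemma sg_zero : sg 0 = 1 := by simp [sg]

lemma sg_ne_zero (a : ZMod 2) : sg a ≠ 0 := by
  unfold sg
  split_ifs <;> simp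

variable {ι : Type} [Fintype ι] [DecidableEq ι]

/-- Bit vectors. -/
abbrev BV (ι : Type) := ι → ZMod 2

/-- The Pauli group modulo signs. -/
abbrev PG (ι : Type) := BV ι × BV ι

omit [Fintype ι] [DecidableEq ι] in
lemma bv_add_eq_zero {a b : BV ι} : a + b = 0 ↔ a = b := by
  have : b + b = 0 := by
    ext i
    exact CharTwo.add_self_eq_zero _
  rw [← this, add_left_inj]

lemma sum_sg_mul (b : BV ι) (i : ι) (hi : b i ≠ 0) {A : Type*} [CommRing A] [Algebra ℚ A]
    (f : BV ι → A) (hf : ∀ v, f (v + Pi.single i 1) = f v) :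
    ∑ v, sg (b ⬝ᵥ v) • f v = 0 := by
  have h1 : b i = 1 := by
    revert hi
    generalize b i = t
    revert t
    decide
  have h : ∑ v, sg (b ⬝ᵥ v) • f v = - ∑ v, sg (b ⬝ᵥ v) • f v := by
    conv_lhs => rw [← Equiv.sum_comp (Equiv.addRight (Pi.single i 1))]
    rw [← sum_neg_distrib]
    apply sum_congr rfl
    intro v _
    simp only [Equiv.coe_addRight, hf, dotProduct_add, dotProduct_single, h1, sg_add, mul_one]
    simp [sg]
  have h2 : (2 : ℚ) • ∑ v, sg (b ⬝ᵥ v) • f v = 0 := by
    rw [two_smul]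
    exact add_eq_zero_iff_eq_neg.2 h
  rw [← inv_smul_smul₀ (two_ne_zero (α := ℚ)) (∑ v, sg (b ⬝ᵥ v) • f v), h2, smul_zero]

lemma sum_sg (b : BV ι) :
    ∑ v, sg (b ⬝ᵥ v) = if b = 0 then (Fintype.card (BV ι) : ℚ) else 0 := by
  split_ifs with h
  · simp [h]
  · obtain ⟨i, hi⟩ := Function.ne_iff.1 h
    simpa using sum_sg_mul b i hi (fun _ => (1 : ℚ)) fun _ => rfl

variable {A : Type} [CommRing A] [Algebra ℚ A]

/-- Pauli coordinates of a matrix. -/
noncomputable def co (M : Matrix (BV ι) (BV ι) A) (h : PG ι) : A :=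
  (Fintype.card (BV ι) : ℚ)⁻¹ • ∑ v, sg (h.2 ⬝ᵥ v) • M (v + h.1) v

/-- The matrix with given Pauli coordinates. -/
noncomputable def mk (z : PG ι → A) : Matrix (BV ι) (BV ι) A :=
  of fun v v' => ∑ b, sg (b ⬝ᵥ v') • z (v - v', b)

lemma card_bv_ne : (Fintype.card (BV ι) : ℚ) ≠ 0 := by exact_mod_cast Fintype.card_ne_zero

@[simp] lemma co_mk (z : PG ι → A) (h : PG ι) : co (mk z) h = z h := by
  simp only [co, mk, of_apply, add_sub_cancel_left, smul_sum, smul_smul]
  rw [sum_comm, sum_eq_single h.2]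
  · rw [← sum_smul, ← mul_sum]
    simp only [← sg_add, ← add_dotProduct]
    rw [sum_sg, if_pos (bv_add_eq_zero.2 rfl), inv_mul_cancel₀ card_bv_ne, one_smul]
  · intro b _ hb
    rw [← sum_smul, ← mul_sum]
    simp only [← sg_add, ← add_dotProduct]
    rw [sum_sg, if_neg (fun e => hb (bv_add_eq_zero.1 e).symm), mul_zero, zero_smul]
  · simp

@[simp] lemma mk_co (M : Matrix (BV ι) (BV ι) A) : mk (co M) = M := by
  ext v v'
  simp only [co, mk, of_apply, smul_sum, smul_smul]
  rw [sum_comm, sum_eq_single v']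
  · rw [← sum_smul]
    simp only [mul_left_comm _ (Fintype.card (BV ι) : ℚ)⁻¹, ← mul_sum, ← sg_add,
      ← dotProduct_add, dotProduct_comm _ (v' + v')]
    rw [sum_sg, if_pos (bv_add_eq_zero.2 rfl), inv_mul_cancel₀ card_bv_ne, one_smul,
      add_sub_cancel]
  · intro v'' _ hb
    rw [← sum_smul]
    simp only [mul_left_comm _ (Fintype.card (BV ι) : ℚ)⁻¹, ← mul_sum, ← sg_add,
      ← dotProduct_add, dotProduct_comm _ (v' + v'')]
    rw [sum_sg, if_neg (fun e => hb (bv_add_eq_zero.1 e).symm), mul_zero, zero_smul]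
  · simp

variable (ι A) in
/-- Pauli coordinates as a linear equivalence. -/
noncomputable def coE : Matrix (BV ι) (BV ι) A ≃ₗ[A] (PG ι → A) where
  toFun := co
  invFun := mk
  map_add' M N := by
    ext h
    simp [co, sum_add_distrib]
  map_smul' x M := by
    ext h
    simp [co, mul_sum, smul_sum]
  left_inv := mk_co
  right_inv z := funext (co_mk z)

lemma co_add (M N : Matrix (BV ι) (BV ι) A) (h : PG ι) : co (M + N) h = co M h + co N h :=
  congrFun ((coE ι A).map_add M N) h

lemma co_sub (M N : Matrix (BV ι) (BV ι) A) (h : PG ι) : co (M - N) h = co M h - co N h :=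
  congrFun ((coE ι A).map_sub M N) h

lemma co_smul (x : A) (M : Matrix (BV ι) (BV ι) A) (h : PG ι) : co (x • M) h = x * co M h :=
  congrFun ((coE ι A).map_smul x M) h

@[simp] lemma co_zero (h : PG ι) : co (0 : Matrix (BV ι) (BV ι) A) h = 0 := by simp [co]

lemma co_ext {M N : Matrix (BV ι) (BV ι) A} (h : ∀ g, co M g = co N g) : M = N :=
  (coE ι A).injective (funext h)

variable (ι A) in
/-- The Pauli basis. -/
noncomputable def pb : Module.Basis (PG ι) A (Matrix (BV ι) (BV ι) A) :=
  Module.Basis.ofEquivFun (coE ι A)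

@[simp] lemma pb_repr (M : Matrix (BV ι) (BV ι) A) (h : PG ι) : (pb ι A).repr M h = co M h := rfl

lemma pb_apply (h : PG ι) (v v' : BV ι) :
    pb ι A h v v' = if v = v' + h.1 then algebraMap ℚ A (sg (h.2 ⬝ᵥ v')) else 0 := by
  rw [pb, Module.Basis.coe_ofEquivFun]
  show mk (Pi.single h 1) v v' = _
  simp only [mk, of_apply]
  rw [sum_eq_single h.2]
  · split_ifs with e
    · simp [e, Algebra.algebraMap_eq_smul_one]
    · rw [Pi.single_eq_of_ne, smul_zero]
      intro e'
      exact e (by rw [← e']; simp)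
  · intro b _ hb
    rw [Pi.single_eq_of_ne, smul_zero]
    intro e'
    exact hb (by rw [← e'])
  · simp

lemma pb_mul (g h : PG ι) :
    pb ι A g * pb ι A h = algebraMap ℚ A (sg (g.2 ⬝ᵥ h.1)) • pb ι A (g + h) := by
  ext v v'
  rw [mul_apply, sum_eq_single (v' + h.1)]
  · simp only [pb_apply, if_true, Matrix.smul_apply, Prod.fst_add, Prod.snd_add, add_assoc,
      add_comm h.1 g.1, smul_eq_mul, dotProduct_add, add_dotProduct, sg_add, map_mul]
    split_ifs
    · ring
    · simp
  · intro w _ hw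
    simp [pb_apply, hw]
  · simp

lemma pb_zero : pb ι A 0 = 1 := by
  ext v v'
  simp [pb_apply, one_apply]

lemma co_one (h : PG ι) : co (1 : Matrix (BV ι) (BV ι) A) h = if h = 0 then 1 else 0 := by
  rw [← pb_zero, ← pb_repr, Module.Basis.repr_self, Finsupp.single_apply]
  simp only [eq_comm]

lemma co_mul (M N : Matrix (BV ι) (BV ι) A) (h : PG ι) :
    co (M * N) h = ∑ g, algebraMap ℚ A (sg (g.2 ⬝ᵥ (h - g).1)) * (co M g * co N (h - g)) := by
  rw [← pb_repr]
  conv_lhs => rw [← (pb ι A).sum_repr M, ← (pb ι A).sum_repr N]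
  rw [sum_mul_sum, map_sum, Finsupp.finsetSum_apply]
  apply sum_congr rfl
  intro g _
  rw [map_sum, Finsupp.finsetSum_apply, sum_eq_single (h - g)]
  · rw [smul_mul_smul_comm, pb_mul, smul_smul, map_smul, add_sub_cancel]
    simp [mul_comm]
  · intro g' _ hg'
    rw [smul_mul_smul_comm, pb_mul, smul_smul, map_smul, Module.Basis.repr_self,
      Finsupp.smul_apply, Finsupp.single_eq_of_ne, smul_zero]
    intro e
    exact hg' (by rw [e, add_sub_cancel_left])
  · simp

lemma co_map {A' : Type} [CommRing A'] [Algebra ℚ A'] (φ : A →ₐ[ℚ] A')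
    (M : Matrix (BV ι) (BV ι) A) (h : PG ι) : co (M.map φ) h = φ (co M h) := by
  simp [co, map_sum]

lemma mk_map {A' : Type} [CommRing A'] [Algebra ℚ A'] (φ : A →ₐ[ℚ] A') (z : PG ι → A) :
    (mk z).map φ = mk fun h => φ (z h) := by
  ext v v'
  simp [mk, map_sum]

/-- The normalized trace. -/
noncomputable def ntr (M : Matrix (BV ι) (BV ι) A) : A := co M 0

lemma ntr_eq (M : Matrix (BV ι) (BV ι) A) : ntr M = (Fintype.card (BV ι) : ℚ)⁻¹ • M.trace := by
  simp [ntr, co, trace]

lemma ntr_comm (M N : Matrix (BV ι) (BV ι) A) : ntr (M * N) = ntr (N * M) := by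
  rw [ntr_eq, ntr_eq, trace_mul_comm]

lemma ntr_smul (x : A) (M : Matrix (BV ι) (BV ι) A) : ntr (x • M) = x * ntr M := co_smul _ _ _

lemma trRel_map {A' : Type} [CommRing A'] [Algebra ℚ A'] (φ : A →ₐ[ℚ] A') (N : ℕ)
    (M : Matrix (BV ι) (BV ι) A) : (trRel N ntr M).map φ = trRel N ntr (M.map φ) := by
  refine map_trRel φ (RingHom.mapMatrix (m := BV ι) (φ : A →+* A')) (fun x => ?_) ntr ntr
    (fun e => co_map φ e 0) N M
  ext v v'
  simp [algebraMap_matrix_apply, apply_ite φ]

/-! ### Block scalar matrices -/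

variable (p : ι → Prop) [DecidablePred p]

/-- Restriction of bit vectors. -/
def rs (v : BV ι) : BV {i // p i} := fun i => v i.1

lemma sum_rs (f : BV {i // p i} → A) :
    (Fintype.card (BV {i // p i}) : A) * ((Fintype.card (BV ι) : ℚ)⁻¹ • ∑ v, f (rs p v)) =
      ∑ u, f u := by
  have e1 := Fintype.card_congr (Equiv.piEquivPiSubtypeProd p fun _ => ZMod 2)
  have e2 : ∑ v, f (rs p v) = (Fintype.card (BV {i // ¬ p i}) : ℚ) • ∑ u, f u := by
    rw [← Equiv.sum_comp (Equiv.piEquivPiSubtypeProd p fun _ => ZMod 2).symm,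
      Fintype.sum_prod_type, smul_sum]
    apply sum_congr rfl
    intro u _
    rw [sum_congr rfl (g := fun _ => f u), sum_const, card_univ, Nat.cast_smul_eq_nsmul]
    intro u' _
    congr 1
    ext i
    simp [rs, Equiv.piEquivPiSubtypeProd_symm_apply, i.2]
  rw [Fintype.card_prod] at e1
  rw [e2, ← nsmul_eq_mul, ← Nat.cast_smul_eq_nsmul ℚ, smul_smul, smul_smul, e1]
  push_cast
  rw [show ∀ a b : ℚ, a * (a * b)⁻¹ * b = (a * b) * (a * b)⁻¹ from fun a b => by ring,
    mul_inv_cancel₀ (mul_ne_zero card_bv_ne card_bv_ne), one_smul]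

lemma charP_diag (μ : BV {i // p i} → A) :
    (charP (Fintype.card (BV {i // p i})) fun j => (Fintype.card (BV {i // p i}) : A) *
      ntr (diagonal (fun v => μ (rs p v)) ^ j)) = ∏ u, (Polynomial.X - Polynomial.C (μ u)) := by
  rw [← charP_psum]
  congr 1
  ext1 j
  rw [diagonal_pow, ntr_eq, trace_diagonal, ← sum_rs p]
  rfl

lemma trRel_conj (μ : BV {i // p i} → A) {b b' : Matrix (BV ι) (BV ι) A} {ν : A}
    (hν : ∀ x, ν * x = 0 → x = 0) (h1 : b * b' = ν • 1) (h2 : b' * b = ν • 1) :
    trRel (Fintype.card (BV {i // p i})) ntr (b * diagonal (fun v => μ (rs p v)) * b') = 0 := by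
  set c := diagonal (fun v => μ (rs p v)) with hc
  have e1 : ∀ j, ν • (b * c * b') ^ j = b * (ν • c) ^ j * b' := by
    intro j
    induction j with
    | zero => simp [h1]
    | succ j ih =>
      rw [pow_succ, ← smul_mul_assoc, ih, pow_succ]
      simp only [Matrix.mul_assoc]
      rw [← Matrix.mul_assoc b' b, h2]
      simp
  have e2 : ∀ j, ntr ((b * c * b') ^ j) = ntr ((ν • c) ^ j) := by
    intro j
    rw [← sub_eq_zero]
    apply hν
    rw [mul_sub, ← ntr_smul, e1, ntr_comm, ← Matrix.mul_assoc, h2, smul_mul_assoc, Matrix.one_mul,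
      ntr_smul, sub_self]
  have e3 : ν • c = diagonal fun v => (fun u => ν * μ u) (rs p v) := by
    rw [hc, ← diagonal_smul]
    rfl
  have e4 : ∀ q : Polynomial A, ν • Polynomial.aeval (b * c * b') q =
      b * Polynomial.aeval (ν • c) q * b' := by
    intro q
    induction q using Polynomial.induction_on' with
    | add p q hp hq => simp only [map_add, smul_add, hp, hq, Matrix.mul_add, Matrix.add_mul]
    | monomial n x =>
      simp only [Polynomial.aeval_monomial, ← Algebra.smul_def]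
      rw [smul_comm, e1]
      simp
  have e5 : ν • trRel (Fintype.card (BV {i // p i})) ntr (b * c * b') = 0 := by
    rw [trRel, e4]
    simp only [e2]
    rw [e3, charP_diag p (fun u => ν * μ u)]
    have : (diagonal fun v => (fun u => ν * μ u) (rs p v)) =
        diagonalAlgHom A fun v => (fun u => ν * μ u) (rs p v) := rfl
    rw [this, Polynomial.aeval_algHom_apply]
    have e6 : Polynomial.aeval (fun v => (fun u => ν * μ u) (rs p v))
        (∏ u, (Polynomial.X - Polynomial.C (ν * μ u))) = 0 := by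
      ext v
      rw [map_prod, Finset.prod_apply]
      exact prod_eq_zero (mem_univ (rs p v)) (by simp)
    rw [e6]
    simp
  ext v v'
  apply hν
  simpa using congrFun (congrFun e5 v) v'

/-! ### Homogeneous matrices -/

open MvPolynomial

variable {σ : Type} (w : σ → PG ι)

/-- Matrices of total degree zero. -/
def Hom0 (M : Matrix (BV ι) (BV ι) (MvPolynomial σ ℚ)) : Prop :=
  ∀ h, IsWeightedHomogeneous w (co M h) h

variable {w}

lemma Hom0.mul {M N : Matrix (BV ι) (BV ι) (MvPolynomial σ ℚ)} (hM : Hom0 w M) (hN : Hom0 w N) :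
    Hom0 w (M * N) := by
  intro h
  rw [co_mul]
  apply IsWeightedHomogeneous.sum
  intro g _
  have := (hM g).mul (hN (h - g))
  rw [add_sub_cancel] at this
  exact this.C_mul _

lemma Hom0.add {M N : Matrix (BV ι) (BV ι) (MvPolynomial σ ℚ)} (hM : Hom0 w M) (hN : Hom0 w N) :
    Hom0 w (M + N) := fun h => by
  rw [co_add]
  exact (hM h).add (hN h)

lemma Hom0.smul {M : Matrix (BV ι) (BV ι) (MvPolynomial σ ℚ)} (hM : Hom0 w M)
    {x : MvPolynomial σ ℚ} (hx : IsWeightedHomogeneous w x 0) : Hom0 w (x • M) := fun h => by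
  rw [co_smul]
  simpa using hx.mul (hM h)

lemma hom0_one : Hom0 w (1 : Matrix (BV ι) (BV ι) (MvPolynomial σ ℚ)) := fun h => by
  rw [co_one]
  split_ifs with e
  · rw [e]
    exact isWeightedHomogeneous_one ℚ w
  · exact isWeightedHomogeneous_zero ℚ w h

lemma hom0_zero : Hom0 w (0 : Matrix (BV ι) (BV ι) (MvPolynomial σ ℚ)) := fun h => by
  rw [co_zero]
  exact isWeightedHomogeneous_zero ℚ w h

lemma hom0_mk {z : PG ι → MvPolynomial σ ℚ} (hz : ∀ h, IsWeightedHomogeneous w (z h) h) :
    Hom0 w (mk z) := fun h => by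
  rw [co_mk]
  exact hz h

lemma exists_adj {b : Matrix (BV ι) (BV ι) (MvPolynomial σ ℚ)} (hb : Hom0 w b) :
    ∃ b', Hom0 w b' ∧ b * b' = weightedHomogeneousComponent w 0 b.det • 1 ∧
      b' * b = weightedHomogeneousComponent w 0 b.det • 1 := by
  have e : ∀ h, weightedHomogeneousComponent w h (co (b.det •
      (1 : Matrix (BV ι) (BV ι) (MvPolynomial σ ℚ))) h) =
      co (weightedHomogeneousComponent w 0 b.det •
        (1 : Matrix (BV ι) (BV ι) (MvPolynomial σ ℚ))) h := by
    intro h
    rw [co_smul, co_smul, co_one]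
    split_ifs with e
    · simp [e]
    · simp
  refine ⟨mk fun h => weightedHomogeneousComponent w h (co b.adjugate h),
    hom0_mk fun h => weightedHomogeneousComponent_isWeightedHomogeneous _ _, ?_, ?_⟩
  · apply co_ext
    intro h
    rw [← e, ← mul_adjugate, co_mul, co_mul, map_sum]
    apply sum_congr rfl
    intro g _
    rw [algebraMap_eq, weightedHomogeneousComponent_C_mul, co_mk, mul_comm (co b g),
      mul_comm (co b g), ← comp_mul (hb g), sub_add_cancel]
  · apply co_ext
    intro h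
    rw [← e, ← adjugate_mul, co_mul, co_mul, map_sum]
    apply sum_congr rfl
    intro g _
    rw [algebraMap_eq, weightedHomogeneousComponent_C_mul, co_mk, ← comp_mul (hb (h - g)),
      add_sub_cancel]

end Crest.Agent.R180
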