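import Crest.Agent.R180.Ideal

/-! Products of ideals in disjoint sets of variables; graded homomorphisms; independence. -/

set_option autoImplicit false

namespace Crest.Agent.R180

open Finset MvPolynomial

variable {k : Type} [Field k]

lemma exists_mo (σ : Type) [Fintype σ] : Nonempty (MO σ) := by
  classical
  let : LinearOrder σ := LinearOrder.lift' (Fintype.equivFin σ) (Fintype.equivFin σ).injective
  let m : MonomialOrder σ := MonomialOrder.lex
  exact ⟨{ L := m.syn
           key := m.toSyn
           inj := m.toSyn.injective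
           add_le := fun c a b h => by simpa using h
           zero_le := fun a => m.toSyn_monotone zero_le }⟩

section GradedHom

variable {σ τ M : Type} [AddCommGroup M] {w : σ → M} {w' : τ → M}

lemma hom_aeval {y : σ → MvPolynomial τ k} (hy : ∀ i, IsWeightedHomogeneous w' (y i) (w i))
    {r : MvPolynomial σ k} {g : M} (hr : IsWeightedHomogeneous w r g) :
    IsWeightedHomogeneous w' (aeval y r) g := by
  induction hr using IsWeightedHomogeneous.induction_on with
  | zero => simpa using isWeightedHomogeneous_zero k w' g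
  | add p q _ _ hp hq => simpa using hp.add hq
  | monomial d x hd =>
    rw [aeval_monomial, algebraMap_eq, ← hd, Finsupp.weight_apply]
    exact (IsWeightedHomogeneous.prod _ _ _ fun i _ => (hy i).pow (d i)).C_mul x

lemma comp_aeval_eq {y : σ → MvPolynomial τ k} (hy : ∀ i, IsWeightedHomogeneous w' (y i) (w i))
    (r : MvPolynomial σ k) (g : M) :
    weightedHomogeneousComponent w' g (aeval y r) = aeval y (weightedHomogeneousComponent w g r) := by
  classical
  induction r using MvPolynomial.induction_on' with
  | monomial a x =>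
    have h1 := isWeightedHomogeneous_monomial w a x rfl
    rw [weightedHomogeneousComponent_of_mem (hom_aeval hy h1),
      weightedHomogeneousComponent_of_mem h1]
    split_ifs <;> simp
  | add p q hp hq => simp only [map_add, hp, hq]

lemma gr_ker {y : σ → MvPolynomial τ k} (hy : ∀ i, IsWeightedHomogeneous w' (y i) (w i)) :
    Gr w (RingHom.ker (aeval y : MvPolynomial σ k →ₐ[k] MvPolynomial τ k)) := by
  intro r hr g
  rw [RingHom.mem_ker] at hr ⊢
  rw [← comp_aeval_eq hy, hr, map_zero]

lemma gr_span {s : Set (MvPolynomial σ k)}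
    (h : ∀ x ∈ s, ∀ g, weightedHomogeneousComponent w g x ∈ Ideal.span s) :
    Gr w (Ideal.span s) := by
  classical
  intro r hr
  induction hr using Submodule.span_induction with
  | mem x hx => exact h x hx
  | zero => intro g; simp
  | add x y _ _ hx hy => intro g; rw [map_add]; exact add_mem (hx g) (hy g)
  | smul a x _ hx =>
    intro g
    rw [← sum_weightedHomogeneousComponent w x,
      finsum_eq_sum _ (weightedHomogeneousComponent_finsupp x), smul_eq_mul, mul_sum, map_sum]
    apply Ideal.sum_mem
    intro h _
    rw [← sub_add_cancel g h, comp_mul (weightedHomogeneousComponent_isWeightedHomogeneous h x)]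
    exact Ideal.mul_mem_left _ _ (hx h)

lemma hom_map {M' : Type} [AddCommGroup M'] (φ : M →+ M') {r : MvPolynomial σ k} {g : M}
    (hr : IsWeightedHomogeneous w r g) : IsWeightedHomogeneous (fun i => φ (w i)) r (φ g) := by
  intro d hd
  rw [← hr hd, Finsupp.weight_apply, Finsupp.weight_apply, Finsupp.sum, Finsupp.sum, map_sum]
  simp

end GradedHom

lemma algInd_of_cone {σ : Type} {m : MO σ} {J : Ideal (MvPolynomial σ k)} {a : σ →₀ ℕ}
    {L : Finset σ} (h : ConeIn a L (std m J)) {A : Type*} [CommRing A] [Algebra k A]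
    (θ : MvPolynomial σ k →ₐ[k] A) (hθ : ∀ r, θ r = 0 → r ∈ J) :
    AlgebraicIndependent k (fun i : L => θ (X i)) := by
  rw [algebraicIndependent_iff]
  intro p hp
  by_contra hne
  have e : θ (rename Subtype.val p) = aeval (fun i : L => θ (X i)) p := by
    have : θ.comp (rename Subtype.val) = aeval (fun i : L => θ (X i)) := by
      ext1 i
      simp
    exact DFunLike.congr_fun this p
  have h1 : rename Subtype.val p ≠ 0 := fun e' =>
    hne (rename_injective _ Subtype.val_injective (by rw [e', map_zero]))
  obtain ⟨b, hb⟩ := exists_plead m h1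
  obtain ⟨u, rfl, _⟩ := coeff_rename_ne_zero _ _ _ hb.1
  refine std_lower (b := a + u.mapDomain Subtype.val) le_add_self (h _ le_self_add ?_)
    ⟨_, hθ _ (e.trans hp), hb⟩
  intro i hi
  rw [Finsupp.add_apply, Finsupp.mapDomain_of_notMem_range, add_zero]
  simpa using hi

lemma exists_functional {σ : Type} {m : MO σ} {J : Ideal (MvPolynomial σ k)} {a : σ →₀ ℕ}
    (ha : a ∈ std m J) : ∃ φ : MvPolynomial σ k →ₗ[k] k, (∀ r ∈ J, φ r = 0) ∧
      φ (monomial a 1) ≠ 0 ∧ ∀ b, φ (monomial b 1) ≠ 0 → m.key a ≤ m.key b := by
  classical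
  let V : Submodule k (MvPolynomial σ k) :=
    { carrier := {v | (polySys k m).Below v (a, ())}
      add_mem' := fun {x y} hx hy b hb => by
        by_cases e : (polySys k m).co b x = 0
        · exact hy b (by simpa [e] using hb)
        · exact hx b e
      zero_mem' := (polySys k m).below_zero _
      smul_mem' := fun c x hx b hb => hx b fun e => hb (by simp [e]) }
  have h : monomial a (1 : k) ∉ J.restrictScalars k ⊔ V := by
    intro h
    obtain ⟨x, hx, y, hy, e⟩ := Submodule.mem_sup.1 h
    have := ((polySys_lead m).2 (plead_monomial (k := k) m a)).sub_below hy 1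
    rw [one_smul, ← e, add_sub_cancel_right] at this
    exact ha ⟨x, hx, (polySys_lead m).1 this⟩
  obtain ⟨φ, h1, h2⟩ := Submodule.exists_dual_map_eq_bot_of_notMem h inferInstance
  have h3 : ∀ v ∈ J.restrictScalars k ⊔ V, φ v = 0 := fun v hv => by
    rw [← Submodule.mem_bot k, ← h2]
    exact Submodule.mem_map_of_mem hv
  refine ⟨φ, fun r hr => h3 r (Submodule.mem_sup_left hr), h1, fun b hb => ?_⟩
  by_contra hlt
  apply hb
  apply h3 _ (Submodule.mem_sup_right _)
  rintro ⟨b', _⟩ hb'
  exact lt_of_le_of_lt ((plead_monomial m b).2 b' hb') (lt_of_not_ge hlt)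

variable {B G : Type}

/-- Restriction of a monomial order to a block. -/
noncomputable def MO.res (m : MO (B × G)) (j : B) : MO G where
  L := m.L
  key a := m.key (a.mapDomain (Prod.mk j))
  inj := m.inj.comp (Finsupp.mapDomain_injective (Prod.mk_right_injective j))
  add_le c a b h := by
    rw [Finsupp.mapDomain_add, Finsupp.mapDomain_add]
    exact m.add_le _ _ _ h
  zero_le a := by
    rw [Finsupp.mapDomain_zero]
    exact m.zero_le _

lemma MO.sum_le {σ : Type} (m : MO σ) {ι : Type} (s : Finset ι) (x y : ι → σ →₀ ℕ)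
    (h : ∀ j ∈ s, m.key (x j) ≤ m.key (y j)) : m.key (∑ j ∈ s, x j) ≤ m.key (∑ j ∈ s, y j) := by
  classical
  induction s using Finset.induction_on with
  | empty => simp
  | insert j s hj ih =>
    rw [sum_insert hj, sum_insert hj]
    refine (m.add_le _ _ _ (h j (mem_insert_self _ _))).trans ?_
    rw [add_comm (y j), add_comm (y j)]
    exact m.add_le _ _ _ (ih fun i hi => h i (mem_insert_of_mem hi))

/-- The sum of ideals in disjoint blocks of variables. -/
noncomputable def prodIdeal (I : B → Ideal (MvPolynomial G k)) : Ideal (MvPolynomial (B × G) k) :=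
  Ideal.span {x | ∃ j, ∃ r ∈ I j, x = rename (Prod.mk j) r}

lemma rename_mem_prodIdeal {I : B → Ideal (MvPolynomial G k)} {j : B} {r : MvPolynomial G k}
    (hr : r ∈ I j) : rename (Prod.mk j) r ∈ prodIdeal I := Ideal.subset_span ⟨j, r, hr, rfl⟩

lemma gr_prodIdeal {M : Type} [AddCommGroup M] {w : G → M} {I : B → Ideal (MvPolynomial G k)}
    (h : ∀ j, Gr w (I j)) : Gr (fun x : B × G => w x.2) (prodIdeal I) := by
  apply gr_span
  rintro _ ⟨j, r, hr, rfl⟩ g
  rw [rename_eq_aeval, comp_aeval_eq (w := w) (y := X ∘ Prod.mk j)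
    (fun i => isWeightedHomogeneous_X k (fun x : B × G => w x.2) (j, i)), ← rename_eq_aeval]
  exact rename_mem_prodIdeal (h j r hr g)

variable [Fintype B] [DecidableEq B] [Fintype G] [DecidableEq G]

omit [Fintype B] [DecidableEq G] in
lemma res_mapDomain (j j' : B) (b : G →₀ ℕ) :
    res j' (b.mapDomain (Prod.mk j)) = if j' = j then b else 0 := by
  ext g
  rw [res_apply]
  split_ifs with h
  · rw [h, Finsupp.mapDomain_apply (Prod.mk_right_injective j)]
  · rw [Finsupp.mapDomain_of_notMem_range]
    · rfl
    · rintro ⟨g', e⟩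
      exact h (congrArg Prod.fst e).symm

omit [Fintype B] [DecidableEq B] [DecidableEq G] in
lemma res_add (j : B) (a b : B × G →₀ ℕ) : res j (a + b) = res j a + res j b := by
  ext g
  simp

omit [DecidableEq B] [DecidableEq G] in
lemma sum_mapDomain_res (a : B × G →₀ ℕ) : ∑ j, (res j a).mapDomain (Prod.mk j) = a := by
  ext ⟨j, g⟩
  rw [Finsupp.finsetSum_apply, sum_eq_single j]
  · rw [Finsupp.mapDomain_apply (Prod.mk_right_injective j), res_apply]
  · intro j' _ h
    rw [Finsupp.mapDomain_of_notMem_range]
    rintro ⟨g', e⟩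
    exact h (congrArg Prod.fst e)
  · simp

omit [DecidableEq G] in
theorem std_prodIdeal (m : MO (B × G)) (I : B → Ideal (MvPolynomial G k)) :
    std m (prodIdeal I) = {a | ∀ j, res j a ∈ std (m.res j) (I j)} := by
  ext a
  constructor
  · rintro ha j ⟨r, hr, h⟩
    have hle : (res j a).mapDomain (Prod.mk j) ≤ a := by
      conv_rhs => rw [← sum_mapDomain_res a]
      exact single_le_sum (f := fun j => (res j a).mapDomain (Prod.mk j))
        (fun _ _ => zero_le) (mem_univ j)
    refine std_lower hle ha ⟨_, rename_mem_prodIdeal hr, ?_, fun b hb => ?_⟩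
    · rw [coeff_rename_mapDomain _ (Prod.mk_right_injective j)]
      exact h.1
    · obtain ⟨u, rfl, hu⟩ := coeff_rename_ne_zero _ _ _ hb
      exact h.2 u hu
  · rintro ha ⟨r, hr, h⟩
    choose φ h1 h2 h3 using fun j => exists_functional (ha j)
    let Φ : MvPolynomial (B × G) k →ₗ[k] k :=
      (basisMonomials _ k).constr k fun b => ∏ j, φ j (monomial (res j b) 1)
    have hΦ : ∀ b, Φ (monomial b 1) = ∏ j, φ j (monomial (res j b) 1) := fun b => by
      have := (basisMonomials _ k).constr_basis k (fun b => ∏ j, φ j (monomial (res j b) 1)) b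
      rwa [coe_basisMonomials] at this
    have e1 : ∀ c j r, Φ (monomial c 1 * rename (Prod.mk j) r) =
        φ j (monomial (res j c) 1 * r) * ∏ j' ∈ univ.erase j, φ j' (monomial (res j' c) 1) := by
      intro c j r
      induction r using MvPolynomial.induction_on' with
      | monomial b x =>
        have e2 : ∀ (σ : Type) (b c : σ →₀ ℕ), monomial c (1 : k) * monomial b x =
            x • monomial (c + b) 1 := by
          intro σ b c
          rw [monomial_mul, smul_monomial, one_mul, smul_eq_mul, mul_one]
        rw [rename_monomial, e2, e2, map_smul, map_smul, hΦ, ← mul_prod_erase _ _ (mem_univ j),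
          res_add, res_mapDomain, if_pos rfl, smul_mul_assoc]
        congr 2
        apply prod_congr rfl
        intro j' hj'
        rw [res_add, res_mapDomain, if_neg (ne_of_mem_erase hj'), add_zero]
      | add p q hp hq => simp only [map_add, mul_add, hp, hq, add_mul]
    have hs : ∀ (c : B × G →₀ ℕ) (y : k), monomial c y = y • monomial c (1 : k) := by
      intro c y
      rw [smul_monomial, smul_eq_mul, mul_one]
    have e3 : ∀ x ∈ prodIdeal I, ∀ q, Φ (q * x) = 0 := by
      intro x hx
      induction hx using Submodule.span_induction with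
      | mem x hx =>
        obtain ⟨j, r, hr, rfl⟩ := hx
        intro q
        induction q using MvPolynomial.induction_on' with
        | monomial c y =>
          rw [hs, smul_mul_assoc, map_smul, e1,
            h1 j _ ((I j).mul_mem_left _ hr), zero_mul, smul_zero]
        | add p q hp hq => rw [add_mul, map_add, hp, hq, add_zero]
      | zero => simp
      | add x y _ _ hx hy => intro q; rw [mul_add, map_add, hx, hy, add_zero]
      | smul a x _ hx => intro q; rw [smul_eq_mul, ← mul_assoc, hx]
    have e4 := e3 r hr 1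
    rw [one_mul, r.as_sum, map_sum, sum_eq_single a] at e4
    · rw [hs, map_smul, hΦ, smul_eq_mul] at e4
      exact mul_ne_zero h.1 (prod_ne_zero_iff.2 fun j _ => h2 j) e4
    · intro b hb hne
      rw [hs, map_smul, hΦ]
      by_contra e
      have e5 := prod_ne_zero_iff.1 (right_ne_zero_of_smul e)
      have e6 := m.sum_le univ _ _ fun j hj => h3 j _ (e5 j hj)
      rw [sum_mapDomain_res, sum_mapDomain_res] at e6
      exact hne (m.inj (le_antisymm (h.2 b (mem_support_iff.1 hb)) e6))
    · intro h'
      exact absurd (mem_support_iff.2 h.1) h'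

theorem icod_prodIdeal (m : MO (B × G)) (I : B → Ideal (MvPolynomial G k)) (c : B → ℕ)
    (hc : ∀ j, ICod (m.res j) (c j) (I j)) : ICod m (∑ j, c j) (prodIdeal I) := by
  intro a L hL
  rw [std_prodIdeal] at hL
  rw [card_eq_sum_card_fiberwise (f := Prod.fst) (t := univ) (fun _ _ => mem_univ _)]
  apply sum_le_sum
  intro j _
  have h1 : ConeIn (res j a) (univ.filter fun g => (j, g) ∈ L) (std (m.res j) (I j)) := by
    intro b hb hb'
    obtain ⟨d, rfl⟩ := exists_add_of_le hb
    have := hL (a + d.mapDomain (Prod.mk j)) le_self_add ?_ j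
    · rwa [res_add, res_mapDomain, if_pos rfl] at this
    · rintro ⟨j', g⟩ hi
      rw [Finsupp.add_apply, ← res_apply j' (d.mapDomain _), res_mapDomain]
      split_ifs with e
      · subst e
        simpa using hb' g (by simpa using hi)
      · simp
  refine (hc j _ _ h1).trans (card_le_card_of_injOn (fun g => (j, g)) ?_ ?_)
  · intro g hg
    simpa using hg
  · intro g _ g' _ e
    exact (Prod.mk_right_injective j) e

theorem icls_prodIdeal {S : Type} [CommRing S] (m : MO (B × G))
    (I : B → Ideal (MvPolynomial G k)) (c : B → ℕ)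
    (hc : ∀ j, ICod (m.res j) (c j) (I j)) (l : B × G → S) :
    icls m l (∑ j, c j) (prodIdeal I) = ∏ j, icls (m.res j) (fun g => l (j, g)) (c j) (I j) := by
  have e : ind (std m (prodIdeal I)) = fun a => ∏ j, ind (std (m.res j) (I j)) (res j a) := by
    ext a
    rw [std_prodIdeal]
    by_cases ha : ∀ j, res j a ∈ std (m.res j) (I j)
    · rw [ind_of_mem (by exact ha), prod_eq_one fun j _ => ind_of_mem (ha j)]
    · rw [ind_of_notMem (by exact ha)]
      push Not at ha
      obtain ⟨j, hj⟩ := ha
      exact (prod_eq_zero (mem_univ j) (ind_of_notMem hj)).symm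
  rw [icls, e, cls, (K_prod _ _ fun j => tame_std _).2]
  have h1 : ∀ j, ∃ κ, K (tt fun g => l (j, g)) (ind (std (m.res j) (I j))) =
      Polynomial.X ^ c j * κ := fun j =>
    X_pow_dvd_K _ (tame_std _) (by rw [supp_ind]; exact hc j)
  choose κ hκ using h1
  have h0 : ∀ (c : ℕ) (q : Polynomial S), (Polynomial.X ^ c * q).coeff c = q.coeff 0 :=
    fun c q => by simpa using Polynomial.coeff_X_pow_mul q c 0
  have hκ' : ∀ j, K (fun g => tt l (j, g)) (ind (std (m.res j) (I j))) =
      Polynomial.X ^ c j * κ j := hκ
  rw [prod_congr rfl fun j _ => hκ' j, prod_mul_distrib,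
    prod_pow_eq_pow_sum, h0, Polynomial.coeff_zero_prod]
  apply prod_congr rfl
  intro j _
  rw [icls, cls, hκ, h0]

end Crest.Agent.R180
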