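import Crest.Agent.R180.Yvar

/-! The class of the variety of bounded degree matrices is nonzero. -/

set_option autoImplicit false

namespace Crest.Agent.R180

open Finset Matrix MvPolynomial

lemma aeval_diag_add {W A : Type} [Fintype W] [DecidableEq W] [CommRing A] (d : W → A)
    (E : Matrix W W A) (hE : ∀ a b c e, E a b * E c e = 0) (P : Polynomial A) {v v' : W}
    (hv : d v = d v') :
    Polynomial.aeval (diagonal d + E) P v v' = (if v = v' then P.eval (d v) else 0) +
      (Polynomial.derivative P).eval (d v) * E v v' := by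
  have key : ∀ j : ℕ, ∃ g : W → W → A, (∀ v v', ((diagonal d + E) ^ j) v v' =
      (if v = v' then d v ^ j else 0) + g v v' * E v v') ∧
      ∀ v v', d v = d v' → g v v' = j * d v ^ (j - 1) := by
    intro j
    induction j with
    | zero => exact ⟨0, fun v v' => by simp [one_apply], by simp⟩
    | succ j ih =>
      obtain ⟨g, h1, h2⟩ := ih
      refine ⟨fun v v' => d v ^ j + g v v' * d v', fun v v' => ?_, fun v v' e => ?_⟩
      · rw [pow_succ, Matrix.mul_add, Matrix.add_apply, mul_diagonal, h1, mul_apply]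
        simp only [h1, add_mul, mul_assoc, hE, mul_zero, add_zero, ite_mul, zero_mul, sum_ite_eq,
          mem_univ, if_true]
        split_ifs with e
        · subst e
          ring
        · ring
      · simp only [h2 v v' e, ← e]
        rcases j with _ | j
        · simp
        · simp only [Nat.add_sub_cancel]
          push_cast
          ring
  induction P using Polynomial.induction_on' with
  | add P Q hP hQ =>
    simp only [map_add, Matrix.add_apply, hP, hQ, Polynomial.eval_add]
    split_ifs <;> ring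
  | monomial j x =>
    obtain ⟨g, h1, h2⟩ := key j
    rw [Polynomial.aeval_monomial, ← Algebra.smul_def, Matrix.smul_apply, h1, h2 v v' hv]
    simp only [Polynomial.eval_monomial, Polynomial.derivative_monomial, smul_eq_mul]
    split_ifs <;> ring

variable {ι : Type} [Fintype ι] [DecidableEq ι] (p : ι → Prop) [DecidablePred p]
variable {μ : BV {i // p i} → ℚ}

lemma gen_IY (hμ : Function.Injective μ) :
    Gen (co (diagonal fun v => μ (rs p v))) (TY p) (IY p) := by
  set z := co (diagonal fun v => μ (rs p v)) with hz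
  rw [Gen, pt, Ideal.span_le]
  rintro _ ⟨h, rfl⟩
  by_cases hh : h ∈ TY p
  · exact Ideal.mem_sup_left (Ideal.mem_sup_right (Ideal.subset_span ⟨h, hh, rfl⟩))
  suffices ζ z h ∈ IY p ⊔ pt z ^ 2 from
    (sup_le_sup_right (le_sup_left (b := Ideal.span (ζ z '' TY p))) _) this
  simp only [TY, mem_filter, mem_univ, true_and, not_or, not_not] at hh
  let q := Ideal.Quotient.mkₐ ℚ (IY p ⊔ pt z ^ 2)
  have hq : ∀ x ∈ pt z, ∀ y ∈ pt z, q x * q y = 0 := fun x hx y hy => by
    rw [← map_mul]
    exact Ideal.Quotient.eq_zero_iff_mem.2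
      (Ideal.mem_sup_right (by rw [pow_two]; exact Ideal.mul_mem_mul hx hy))
  have hE : ∀ a b, mk (ζ z) a b ∈ pt z := fun a b =>
    Ideal.sum_mem _ fun c _ => by
      rw [smul_eq_C_mul]
      exact Ideal.mul_mem_left _ _ (ζ_mem z _)
  let PR := charP (Fintype.card (BV {i // p i})) fun j =>
    (Fintype.card (BV {i // p i}) : MvPolynomial (PG ι) ℚ) * ntr (mk X ^ j)
  have e1 : PR.map (aeval z : MvPolynomial (PG ι) ℚ →ₐ[ℚ] ℚ) =
      ∏ u, (Polynomial.X - Polynomial.C (μ u)) := by
    rw [map_charP, ← charP_diag]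
    congr 1
    ext1 j
    rw [map_mul, map_natCast, ntr, ← co_map, ← AlgHom.mapMatrix_apply, map_pow,
      AlgHom.mapMatrix_apply, mk_map]
    simp [hz, ntr]
  have e2 : (mk X).map q = diagonal (fun v => algebraMap ℚ _ (μ (rs p v))) + (mk (ζ z)).map q := by
    have : (mk X : Matrix (BV ι) (BV ι) (MvPolynomial (PG ι) ℚ)) =
        (diagonal fun v => μ (rs p v)).map (Algebra.ofId ℚ _) + mk (ζ z) := by
      apply co_ext
      intro g
      rw [co_add, co_map, co_mk, co_mk, ζ, ← hz]
      simp
    rw [this, Matrix.map_add _ (map_add _)]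
    congr 1
    refine Matrix.ext fun v v' => ?_
    simp only [map_apply, diagonal_apply]
    split_ifs
    · exact q.commutes _
    · simp
  have e3 : Polynomial.aeval ((mk X).map q) (PR.map q.toRingHom) = 0 := by
    have := Polynomial.map_aeval_eq_aeval_map (φ := q.toRingHom)
      (ψ := RingHom.mapMatrix (m := BV ι) q.toRingHom) (by
        refine RingHom.ext fun x => Matrix.ext fun v v' => ?_
        simp [algebraMap_matrix_apply, apply_ite q]) PR (mk X)
    refine this.symm.trans (co_ext fun g => ?_)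
    rw [co_zero]
    refine (co_map q _ g).trans (Ideal.Quotient.eq_zero_iff_mem.2 (Ideal.mem_sup_left ?_))
    simpa [trRel, PR] using trRel_mem_IY p 0 (Or.inl rfl) g
  rw [← Ideal.Quotient.eq_zero_iff_mem]
  show q (ζ z h) = 0
  rw [← co_mk (ζ z) h, ← co_map]
  let κ : BV {i // p i} → ℚ := fun u =>
    (Polynomial.derivative (∏ u, (Polynomial.X - Polynomial.C (μ u)))).eval (μ u)
  have hκ : ∀ u, κ u ≠ 0 := fun u => by
    have := (Polynomial.separable_prod_X_sub_C_iff.2 hμ).aeval_derivative_ne_zero (x := μ u) (by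
      rw [map_prod]
      exact prod_eq_zero (mem_univ u) (by simp))
    simpa [κ] using this
  refine co_eq_zero_of_block p (fun u => - (κ u)⁻¹ •
    (PR.map q.toRingHom).eval (algebraMap ℚ _ (μ u))) ?_ hh.1 hh.2
  intro v v' hv
  have e4 := aeval_diag_add (fun v => algebraMap ℚ _ (μ (rs p v))) ((mk (ζ z)).map q)
    (fun a b c e => hq _ (hE a b) _ (hE c e)) (PR.map q.toRingHom)
    (v := v) (v' := v') (by simp only [hv])
  rw [← e2, e3] at e4
  have e5 : (Polynomial.derivative (PR.map q.toRingHom)).eval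
      (algebraMap ℚ _ (μ (rs p v))) * (mk (ζ z)).map q v v' =
      κ (rs p v) • (mk (ζ z)).map q v v' := by
    have e6 := hq _ (sub_C_mem z (ζ_mem z) ((Polynomial.derivative PR).eval (C (μ (rs p v)))))
      _ (hE v v')
    have e7 : eval z ((Polynomial.derivative PR).eval (C (μ (rs p v)))) = κ (rs p v) := by
      simp only [κ]
      rw [← e1, Polynomial.derivative_map, ← coe_aeval_eq_eval, ← Polynomial.eval_map_apply]
      simp
    rw [e7, map_sub, sub_mul, sub_eq_zero] at e6
    have e8 := Polynomial.eval_map_apply (p := Polynomial.derivative PR) q.toRingHom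
      (C (μ (rs p v)))
    rw [Polynomial.derivative_map, Algebra.smul_def, ← q.commutes, ← q.commutes]
    exact (congrArg (· * _) e8).trans e6
  rw [e5, Matrix.zero_apply] at e4
  rw [← inv_smul_smul₀ (hκ (rs p v)) ((mk (ζ z)).map q v v'), eq_neg_of_add_eq_zero_right e4.symm]
  split_ifs <;> simp

lemma co_map_linear {A A' : Type} [CommRing A] [Algebra ℚ A] [CommRing A'] [Algebra ℚ A']
    (φ : A →ₗ[ℚ] A') (M : Matrix (BV ι) (BV ι) A) (h : PG ι) : co (M.map φ) h = φ (co M h) := by
  simp [co, map_sum]

lemma coeff_matrix_mul (M N : Matrix (BV ι) (BV ι) (Polynomial ℚ)) :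
    (M * N).map (Polynomial.lcoeff ℚ 0) =
      M.map (Polynomial.lcoeff ℚ 0) * N.map (Polynomial.lcoeff ℚ 0) ∧
    (M * N).map (Polynomial.lcoeff ℚ 1) =
      M.map (Polynomial.lcoeff ℚ 0) * N.map (Polynomial.lcoeff ℚ 1) +
      M.map (Polynomial.lcoeff ℚ 1) * N.map (Polynomial.lcoeff ℚ 0) := by
  constructor
  · ext v v'
    simp [mul_apply]
  · ext v v'
    simp [mul_apply, Polynomial.mul_coeff_one, sum_add_distrib]

lemma ind_IY (hμ : Function.Injective μ) :
    Ind (co (diagonal fun v => μ (rs p v))) (TY p) (IY p) := by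
  set D := diagonal fun v => μ (rs p v) with hD
  apply ind_of_arcs
  intro v
  let V : Matrix (BV ι) (BV ι) ℚ := mk fun h => if ¬ inPerp p h then v h else 0
  let B : Matrix (BV ι) (BV ι) ℚ := of fun x y => (μ (rs p y) - μ (rs p x))⁻¹ * V x y
  have hB : B * D - D * B = V := by
    ext x y
    simp only [hD, Matrix.sub_apply, mul_diagonal, diagonal_mul, B, of_apply]
    by_cases e : rs p x = rs p y
    · have : V x y = 0 := mk_offblock p (fun h hh => by simp [hh]) e
      simp [this]
    · have : μ (rs p y) - μ (rs p x) ≠ 0 := sub_ne_zero.2 fun e' => e (hμ e').symm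
      field_simp
  let β : {h // ¬ inPerp p h} → Polynomial ℚ := fun h => Polynomial.X * Polynomial.C (co B h)
  let ν := aeval β (ν0 p)
  let γ : {h // inA p h} → Polynomial ℚ := fun h =>
    Polynomial.C (co D h) + Polynomial.X * Polynomial.C (v h - ν.coeff 1 * co D h)
  have hν : ν.coeff 0 = 1 := by
    have : (aeval (R := ℚ) β (ν0 p)).coeff 0 = Polynomial.aeval (0 : ℚ) (aeval β (ν0 p)) := by
      simp [Polynomial.coeff_zero_eq_eval_zero]
    rw [this, comp_aeval_apply]
    simp [β, constantCoeff_ν0]
  have b0 : ((b0 p).map (aeval β)).map (Polynomial.lcoeff ℚ 0) = 1 := by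
    apply co_ext
    intro h
    rw [co_map_linear, b0_map, co_add, co_mk, co_one, co_one, extB]
    split_ifs <;> simp [β]
  have b1 : ((R180.b0 p).map (aeval β)).map (Polynomial.lcoeff ℚ 1) = B := by
    apply co_ext
    intro h
    rw [co_map_linear, b0_map, co_add, co_mk, co_one, extB]
    have e : Polynomial.lcoeff ℚ 1 (if h = 0 then 1 else 0) = 0 := by
      split_ifs <;> simp [Polynomial.coeff_one]
    rw [map_add, e, zero_add]
    split_ifs with hh
    · rw [map_zero, co_offblock p _ hh]
      intro x y hxy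
      simp [B, hxy]
    · simp [β]
  have c0 : (mk (extA p γ)).map (Polynomial.lcoeff ℚ 0) = D := by
    apply co_ext
    intro h
    rw [co_map_linear, co_mk, extA]
    split_ifs with hh
    · simp [γ]
    · rw [map_zero, hD, co_diag p μ hh]
  obtain ⟨e0, e1⟩ := coeff_matrix_mul ((R180.b0 p).map (aeval β)) ((b0' p).map (aeval β))
  rw [(b0_mul p β).1, b0, Matrix.one_mul] at e0 e1
  have d0 : ((b0' p).map (aeval β)).map (Polynomial.lcoeff ℚ 0) = 1 := by
    rw [← e0]
    ext x y
    simp only [map_apply, Matrix.smul_apply, one_apply]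
    split_ifs
    · simpa using hν
    · simp
  have d1 : ((b0' p).map (aeval β)).map (Polynomial.lcoeff ℚ 1) = ν.coeff 1 • 1 - B := by
    rw [d0, b1, Matrix.mul_one] at e1
    rw [← sub_eq_of_eq_add e1]
    congr 1
    ext x y
    simp only [map_apply, Matrix.smul_apply, one_apply]
    split_ifs <;> simp [ν]
  refine ⟨co (Ypt p β γ), fun r hr => aeval_Ypt p β γ hr, fun h => ?_, fun h hh => ?_⟩
  · rw [← Polynomial.lcoeff_apply, ← co_map_linear, Ypt, (coeff_matrix_mul _ _).1,
      (coeff_matrix_mul _ _).1, b0, c0, d0]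
    simp
  · rw [← Polynomial.lcoeff_apply, ← co_map_linear, Ypt, (coeff_matrix_mul _ _).2,
      (coeff_matrix_mul _ _).1, (coeff_matrix_mul _ _).2, b0, c0, d0, d1, b1]
    have e : ∀ Γ : Matrix (BV ι) (BV ι) ℚ, 1 * D * (ν.coeff 1 • 1 - B) + (1 * Γ + B * D) * 1 =
        ν.coeff 1 • D + V + Γ := by
      intro Γ
      rw [← hB]
      simp only [Matrix.one_mul, Matrix.mul_one, Matrix.mul_sub, Matrix.mul_smul]
      abel
    rw [e, co_add, co_add, co_smul, co_mk, co_map_linear, co_mk, extA]
    simp only [TY, mem_filter, mem_univ, true_and] at hh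
    split_ifs with h1 h2 h2
    · simp [γ]
    · tauto
    · exact absurd (fun i _ => by rw [h2.1]; rfl) h1
    · simp [hD, co_diag p μ h2]

/-- Linear forms. -/
noncomputable def linF (κ : Type) [Fintype κ] : (κ → ZMod 2) →+ MvPolynomial κ (ZMod 2) where
  toFun x := ∑ j, C (x j) * X j
  map_zero' := by simp
  map_add' x y := by simp [add_mul, sum_add_distrib]

lemma linF_eq_zero {κ : Type} [Fintype κ] {x : κ → ZMod 2} (h : linF κ x = 0) : x = 0 := by
  classical
  ext i
  have := congrArg (eval (Pi.single i (1 : ZMod 2))) h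
  simpa [linF, Pi.single_apply] using this

variable (ι) in
/-- The weights as linear forms. -/
noncomputable def lam : PG ι →+ MvPolynomial (ι ⊕ ι) (ZMod 2) :=
  (linF (ι ⊕ ι)).comp
    { toFun := fun h => Sum.elim h.1 h.2
      map_zero' := by ext (i | i) <;> rfl
      map_add' := fun _ _ => by ext (i | i) <;> rfl }

omit [DecidableEq ι] in
lemma lam_ne_zero {h : PG ι} (hh : h ≠ 0) : lam ι h ≠ 0 := by
  intro e
  have := linF_eq_zero e
  exact hh (Prod.ext (funext fun i => congrFun this (Sum.inl i))
    (funext fun i => congrFun this (Sum.inr i)))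

theorem icls_IY (m : MO (PG ι)) : icls m (fun h => lam ι h) (TY p)ᶜ.card (IY p) ≠ 0 := by
  classical
  let π : MvPolynomial (ι ⊕ ι) (ZMod 2) →+* MvPolynomial (ι ⊕ ι) (ZMod 2) :=
    (aeval (Sum.elim (fun i => X (Sum.inl i)) fun i => if p i then 0 else X (Sum.inr i)) :
      MvPolynomial (ι ⊕ ι) (ZMod 2) →ₐ[ZMod 2] MvPolynomial (ι ⊕ ι) (ZMod 2))
  have hπ : ∀ h, π (lam ι h) =
      linF (ι ⊕ ι) (Sum.elim h.1 fun i => if p i then 0 else h.2 i) := by
    intro h
    simp only [π, lam, linF, AddMonoidHom.comp_apply, AddMonoidHom.coe_mk, ZeroHom.coe_mk,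
      RingHom.coe_coe, map_sum, map_mul, aeval_C, aeval_X, algebraMap_eq]
    apply sum_congr rfl
    rintro (i | i) _
    · rfl
    · simp only [Sum.elim_inr]
      split_ifs <;> simp
  have hA : ∀ h, π (lam ι h) = 0 ↔ inA p h := by
    intro h
    rw [hπ]
    constructor
    · intro e
      have := linF_eq_zero e
      exact ⟨funext fun i => congrFun this (Sum.inl i),
        fun i hi => by simpa [hi] using congrFun this (Sum.inr i)⟩
    · intro e
      rw [← map_zero (linF (ι ⊕ ι))]
      congr 1
      ext (i | i)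
      · simp [e.1]
      · by_cases hi : p i
        · simp [hi]
        · simp [hi, e.2 i hi]
  let μ : BV {i // p i} → ℚ := fun u => (Fintype.equivFin _ u : ℕ)
  have hμ : Function.Injective μ := fun u u' e =>
    (Fintype.equivFin _).injective (Fin.ext (Nat.cast_injective (R := ℚ) e))
  have := cls_smooth (m := m) (w := fun h => π (lam ι h)) (lb := AddMonoidHom.id _)
    (z := co (diagonal fun v => μ (rs p v))) (fun h hh => co_diag p μ fun e => hh ((hA h).2 e))
    (fun _ hh => hh) (TY p) (fun h hh => by simp [TY, (hA h).1 hh]) (IY p) _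
    (gr_IY p (π.toAddMonoidHom.comp (lam ι))) (gen_IY p hμ) (ind_IY p hμ) (icod_IY p m)
    (card_compl_add_card _)
  intro e
  apply this
  have e' := congrArg π e
  rw [icls, map_cls, map_zero] at e'
  exact e'

end Crest.Agent.R180
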