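import Crest.Agent.R180.Univ
import Crest.Agent.R180.Domain
import Crest.Agent.R180.Ycls

/-! The generic representation on a good component. -/

set_option autoImplicit false

namespace Crest.Agent.R180

open Finset MvPolynomial

lemma prime_of_max {σ : Type} [Fintype σ] [DecidableEq σ] {k : Type} [Field k] {m : MO σ}
    {G : Type} [Fintype G] [DecidableEq G] [AddCommGroup G] {w : σ → G}
    {P : Ideal (MvPolynomial σ k)} {c : ℕ} (hc : ICod m c P) (hP : Gr w P)
    (hmax : ∀ f g, IsWeightedHomogeneous w f g → f ∉ P → col P f = P)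
    {S : Type} [CommRing S] (h2 : (2 : S) = 0) {l : σ → S} (h0 : icls m l c P ≠ 0)
    {r : ℕ} (hG : Fintype.card G = 2 ^ r) : P.IsPrime := by
  have hs : ∀ f : MvPolynomial σ k, ∑ g, weightedHomogeneousComponent w g f = f := fun f => by
    rw [← finsum_eq_sum_of_fintype, sum_weightedHomogeneousComponent]
  refine ⟨fun e => h0 (by rw [e, icls_top]), fun {f f'} hf => ?_⟩
  let u := AddMonoidAlgebra.basis G (MvPolynomial σ k)
  have hu : ∀ g h, u g * u h = u (g + h) := fun g h => by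
    simp [u, AddMonoidAlgebra.single_mul_single]
  let Φ : MvPolynomial σ k → AddMonoidAlgebra (MvPolynomial σ k) G := fun f =>
    ∑ g, weightedHomogeneousComponent w g f • u g
  have hΦ : ∀ f h, u.repr (Φ f) h = weightedHomogeneousComponent w h f := fun f h =>
    congrFun (u.repr_sum_self _) h
  have key := domain_thm u (fun _ _ => 1) (fun _ _ => one_ne_zero) (fun g h => by simp [hu])
    rfl hc hP hmax h2 h0 hG (z := Φ f) (z' := Φ f')
    (fun h => hΦ f h ▸ weightedHomogeneousComponent_isWeightedHomogeneous _ _) (fun h => by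
      have : u.repr (Φ f * Φ f') h = weightedHomogeneousComponent w h (f * f') := by
        conv_rhs => rw [← hs f', mul_sum, map_sum]
        rw [mul_comm, sum_mul_sum, map_sum, Finsupp.finsetSum_apply]
        apply sum_congr rfl
        intro g _
        rw [map_sum, Finsupp.finsetSum_apply, sum_eq_single (h - g)]
        · rw [smul_mul_smul_comm, hu, map_smul, add_sub_cancel, u.repr_self, Finsupp.smul_apply,
            Finsupp.single_eq_same, smul_eq_mul, mul_one, mul_comm,
            ← comp_mul (weightedHomogeneousComponent_isWeightedHomogeneous g f'), sub_add_cancel]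
        · intro g' _ hg'
          rw [smul_mul_smul_comm, hu, map_smul, u.repr_self, Finsupp.smul_apply,
            Finsupp.single_eq_of_ne, smul_zero]
          intro e
          exact hg' (by rw [e, add_sub_cancel_left])
        · simp
      rw [this]
      exact hP _ hf h)
  simp only [hΦ] at key
  exact key.imp (fun h => hs f ▸ P.sum_mem fun g _ => h g) fun h => hs f' ▸ P.sum_mem fun g _ => h g

lemma IsEv.map {ι : Type} [Fintype ι] [DecidableEq ι] {A A' : Type} [CommRing A] [Algebra ℚ A]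
    [CommRing A'] [Algebra ℚ A'] {x : Bool → Matrix (BV ι) (BV ι) A} {φ : TT →ₐ[ℚ] A}
    {ψ : AA →+* Matrix (BV ι) (BV ι) A} (h : IsEv ntr x φ ψ) (θ : A →ₐ[ℚ] A') :
    IsEv ntr (fun b => (x b).map θ) (θ.comp φ) ((RingHom.mapMatrix (θ : A →+* A')).comp ψ) where
  alg t := by
    rw [RingHom.comp_apply, ← h.alg]
    ext v v'
    simp [Matrix.algebraMap_matrix_apply, apply_ite θ]
  tr u := by
    rw [AlgHom.comp_apply, ← h.tr]
    exact co_map θ _ 0
  gen b := by
    rw [RingHom.comp_apply, h.gen]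
    rfl

theorem exists_rep {ι : Type} [Fintype ι] [DecidableEq ι] {n : ℕ} (p : Fin n → ι → Prop)
    [∀ i, DecidablePred (p i)] (a : Fin n → AA) :
    ∃ (F : Type) (_ : Field F) (_ : Algebra ℚ F) (y : (Bool ⊕ Fin n) × PG ι → F)
      (φ : TT →ₐ[ℚ] F) (ψ : AA →+* Matrix (BV ι) (BV ι) F) (L : Finset ((Bool ⊕ Fin n) × PG ι)),
      IsEv ntr (fun b => mk fun h => y (Sum.inl b, h)) φ ψ ∧
      (∀ u v, ψ (u * v) = 0 → ψ u = 0 ∨ ψ v = 0) ∧
      (∀ i h, h ≠ 0 → y (Sum.inr i, h) = co (ψ (a i)) h) ∧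
      (∀ i, ∀ r ∈ IY (p i), aeval (fun h => y (Sum.inr i, h)) r = 0) ∧
      AlgebraicIndependent ℚ (fun j : L => y j) ∧
      Lᶜ.card ≤ ∑ i, (TY (p i))ᶜ.card + n * Fintype.card (PG ι) := by
  let σ := (Bool ⊕ Fin n) × PG ι
  let R := MvPolynomial σ ℚ
  obtain ⟨m⟩ := exists_mo σ
  let w : σ → PG ι := fun x => x.2
  obtain ⟨φ, ψ, hev⟩ := exists_ev (R := R) (E := Matrix (BV ι) (BV ι) R) ((pb ι R).coord 0)
    fun b => mk fun h => X (Sum.inl b, h)
  change IsEv ntr _ _ _ at hev
  have hψ : ∀ u, Hom0 w (ψ u) := by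
    refine hev.ind (Hom0 w) (fun q => ?_) (fun _ _ => Hom0.add) (fun _ _ => Hom0.mul)
      (fun b => hom0_mk fun h => isWeightedHomogeneous_X ℚ w (Sum.inl b, h)) fun e he => ?_
    · rw [Algebra.algebraMap_eq_smul_one]
      exact hom0_one.smul (isWeightedHomogeneous_C w q)
    · rw [Algebra.algebraMap_eq_smul_one]
      exact hom0_one.smul (he 0)
  let I : Bool ⊕ Fin n → Ideal (MvPolynomial (PG ι) ℚ) := Sum.elim (fun _ => ⊥) fun i => IY (p i)
  let c : Bool ⊕ Fin n → ℕ := Sum.elim (fun _ => 0) fun i => (TY (p i))ᶜ.card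
  have hc : ∀ j, ICod (m.res j) (c j) (I j) := by
    rintro (b | i)
    · exact fun _ _ _ => Nat.zero_le _
    · exact icod_IY _ _
  have hgr : Gr w (prodIdeal I) := by
    apply gr_prodIdeal (w := fun h => h)
    rintro (b | i)
    · intro r hr g
      rw [(Ideal.mem_bot.1 hr :), map_zero]
      exact zero_mem _
    · exact gr_IY (p i) (AddMonoidHom.id _)
  have h0 : icls m (fun x => lam ι (w x)) (∑ j, c j) (prodIdeal I) ≠ 0 := by
    rw [icls_prodIdeal m I c hc, prod_ne_zero_iff]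
    rintro (b | i) _
    · show icls _ _ 0 ⊥ ≠ 0
      rw [icls, std_bot, cls_univ]
      exact one_ne_zero
    · exact icls_IY _ _
  obtain ⟨J, c', e1, e2, e3, e4, e5, e6⟩ := steps (m := m) (w := w) (lb := lam ι)
    (univ.filter fun x : Fin n × PG ι => x.2 ≠ 0)
    (fun x => X (Sum.inr x.1, x.2) - co (ψ (a x.1)) x.2) (fun x => x.2)
    (fun x _ => (isWeightedHomogeneous_X ℚ w (Sum.inr x.1, x.2)).sub (hψ _ _))
    (fun x hx => lam_ne_zero (mem_filter.1 hx).2) (prodIdeal I) (icod_prodIdeal m I c hc)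
    (adm_weight _) hgr h0
  obtain ⟨P, f1, f2, f3, f4⟩ := exists_max J e5 e3 e6
  have hG : Fintype.card (PG ι) = 2 ^ (2 * Fintype.card ι) := by
    simp [two_mul, pow_add]
  have h2 : (2 : MvPolynomial (ι ⊕ ι) (ZMod 2)) = 0 := CharTwo.two_eq_zero
  have hprime := prime_of_max (e5.mono f1) f2 f4 h2 f3 hG
  let F := FractionRing (R ⧸ P)
  let θ : R →ₐ[ℚ] F := (IsScalarTower.toAlgHom ℚ (R ⧸ P) F).comp (Ideal.Quotient.mkₐ ℚ P)
  have hθ : ∀ r, θ r = 0 ↔ r ∈ P := fun r =>
    (map_eq_zero_iff _ (IsFractionRing.injective (R ⧸ P) F)).trans Ideal.Quotient.eq_zero_iff_mem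
  have hθ' : ∀ M : Matrix (BV ι) (BV ι) R, M.map θ = 0 ↔ ∀ h, co M h ∈ P := by
    intro M
    simp only [← hθ, ← co_map]
    exact ⟨fun e h => by rw [e, co_zero], fun e => co_ext fun h => by rw [e, co_zero]⟩
  obtain ⟨a0, L, g1, g2⟩ := exists_cone (fun x => lam ι (w x)) (tame_std P)
    (by rw [supp_ind]; exact e5.mono f1) f3
  rw [supp_ind] at g1
  refine ⟨F, inferInstance, inferInstance, fun j => θ (X j), θ.comp φ,
    (RingHom.mapMatrix (θ : R →+* F)).comp ψ, L, ?_, ?_, ?_, ?_,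
    algInd_of_cone g1 θ fun r => (hθ r).1, ?_⟩
  · simpa only [mk_map] using hev.map θ
  · intro u v huv
    have := domain_thm (pb ι R) (fun g h => sg (g.2 ⬝ᵥ h.1)) (fun _ _ => sg_ne_zero _) pb_mul
      pb_zero (e5.mono f1) f2 f4 h2 f3 hG (hψ u) (z' := ψ v)
      (by rw [← map_mul]; exact (hθ' _).1 huv)
    exact this.imp (hθ' _).2 (hθ' _).2
  · intro i h hh
    have := (hθ _).2 (f1 (e2 (i, h) (by simpa using hh)))
    rw [map_sub, sub_eq_zero, ← co_map] at this
    exact this
  · intro i r hr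
    have := (hθ _).2 (f1 (e1 (rename_mem_prodIdeal (I := I) (j := Sum.inr i) hr)))
    rwa [rename_eq_aeval, comp_aeval_apply] at this
  · rw [g2]
    refine e4.trans (add_le_add (by simp [c]) ((card_filter_le _ _).trans (by simp)))

end Crest.Agent.R180
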