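import Crest.Agent.R180.Rep
import Crest.Agent.R180.Large
import Crest.Agent.R180.Final

/-! The finite stages and the limit. -/

set_option autoImplicit false

namespace Crest.Agent.R180

open Finset MvPolynomial

lemma sum_geom_le (n D : ℕ) (c : Fin n → ℕ) (hc : ∀ i, c i * 2 ^ (i.val + 2) ≤ D) :
    2 * ∑ i, c i ≤ D := by
  have h1 : ∀ i, (c i : ℚ) ≤ D / 4 * (1 / 2) ^ i.val := by
    intro i
    have : (c i : ℚ) * 2 ^ (i.val + 2) ≤ D := by exact_mod_cast hc i
    rw [one_div, inv_pow, ← div_eq_mul_inv, div_div, le_div_iff₀ (by positivity)]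
    calc _ = (c i : ℚ) * 2 ^ (i.val + 2) := by ring
      _ ≤ _ := this
  have h2 : ∑ i : Fin n, (1 / 2 : ℚ) ^ i.val ≤ 2 := by
    rw [Fin.sum_univ_eq_sum_range (fun i => (1 / 2 : ℚ) ^ i), geom_sum_eq (by norm_num)]
    have : (0 : ℚ) < (1 / 2) ^ n := by positivity
    rw [div_le_iff_of_neg (by norm_num)]
    linarith
  have h3 : ∑ i, (c i : ℚ) ≤ D / 4 * 2 :=
    (sum_le_sum fun i _ => h1 i).trans (by rw [← mul_sum]; gcongr)
  have h4 : (2 * ∑ i, (c i : ℚ)) ≤ D := by linarith
  exact_mod_cast h4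

theorem stage (n : ℕ) (a : ℕ → AA) : ∃ J : Ideal AA, J.IsTwoSided ∧ 1 ∉ J ∧
    (∀ u v, u * v ∈ J → u ∈ J ∨ v ∈ J) ∧ (∀ i < n, relA (2 ^ (i + 2)) (a i) ∈ J) ∧
    ∀ s ≤ n, ∀ (w : Fin s → AA) (t : TT) (c₁ : Fin s → TT) (c : Bool → Fin s → Fin s → TT),
      algebraMap TT AA t ∉ J → t • (1 : AA) - ∑ l, c₁ l • w l ∈ J →
        ¬ ∀ b j, t • (gen b * w j) - ∑ l, c b j l • w l ∈ J := by
  let e := 2 * (n ^ 3 + 3 * n) + n + 2
  let p : Fin n → Fin e → Prop := fun i j => j.val < i.val + 2
  have hp : ∀ i, Fintype.card (BV {j // p i j}) = 2 ^ (i.val + 2) := by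
    intro i
    rw [Fintype.card_fun, ZMod.card, Fintype.card_fin_lt_of_le (by have := i.2; omega)]
  obtain ⟨F, _, _, y, φ, ψ, L, h1, h2, h3, h4, h5, h6⟩ := exists_rep p fun i => a i
  refine ⟨RingHom.ker ψ, inferInstance, by simp, h2, fun i hi => ?_, ?_⟩
  · rw [RingHom.mem_ker, h1.rel, ← hp ⟨i, hi⟩]
    let θ : MvPolynomial (PG (Fin e)) ℚ →ₐ[ℚ] F := aeval fun h => y (Sum.inr ⟨i, hi⟩, h)
    have : ψ (a i) - ntr (ψ (a i)) • 1 = Matrix.map (mk X - (X 0 : MvPolynomial (PG (Fin e)) ℚ) • 1) θ := by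
      apply co_ext
      intro h
      rw [co_map, co_sub, co_sub, co_smul, co_smul, co_one, co_one, co_mk]
      split_ifs with hh
      · simp [hh, ntr]
      · simp [θ, h3 _ _ hh]
    rw [this, ← trRel_map]
    apply co_ext
    intro h
    rw [co_map, co_zero]
    exact h4 _ _ (trRel_mem_IY _ _ (Or.inr rfl) h)
  · intro s hs w t c₁ c ht e1 e2
    obtain ⟨κ, _, c, k1, k2⟩ := large h1 h2 w t c₁ c ht e1 e2
    have key := card_le_of_inner h5 (Sum.elim c fun i : Fin n => y (Sum.inr i, 0)) _ _
      (fun D hD hX hY => by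
        have hx : ∀ b, (mk fun h => y (Sum.inl b, h)).map D = 0 := by
          rintro (_ | _)
          · exact hY
          · exact hX
        have hs : ∀ z : F, D z = 0 →
            (algebraMap F (Matrix (BV (Fin e)) (BV (Fin e)) F) z).map D = 0 := by
          intro z hz
          ext v v'
          simp [Matrix.algebraMap_matrix_apply, apply_ite D, hz]
        have hco : ∀ M : Matrix (BV (Fin e)) (BV (Fin e)) F, M.map D = 0 → ∀ h, D (co M h) = 0 := by
          intro M hM h
          have := co_map_linear D.toLinearMap M h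
          rw [Derivation.coeFn_coe, hM, co_zero] at this
          exact this.symm
        have hψ : ∀ u, (ψ u).map D = 0 :=
          h1.ind (fun M => M.map D = 0) (fun q => hs _ (D.map_algebraMap q))
            (fun M M' hM hM' => by rw [Matrix.map_add _ (map_add D), hM, hM', add_zero])
            (fun M M' hM hM' => by rw [map_der_mul, hM, hM']; simp) hx
            fun M hM => hs _ (hco M hM 0)
        rintro ⟨⟨b | i, h⟩, _⟩
        · simpa using hco _ (hx b) h
        · by_cases hh : h = 0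
          · subst hh
            exact hD (Sum.inr i)
          · show D (y _) = 0
            rw [h3 i h hh]
            exact hco _ (hψ _) h)
      fun D hD => k2 D fun j => hD (Sum.inl j)
    have g1 := sum_geom_le n _ (fun i => (TY (p i))ᶜ.card) fun i => hp i ▸ card_TY_compl (p i)
    have g2 := card_add_card_compl L
    have g3 : s ^ 3 + 2 * s ≤ n ^ 3 + 2 * n := by gcongr
    have g4 : e < Fintype.card (BV (Fin e)) := by simpa using Nat.lt_two_pow_self
    have g5 := Nat.le_mul_self (Fintype.card (BV (Fin e)))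
    simp only [Fintype.card_prod, Fintype.card_sum, Fintype.card_fin, Fintype.card_bool,
      Fintype.card_coe, add_mul] at key g1 g2 h6
    omega

theorem goal : Goal := by
  obtain ⟨a, ha⟩ := exists_surjective_nat AA
  choose J h1 h2 h3 h4 h5 using fun n => stage n a
  let U := Filter.hyperfilter ℕ
  have hU : ∀ i : ℕ, ∀ᶠ n in U, i < n := fun i =>
    Filter.Eventually.filter_mono Nat.hyperfilter_le_atTop (Filter.eventually_gt_atTop i)
  let I : Ideal AA :=
    { carrier := {u | ∀ᶠ n in U, u ∈ J n}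
      add_mem' := fun {u v} hu hv => by
        filter_upwards [hu, hv] with n hu hv using add_mem hu hv
      zero_mem' := Filter.Eventually.of_forall fun n => zero_mem _
      smul_mem' := fun c u hu => by
        filter_upwards [hu] with n hu using (J n).smul_mem c hu }
  have : I.IsTwoSided := ⟨fun c hu => by
    filter_upwards [hu] with n hu using (J n).mul_mem_right c hu⟩
  let π := Ideal.Quotient.mkₐ TT I
  have hπ : ∀ u, π u = 0 ↔ ∀ᶠ n in U, u ∈ J n := fun u => Ideal.Quotient.eq_zero_iff_mem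
  have hsurj : Function.Surjective π := Ideal.Quotient.mk_surjective
  have : Nontrivial (AA ⧸ I) := ⟨1, 0, fun e => by
    obtain ⟨n, hn⟩ := ((hπ 1).1 (by rw [map_one, e])).exists
    exact h2 n hn⟩
  have : NoZeroDivisors (AA ⧸ I) := ⟨fun {u v} e => by
    obtain ⟨u, rfl⟩ := hsurj u
    obtain ⟨v, rfl⟩ := hsurj v
    rw [← map_mul, hπ] at e
    rw [hπ, hπ, ← Ultrafilter.eventually_or]
    filter_upwards [e] with n hn using h3 n u v hn⟩
  have : IsDomain (AA ⧸ I) := NoZeroDivisors.to_isDomain _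
  have : Countable (AA ⧸ I) := hsurj.countable
  have : Algebra.IsIntegral TT (AA ⧸ I) := ⟨fun u => by
    obtain ⟨u, rfl⟩ := hsurj u
    obtain ⟨i, rfl⟩ := ha u
    have e : π (relA (2 ^ (i + 2)) (a i)) = 0 := by
      rw [hπ]
      filter_upwards [hU i] with n hn using h4 n i hn
    rw [relA, trRel, ← Polynomial.aeval_algHom_apply] at e
    have key : ∀ q : Polynomial TT, q.Monic →
        Polynomial.aeval (π (a i - τA (a i) • 1)) q = 0 → IsIntegral TT (π (a i)) := by
      intro q hq e
      refine ⟨_, hq.comp_X_sub_C (τA (a i)), ?_⟩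
      rw [← Polynomial.aeval_def, Polynomial.aeval_comp, ← e]
      simp [Algebra.algebraMap_eq_smul_one]
    exact key _ (charP_monic _ _) e⟩
  refine goal_of_domain (T := TT) (fun b => π (gen b)) ?_ ?_
  · have := FreeAlgebra.adjoin_range_ι TT Bool
    rw [show (Set.range fun b => π (gen b)) = π '' Set.range (FreeAlgebra.ι TT) from
      Set.range_comp π _, ← AlgHom.map_adjoin, this, Algebra.map_top, AlgHom.range_eq_top]
    exact hsurj
  · rintro ⟨s, w, t, c₁, c, e1, e2, e3⟩
    choose w' hw' using fun l => hsurj (w l)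
    have f1 : ∀ᶠ n in U, algebraMap TT AA t ∉ J n := by
      rw [Ultrafilter.eventually_not, ← hπ, π.commutes]
      exact e1
    have f2 : ∀ᶠ n in U, t • (1 : AA) - ∑ l, c₁ l • w' l ∈ J n := by
      rw [← hπ]
      simp only [map_sub, map_smul, map_one, map_sum, hw', e2, sub_self]
    have f3 : ∀ᶠ n in U, ∀ b j, t • (gen b * w' j) - ∑ l, c b j l • w' l ∈ J n := by
      simp only [Filter.eventually_all, ← hπ, map_sub, map_smul, map_mul, map_sum, hw', e3,
        sub_self, implies_true]
    obtain ⟨n, g1, g2, g3, g4⟩ := (f1.and (f2.and (f3.and (hU s)))).exists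
    exact h5 n s g4.le w' t c₁ c g1 g2 g3

end Crest.Agent.R180
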