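import Crest.Agent.R180.Newton

/-! The universal algebra with trace on two generators. -/

set_option autoImplicit false

namespace Crest.Agent.R180

open Finset

/-- Formal traces of words. -/
abbrev TT := MvPolynomial (FreeMonoid Bool) ℚ

/-- The free algebra over the formal traces. -/
abbrev AA := FreeAlgebra TT Bool

/-- The generators. -/
noncomputable def gen (b : Bool) : AA := FreeAlgebra.ι TT b

lemma basis_word (w : FreeMonoid Bool) :
    FreeAlgebra.basisFreeMonoid TT Bool w = FreeMonoid.lift gen w := by
  apply FreeAlgebra.equivMonoidAlgebraFreeMonoid.injective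
  have e : FreeAlgebra.equivMonoidAlgebraFreeMonoid (FreeMonoid.lift gen w) =
      MonoidAlgebra.of TT _ w := by
    induction w using FreeMonoid.inductionOn' with
    | one => simp only [map_one]
    | of_mul b w ih =>
      rw [map_mul, map_mul, ih, map_mul]
      congr 1
      simp [gen, FreeAlgebra.equivMonoidAlgebraFreeMonoid]
  rw [e]
  simp [FreeAlgebra.basisFreeMonoid]

/-- The formal trace. -/
noncomputable def τA : AA →ₗ[TT] TT :=
  (FreeAlgebra.basisFreeMonoid TT Bool).constr TT MvPolynomial.X

instance : Countable (FreeMonoid Bool) := inferInstanceAs (Countable (List Bool))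

instance : Countable TT :=
  (MvPolynomial.basisMonomials (FreeMonoid Bool) ℚ).repr.injective.countable

instance : Countable AA := (FreeAlgebra.basisFreeMonoid TT Bool).repr.injective.countable

/-- Evaluations of the universal algebra. -/
structure IsEv {R E : Type} [CommRing R] [Algebra ℚ R] [Ring E] [Algebra R E] (τ : E → R)
    (x : Bool → E) (φ : TT →ₐ[ℚ] R) (ψ : AA →+* E) : Prop where
  alg : ∀ t, algebraMap R E (φ t) = ψ (algebraMap TT AA t)
  tr : ∀ u, τ (ψ u) = φ (τA u)
  gen : ∀ b, ψ (gen b) = x b

variable {R E : Type} [CommRing R] [Algebra ℚ R] [Ring E] [Algebra R E]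

lemma exists_ev (τ : E →ₗ[R] R) (x : Bool → E) : ∃ φ ψ, IsEv τ x φ ψ := by
  let φ : TT →ₐ[ℚ] R := MvPolynomial.aeval fun w => τ (FreeMonoid.lift x w)
  let : Algebra TT R := φ.toRingHom.toAlgebra
  let : Algebra TT E := ((algebraMap R E).comp φ.toRingHom).toAlgebra'
    fun t e => Algebra.commutes _ _
  have : IsScalarTower TT R E := IsScalarTower.of_algebraMap_eq fun _ => rfl
  let ψ : AA →ₐ[TT] E := FreeAlgebra.lift TT x
  have hψ : ∀ b, ψ (gen b) = x b := fun b => FreeAlgebra.lift_ι_apply x b
  refine ⟨φ, ψ, fun t => (ψ.commutes t).symm, fun u => ?_, hψ⟩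
  have : (τ.restrictScalars TT).comp ψ.toLinearMap = (Algebra.linearMap TT R).comp τA := by
    apply (FreeAlgebra.basisFreeMonoid TT Bool).ext
    intro w
    simp only [LinearMap.comp_apply, τA, Module.Basis.constr_basis]
    show τ (ψ _) = φ (MvPolynomial.X w)
    rw [basis_word, MvPolynomial.aeval_X]
    congr 1
    induction w using FreeMonoid.inductionOn' with
    | one => simp
    | of_mul b w ih => simp [ih, hψ]
  exact LinearMap.congr_fun this u

variable {τ : E → R} {x : Bool → E} {φ : TT →ₐ[ℚ] R} {ψ : AA →+* E}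

lemma IsEv.smul (h : IsEv τ x φ ψ) (t : TT) (u : AA) : ψ (t • u) = φ t • ψ u := by
  rw [Algebra.smul_def, Algebra.smul_def, map_mul, h.alg]

lemma IsEv.ind (h : IsEv τ x φ ψ) (P : E → Prop)
    (hC : ∀ q, P (algebraMap R E (algebraMap ℚ R q))) (hadd : ∀ a b, P a → P b → P (a + b))
    (hmul : ∀ a b, P a → P b → P (a * b)) (hx : ∀ b, P (x b))
    (hτ : ∀ e, P e → P (algebraMap R E (τ e))) (u : AA) : P (ψ u) := by
  have h1 : ∀ w, P (ψ (FreeMonoid.lift R180.gen w)) := by
    intro w
    induction w using FreeMonoid.inductionOn' with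
    | one => simpa using hC 1
    | of_mul b w ih => simpa [h.gen] using hmul _ _ (hx b) ih
  induction u using FreeAlgebra.induction with
  | grade0 t =>
    rw [← h.alg]
    induction t using MvPolynomial.induction_on with
    | C q => simpa using hC q
    | add p q hp hq => simpa using hadd _ _ hp hq
    | mul_X p w hp =>
      have := hτ _ (h1 w)
      rw [h.tr, ← basis_word, τA, Module.Basis.constr_basis] at this
      simpa using hmul _ _ hp this
  | grade1 b => exact h.gen b ▸ hx b
  | mul a b ha hb => simpa using hmul _ _ ha hb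
  | add a b ha hb => simpa using hadd _ _ ha hb

/-- The relation making `a` integral. -/
noncomputable def relA (N : ℕ) (a : AA) : AA := trRel N τA (a - τA a • 1)

lemma IsEv.rel (h : IsEv τ x φ ψ) (N : ℕ) (a : AA) :
    ψ (relA N a) = trRel N τ (ψ a - τ (ψ a) • 1) := by
  rw [relA, map_trRel φ ψ h.alg τA τ h.tr, map_sub, h.smul, map_one, h.tr]

end Crest.Agent.R180
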