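import Crest.Agent.R180.Pauli
import Crest.Agent.R180.Loc

/-! The variety of matrices conjugate to block scalar matrices. -/

set_option autoImplicit false

namespace Crest.Agent.R180

open Finset Matrix MvPolynomial

variable {ι : Type} [Fintype ι] [DecidableEq ι] (p : ι → Prop) [DecidablePred p]

/-- The isotropic subgroup. -/
def inA (h : PG ι) : Prop := h.1 = 0 ∧ ∀ i, ¬ p i → h.2 i = 0

/-- Its orthogonal complement. -/
def inPerp (h : PG ι) : Prop := ∀ i, p i → h.1 i = 0

instance : DecidablePred (inA p) := fun h => by unfold inA; infer_instance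

instance : DecidablePred (inPerp p) := fun h => by unfold inPerp; infer_instance

variable {A : Type} [CommRing A] [Algebra ℚ A]

lemma mk_A {z : PG ι → A} (hz : ∀ h, ¬ inA p h → z h = 0) :
    ∃ μ : BV {i // p i} → A, mk z = diagonal fun v => μ (rs p v) := by
  refine ⟨fun u => ∑ b, sg (b ⬝ᵥ fun i => if h : p i then u ⟨i, h⟩ else 0) • z (0, b), ?_⟩
  ext v v'
  simp only [mk, of_apply, diagonal_apply]
  split_ifs with e
  · subst e
    rw [sub_self]
    apply sum_congr rfl
    intro b _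
    by_cases hb : inA p (0, b)
    · congr 2
      apply sum_congr rfl
      intro i _
      by_cases hi : p i
      · simp [hi, rs]
      · simp [show b i = 0 from hb.2 i hi]
    · simp [hz _ hb]
  · apply sum_eq_zero
    intro b _
    rw [hz, smul_zero]
    exact fun h => e (sub_eq_zero.1 h.1)

lemma co_eq_zero_of_block {M : Matrix (BV ι) (BV ι) A} (f : BV {i // p i} → A)
    (hM : ∀ v v', rs p v = rs p v' → M v v' = if v = v' then f (rs p v) else 0) {h : PG ι}
    (h1 : inPerp p h) (h2 : ¬ inA p h) : co M h = 0 := by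
  have e : ∀ v, rs p (v + h.1) = rs p v := by
    intro v
    ext i
    simp [rs, h1 i.1 i.2]
  simp only [co, hM _ _ (e _), add_eq_left]
  by_cases h0 : h.1 = 0
  · simp only [h0, if_true, add_zero]
    have : ∃ i, ¬ p i ∧ h.2 i ≠ 0 := by
      by_contra hne
      push Not at hne
      exact h2 ⟨h0, hne⟩
    obtain ⟨i, hi, hi'⟩ := this
    rw [sum_sg_mul h.2 i hi' (fun v => f (rs p v)), smul_zero]
    intro v
    congr 1
    ext j
    have : j.1 ≠ i := fun e => hi (e ▸ j.2)
    simp [rs, Pi.single_eq_of_ne this]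
  · simp [h0]

lemma co_diag (μ : BV {i // p i} → A) {h : PG ι} (h2 : ¬ inA p h) :
    co (diagonal fun v => μ (rs p v)) h = 0 := by
  by_cases h1 : inPerp p h
  · exact co_eq_zero_of_block p μ (fun v v' _ => by rw [diagonal_apply]) h1 h2
  · have : h.1 ≠ 0 := fun e => h1 fun i _ => by rw [e]; rfl
    simp [co, this]

omit [DecidablePred p] in
lemma co_offblock {M : Matrix (BV ι) (BV ι) A} (hM : ∀ v v', rs p v = rs p v' → M v v' = 0)
    {h : PG ι} (h1 : inPerp p h) : co M h = 0 := by
  have e : ∀ v, rs p (v + h.1) = rs p v := by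
    intro v
    ext i
    simp [rs, h1 i.1 i.2]
  simp [co, hM _ _ (e _)]

omit [DecidablePred p] in
lemma mk_offblock {z : PG ι → A} (hz : ∀ h, inPerp p h → z h = 0) {v v' : BV ι}
    (hv : rs p v = rs p v') : mk z v v' = 0 := by
  simp only [mk, of_apply]
  apply sum_eq_zero
  intro b _
  rw [hz, smul_zero]
  intro i hi
  exact sub_eq_zero.2 (congrFun hv ⟨i, hi⟩)

/-- Extension by zero. -/
def extB (β : {h // ¬ inPerp p h} → A) (h : PG ι) : A := if hh : ¬ inPerp p h then β ⟨h, hh⟩ else 0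

/-- Extension by zero. -/
def extA (γ : {h // inA p h} → A) (h : PG ι) : A := if hh : inA p h then γ ⟨h, hh⟩ else 0

/-- The generic conjugating matrix. -/
noncomputable def b0 : Matrix (BV ι) (BV ι) (MvPolynomial {h // ¬ inPerp p h} ℚ) :=
  1 + mk (extB p X)

lemma hom0_b0 : Hom0 Subtype.val (b0 p) := by
  refine hom0_one.add (hom0_mk fun h => ?_)
  unfold extB
  split_ifs with hh
  · exact isWeightedHomogeneous_zero _ _ _
  · exact isWeightedHomogeneous_X ℚ Subtype.val (⟨h, hh⟩ : {h // ¬ inPerp p h})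

/-- Its homogeneous adjugate. -/
noncomputable def b0' : Matrix (BV ι) (BV ι) (MvPolynomial {h // ¬ inPerp p h} ℚ) :=
  (exists_adj (hom0_b0 p)).choose

/-- Its homogeneous determinant. -/
noncomputable def ν0 : MvPolynomial {h // ¬ inPerp p h} ℚ :=
  weightedHomogeneousComponent Subtype.val 0 (b0 p).det

lemma b0_map (β : {h // ¬ inPerp p h} → A) : (b0 p).map (aeval β) = 1 + mk (extB p β) := by
  rw [b0, Matrix.map_add _ (map_add _), Matrix.map_one _ (map_zero _) (map_one _), mk_map]
  congr 2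
  ext1 h
  unfold extB
  split_ifs <;> simp

lemma constantCoeff_ν0 : constantCoeff (ν0 p) = 1 := by
  classical
  rw [ν0, constantCoeff_eq, coeff_weightedHomogeneousComponent, if_pos (by simp),
    ← constantCoeff_eq]
  have h := (aeval (R := ℚ) (fun _ : {h // ¬ inPerp p h} => (0 : ℚ))).map_det (b0 p)
  rw [AlgHom.mapMatrix_apply, b0_map] at h
  have e : mk (extB p fun _ : {h // ¬ inPerp p h} => (0 : ℚ)) = 0 := by
    ext v v'
    simp [mk, extB]
  rw [e, add_zero, det_one] at h
  simpa using h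

lemma b0_mul (β : {h // ¬ inPerp p h} → A) :
    (b0 p).map (aeval β) * (b0' p).map (aeval β) = aeval β (ν0 p) • 1 ∧
    (b0' p).map (aeval β) * (b0 p).map (aeval β) = aeval β (ν0 p) • 1 := by
  have e : ((ν0 p) • (1 : Matrix (BV ι) (BV ι) (MvPolynomial {h // ¬ inPerp p h} ℚ))).map
      (aeval β) = aeval β (ν0 p) • 1 := by
    ext v v'
    simp [one_apply, apply_ite (aeval β)]
  constructor
  · rw [← Matrix.map_mul, b0', (exists_adj (hom0_b0 p)).choose_spec.2.1, ← e, ν0]
  · rw [← Matrix.map_mul, b0', (exists_adj (hom0_b0 p)).choose_spec.2.2, ← e, ν0]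

/-- The parametrization. -/
noncomputable def Ypt (β : {h // ¬ inPerp p h} → A) (γ : {h // inA p h} → A) :
    Matrix (BV ι) (BV ι) A :=
  (b0 p).map (aeval β) * mk (extA p γ) * (b0' p).map (aeval β)

lemma Ypt_map {A' : Type} [CommRing A'] [Algebra ℚ A'] (φ : A →ₐ[ℚ] A')
    (β : {h // ¬ inPerp p h} → A) (γ : {h // inA p h} → A) :
    (Ypt p β γ).map φ = Ypt p (fun h => φ (β h)) fun h => φ (γ h) := by
  have e : ∀ M : Matrix (BV ι) (BV ι) (MvPolynomial {h // ¬ inPerp p h} ℚ),
      (M.map (aeval β)).map φ = M.map (aeval fun h => φ (β h)) := by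
    intro M
    ext v v'
    simp [comp_aeval_apply]
  rw [Ypt, Matrix.map_mul, Matrix.map_mul, e, e, mk_map, Ypt]
  congr 3
  ext1 h
  unfold extA
  split_ifs <;> simp

/-- The coordinate functions of the generic point. -/
noncomputable def Ygen : PG ι → MvPolynomial ({h // ¬ inPerp p h} ⊕ {h // inA p h}) ℚ :=
  co (Ypt p (fun h => X (Sum.inl h)) fun h => X (Sum.inr h))

/-- The ideal of the variety. -/
noncomputable def IY : Ideal (MvPolynomial (PG ι) ℚ) := RingHom.ker (aeval (R := ℚ) (Ygen p))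

lemma aeval_Ypt (β : {h // ¬ inPerp p h} → A) (γ : {h // inA p h} → A)
    {r : MvPolynomial (PG ι) ℚ} (hr : r ∈ IY p) : aeval (co (Ypt p β γ)) r = 0 := by
  have : aeval (co (Ypt p β γ)) = (aeval (Sum.elim β γ)).comp (aeval (R := ℚ) (Ygen p)) := by
    ext1 h
    simp [Ygen, ← co_map, Ypt_map]
  rw [this, AlgHom.comp_apply, (RingHom.mem_ker.1 hr :), map_zero]

lemma Hom0.map_aeval {σ τ : Type} {w : σ → PG ι} {w' : τ → PG ι} {y : σ → MvPolynomial τ ℚ}
    (hy : ∀ i, IsWeightedHomogeneous w' (y i) (w i))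
    {M : Matrix (BV ι) (BV ι) (MvPolynomial σ ℚ)} (hM : Hom0 w M) : Hom0 w' (M.map (aeval y)) :=
  fun h => by
    rw [co_map]
    exact hom_aeval hy (hM h)

lemma Ygen_hom (h : PG ι) :
    IsWeightedHomogeneous (Sum.elim Subtype.val Subtype.val) (Ygen p h) h := by
  have hy : ∀ i : {h // ¬ inPerp p h}, IsWeightedHomogeneous (Sum.elim Subtype.val Subtype.val)
      (X (Sum.inl i) : MvPolynomial ({h // ¬ inPerp p h} ⊕ {h // inA p h}) ℚ) i.1 :=
    fun i => isWeightedHomogeneous_X ℚ _ _
  refine (((hom0_b0 p).map_aeval hy).mul (hom0_mk fun h => ?_)).mul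
    ((exists_adj (hom0_b0 p)).choose_spec.1.map_aeval hy) h
  unfold extA
  split_ifs with hh
  · exact isWeightedHomogeneous_X ℚ _ (Sum.inr (⟨h, hh⟩ : {h // inA p h}))
  · exact isWeightedHomogeneous_zero _ _ _

lemma gr_IY {M : Type} [AddCommGroup M] (φ : PG ι →+ M) : Gr (fun h => φ h) (IY p) :=
  gr_ker fun h => hom_map φ (Ygen_hom p h)

/-- The tangent directions. -/
def TY : Finset (PG ι) := univ.filter fun h => ¬ inPerp p h ∨ inA p h

lemma card_TY : Fintype.card ({h // ¬ inPerp p h} ⊕ {h // inA p h}) = (TY p).card := by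
  rw [Fintype.card_sum, Fintype.card_subtype, Fintype.card_subtype, TY, filter_or,
    card_union_of_disjoint]
  rw [disjoint_filter]
  intro h _ h1 h2
  exact h1 fun i _ => by rw [h2.1]; rfl

lemma icod_IY (m : MO (PG ι)) : ICod m (TY p)ᶜ.card (IY p) := by
  intro a L hL
  have h := (algInd_of_cone hL (aeval (R := ℚ) (Ygen p)) fun r hr => hr).cardinalMk_le_trdeg
  rw [MvPolynomial.trdeg_of_isDomain, Cardinal.lift_id, Cardinal.mk_fintype, Cardinal.mk_fintype,
    card_TY, Fintype.card_coe, Nat.cast_le] at h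
  rw [card_compl, card_compl]
  omega

lemma card_TY_compl : (TY p)ᶜ.card * Fintype.card (BV {i // p i}) ≤ Fintype.card (PG ι) := by
  rw [← card_univ (α := BV {i // p i}), ← card_product, ← card_univ]
  apply card_le_card_of_injOn
    (fun x => (x.1.1 + fun i => if h : p i then x.2 ⟨i, h⟩ else 0, x.1.2)) (by simp)
  rintro ⟨h, u⟩ hx ⟨h', u'⟩ hx' e
  have h1 : inPerp p h := by
    simp only [TY, coe_product, Set.mem_prod, mem_coe, mem_compl, mem_filter, mem_univ,
      true_and] at hx
    tauto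
  have h2 : inPerp p h' := by
    simp only [TY, coe_product, Set.mem_prod, mem_coe, mem_compl, mem_filter, mem_univ,
      true_and] at hx'
    tauto
  simp only [Prod.mk.injEq] at e
  have e1 : u = u' := by
    ext i
    simpa [h1 i.1 i.2, h2 i.1 i.2, i.2] using congrFun e.1 i.1
  subst e1
  exact Prod.ext (Prod.ext (add_right_cancel e.1) e.2) rfl

lemma trRel_mem_IY (x : MvPolynomial (PG ι) ℚ) (hx : x = 0 ∨ x = X 0) (h : PG ι) :
    co (trRel (Fintype.card (BV {i // p i})) ntr (mk X - x • 1)) h ∈ IY p := by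
  rw [IY, RingHom.mem_ker, ← co_map, trRel_map]
  let β : {h // ¬ inPerp p h} → MvPolynomial ({h // ¬ inPerp p h} ⊕ {h // inA p h}) ℚ :=
    fun h => X (Sum.inl h)
  let γ : {h // inA p h} → MvPolynomial ({h // ¬ inPerp p h} ⊕ {h // inA p h}) ℚ :=
    fun h => X (Sum.inr h)
  obtain ⟨h1, h2⟩ := b0_mul p β
  have hν : aeval β (ν0 p) ≠ 0 := by
    intro e
    have := congrArg (aeval (R := ℚ) fun _ => (0 : ℚ)) e
    rw [comp_aeval_apply] at this
    simp [β, constantCoeff_ν0] at this
  obtain ⟨μ, hμ⟩ := mk_A p (z := extA p γ) fun h hh => dif_neg hh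
  have e0 : (mk X - x • (1 : Matrix (BV ι) (BV ι) (MvPolynomial (PG ι) ℚ))).map
      (aeval (R := ℚ) (Ygen p)) = Ypt p β γ - aeval (Ygen p) x • 1 := by
    rw [Matrix.map_sub _ (map_sub _), mk_map]
    congr 1
    · simp [Ygen, β, γ]
    · refine Matrix.ext fun v v' => ?_
      simp only [map_apply, Matrix.smul_apply, one_apply]
      split_ifs <;> simp
  obtain ⟨y, hy⟩ : ∃ y, aeval (Ygen p) x = y * aeval β (ν0 p) := by
    rcases hx with rfl | rfl
    · exact ⟨0, by simp⟩
    · refine ⟨ntr (mk (extA p γ)), ?_⟩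
      rw [aeval_X]
      show ntr (Ypt p β γ) = _
      rw [Ypt, ntr_comm, ← Matrix.mul_assoc, h2, smul_mul_assoc, Matrix.one_mul, ntr_smul, mul_comm]
  have e1 : Ypt p β γ - aeval (Ygen p) x • 1 = (b0 p).map (aeval β) *
      diagonal (fun v => (fun u => μ u - y) (rs p v)) * (b0' p).map (aeval β) := by
    rw [Ypt, hμ, hy, mul_smul, ← h1, ← smul_mul_assoc, ← Matrix.sub_mul, ← mul_one
      (y • (b0 p).map (aeval β)), smul_mul_assoc, ← mul_smul_comm, ← Matrix.mul_sub]
    congr 2
    ext v v'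
    simp only [Matrix.sub_apply, diagonal_apply, Matrix.smul_apply, one_apply]
    split_ifs <;> simp
  rw [e0, e1, trRel_conj p (fun u => μ u - y) (fun x hx => (mul_eq_zero.1 hx).resolve_left hν)
    h1 h2, co_zero]

end Crest.Agent.R180
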